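import Vale.Agent.P168.Fin.ASS.Average

/-!
P168: the increment of the pressure controls the cavity functional of the perturbed models.
-/

namespace Vale.Agent.P168

open MeasureTheory Filter
open scoped Topology

open ASS in
/-- On average over the strengths the cavity functional is below any limit point of the pressure. -/
theorem exists_cavity_le {K : ℕ} (hK2 : 2 ≤ K) {lam B0 : ℝ} (hl : 0 < lam)
    {μ : Measure (Table K)} {η : Measure ℝ} [IsProbabilityMeasure μ] [IsProbabilityMeasure η]
    (hb : BoundedModel B0 μ η) {L0 : ℝ} (hL : ∃ᶠ N in atTop, pressure lam μ η N ≤ L0) (M : ℕ)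
    {ε : ℝ} (hε : 0 < ε) (N0 : ℕ) :
    ∃ N, N0 ≤ N ∧
      Integrable (fun x : Par M => cavityVal lam μ η (stageCol lam μ η N x)) (boxLaw M) ∧
      ∫ x, cavityVal lam μ η (stageCol (M := M) lam μ η N x) ∂boxLaw M ≤ L0 + ε := by
  have hK : 1 ≤ K := le_trans one_le_two hK2
  have : NeZero K := ⟨by omega⟩
  obtain ⟨C, hC⟩ := exists_increment_bound hK hl.le hb M
  set f : ℕ → Par M → ℝ := fun N x => press μ η N (lam * N) x with hf
  set cav : ℕ → Par M → ℝ := fun N x => cavityVal lam μ η (stageCol lam μ η N x) with hcav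
  have hfi : ∀ N, 1 ≤ N → Integrable (f N) (boxLaw M) ∧
      |∫ x, f N x ∂boxLaw M - N * pressure lam μ η N| ≤ sN N * pertSize M := fun N hN => by
    have : NeZero N := ⟨by omega⟩
    have hd : ∀ᵐ x ∂boxLaw M, |f N x - N * pressure lam μ η N| ≤ sN N * pertSize M :=
      (ae_box M).mono fun x hx => abs_press_sub_pressure hl.le hb hx
    have hi : Integrable (f N) (boxLaw M) :=
      (integrable_const (|(N : ℝ) * pressure lam μ η N| + sN N * pertSize M)).mono'
        (measurable_press _).aestronglyMeasurable (hd.mono fun x hx => by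
          rw [Real.norm_eq_abs]
          linarith [abs_sub_abs_le_abs_sub (f N x) (N * pressure lam μ η N)])
    refine ⟨hi, ?_⟩
    have h := norm_integral_le_of_norm_le_const (f := fun x => f N x - N * pressure lam μ η N) hd
    rw [integral_sub hi (integrable_const _)] at h
    simpa using h
  have hcavi : ∀ N, 1 ≤ N → Integrable (cav N) (boxLaw M) ∧
      |∫ x, f (N + 1) x ∂boxLaw M - ∫ x, f N x ∂boxLaw M - ∫ x, cav N x ∂boxLaw M| ≤
        C * (N : ℝ) ^ (-(1 / 5) : ℝ) := fun N hN => by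
    have : NeZero N := ⟨by omega⟩
    have i1 := (hfi (N + 1) (by omega)).1
    have i0 := (hfi N hN).1
    have hd : ∀ᵐ x ∂boxLaw M, ‖f (N + 1) x - f N x - cav N x‖ ≤ C * (N : ℝ) ^ (-(1 / 5) : ℝ) :=
      (ae_box M).mono fun x hx => hC N hN x hx
    have he : cav N =ᵐ[boxLaw M] fun x => siteVal lam μ η N x - edgeVal lam μ η N x :=
      (ae_box M).mono fun x hx => cavityVal_eq hK hl.le hb hx
    have hm : AEStronglyMeasurable (cav N) (boxLaw M) :=
      (((measurable_siteVal lam).sub (measurable_press _)).aestronglyMeasurable).congr he.symm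
    have hic : Integrable (cav N) (boxLaw M) :=
      (((i1.sub i0).norm.add (integrable_const (C * (N : ℝ) ^ (-(1 / 5) : ℝ)))).mono' hm
        (hd.mono fun x hx => by
          simp only [Pi.add_apply, Pi.sub_apply, Real.norm_eq_abs] at hx ⊢
          linarith [abs_sub_abs_le_abs_sub (cav N x) (f (N + 1) x - f N x),
            abs_sub_comm (f (N + 1) x - f N x) (cav N x)]))
    refine ⟨hic, ?_⟩
    have h := norm_integral_le_of_norm_le_const hd
    rw [integral_sub (f := fun x => f (N + 1) x - f N x) (i1.sub i0) hic, integral_sub i1 i0,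
      probReal_univ, mul_one] at h
    exact h
  by_contra! hcon
  have h1 : ∀ᶠ N : ℕ in atTop, C * (N : ℝ) ^ (-(1 / 5) : ℝ) ≤ ε / 4 := by
    have h : Tendsto (fun N : ℕ => C * (N : ℝ) ^ (-(1 / 5) : ℝ)) atTop (𝓝 (C * 0)) :=
      ((tendsto_rpow_neg_atTop (by norm_num : (0 : ℝ) < 1 / 5)).comp
        tendsto_natCast_atTop_atTop).const_mul C
    rw [mul_zero] at h
    exact h.eventually (eventually_le_nhds (by positivity))
  obtain ⟨N1, hN1⟩ := eventually_atTop.1 (h1.and (eventually_ge_atTop (max N0 1)))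
  set g : ℕ → ℝ := fun N => ∫ x, f N x ∂boxLaw M with hg
  have hstep : ∀ N, N1 ≤ N → g N + (L0 + 3 * ε / 4) ≤ g (N + 1) := fun N hN => by
    obtain ⟨hsmall, hge⟩ := hN1 N hN
    obtain ⟨hi, hd⟩ := hcavi N ((le_max_right _ _).trans hge)
    have hbig := hcon N ((le_max_left _ _).trans hge) hi
    rw [abs_le] at hd
    simp only [hg, hcav] at hd ⊢
    linarith [hd.1]
  have hlin : ∀ j : ℕ, g N1 + j * (L0 + 3 * ε / 4) ≤ g (N1 + j) := fun j => by
    induction j with
    | zero => simp
    | succ j ih =>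
      have := hstep (N1 + j) (Nat.le_add_right _ _)
      push_cast
      rw [← add_assoc N1 j 1]
      linarith
  set cst := g N1 - N1 * (L0 + 3 * ε / 4) with hcst
  have h2 : ∀ᶠ T : ℕ in atTop, sN T / T * pertSize M + |cst| / T < 3 * ε / 4 := by
    have ha : Tendsto (fun T : ℕ => (T : ℝ) ^ (-(1 / 5) : ℝ) * pertSize M + |cst| / T) atTop
        (𝓝 (0 * pertSize M + 0)) :=
      (((tendsto_rpow_neg_atTop (by norm_num : (0 : ℝ) < 1 / 5)).comp
        tendsto_natCast_atTop_atTop).mul_const _).add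
        (tendsto_const_div_atTop_nhds_zero_nat |cst|)
    rw [zero_mul, add_zero] at ha
    filter_upwards [ha.eventually (eventually_lt_nhds (by positivity : (0 : ℝ) < 3 * ε / 4)),
      eventually_ge_atTop 1] with T hT hT1
    have hT0 : (0 : ℝ) < T := by exact_mod_cast hT1
    have e : sN T / T = (T : ℝ) ^ (-(1 / 5) : ℝ) := by
      rw [sN, show (-(1 / 5) : ℝ) = 4 / 5 - 1 by norm_num, Real.rpow_sub_one hT0.ne']
    rw [e]
    exact hT
  obtain ⟨T, hTL, hT2, hT1⟩ := (hL.and_eventually (h2.and (eventually_ge_atTop (max N1 1)))).exists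
  have hT0 : (0 : ℝ) < T := by exact_mod_cast (le_max_right N1 1).trans hT1
  have hd := (hfi T ((le_max_right _ _).trans hT1)).2
  obtain ⟨j, rfl⟩ := Nat.exists_eq_add_of_le ((le_max_left _ _).trans hT1)
  have hl' := hlin j
  rw [abs_le] at hd
  have hp := mul_le_mul_of_nonneg_left hTL hT0.le
  have hsm := (mul_lt_mul_of_pos_right hT2 hT0)
  rw [add_mul, div_mul_eq_mul_div, div_mul_cancel₀ _ hT0.ne', div_mul_cancel₀ _ hT0.ne'] at hsm
  simp only [hg] at hl'
  simp only [hcst] at hsm
  push_cast at hl' hp hsm hd ⊢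
  nlinarith [le_abs_self (g N1 - N1 * (L0 + 3 * ε / 4)), neg_abs_le (g N1 - N1 * (L0 + 3 * ε / 4)),
    hd.1, hd.2]

end Vale.Agent.P168
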