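import Vale.Agent.P168.Fin.Ident

/-!
P168: a limit of the laws of the overlaps of a sequence of stages.
-/

namespace Vale.Agent.P168.Exi

open MeasureTheory ProbabilityTheory Finset Filter
open scoped Topology symmDiff

variable {K : ℕ} {lam : ℝ} {μ : Measure (Table K)} {η : Measure ℝ} [IsProbabilityMeasure μ]
  [IsProbabilityMeasure η]

omit [IsProbabilityMeasure μ] [IsProbabilityMeasure η] in
lemma exists_bound {f : Cube → ℝ} (hf : Continuous f) : ∃ D, ∀ ω, |f ω| ≤ D := by
  obtain ⟨D, hD⟩ := isCompact_univ.exists_bound_of_continuousOn (hf.continuousOn (s := Set.univ))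
  exact ⟨D, fun ω => (Real.norm_eq_abs _).symm.le.trans (hD ω trivial)⟩

omit [IsProbabilityMeasure μ] [IsProbabilityMeasure η] in
lemma depBelow_coord {n : ℕ} (j : Spc) {A : Pat j.1} (hA : Below n A) : DepBelow n (R j A) :=
  fun _ _ h => h j A hA

omit [IsProbabilityMeasure μ] [IsProbabilityMeasure η] in
lemma depBelow_mono {n m : ℕ} {f : Cube → ℝ} (hf : DepBelow n f) (h : n ≤ m) : DepBelow m f :=
  fun ω ω' he => hf ω ω' fun j A hA => he j A (below_mono hA h)

omit [IsProbabilityMeasure μ] [IsProbabilityMeasure η] in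
lemma depBelow_mul {n : ℕ} {f g : Cube → ℝ} (hf : DepBelow n f) (hg : DepBelow n g) :
    DepBelow n fun ω => f ω * g ω :=
  fun ω ω' he => congrArg₂ (· * ·) (hf ω ω' he) (hg ω ω' he)

/-- The law of the coordinates of all replicas of a stage. -/
noncomputable def stageLaw (lam : ℝ) (μ : Measure (Table K)) (η : Measure ℝ) (S : Stages) (t : ℕ) :
    Measure Cube :=
  ∑ ρ : Fin t → Conf (S.N t), ((disLaw t (S.N t) lam μ η).withDensity
    fun ω => ENNReal.ofReal (gw (pertHam (S.x t) ω) ρ)).map fun ω => stageCube ω ρ

omit [IsProbabilityMeasure η] in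
lemma measurable_gw_stage (S : Stages) (t : ℕ) (ρ : Fin t → Conf (S.N t)) :
    Measurable fun ω : Dis K t (S.N t) => gw (pertHam (S.x t) ω) ρ :=
  measurable_gw (measurable_pertHam (S.x t)) ρ

lemma isFiniteMeasure_piece (S : Stages) (t : ℕ) (ρ : Fin t → Conf (S.N t)) :
    IsFiniteMeasure ((disLaw t (S.N t) lam μ η).withDensity
      fun ω => ENNReal.ofReal (gw (pertHam (S.x t) ω) ρ)) := by
  refine isFiniteMeasure_withDensity (ne_of_lt (lt_of_le_of_lt
    (lintegral_mono fun ω => ENNReal.ofReal_le_one.2 (gw_le_one _ ρ)) ?_))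
  simp

/-- The expectations of a stage as integrals. -/
lemma integral_stageLaw (S : Stages) (t : ℕ) {f : Cube → ℝ} (hf : Measurable f) {D : ℝ}
    (hD : ∀ ω, |f ω| ≤ D) :
    ∫ ω, f ω ∂stageLaw lam μ η S t = stageExp lam μ η (S.N t) (S.x t) t f := by
  have := fun ρ => isFiniteMeasure_piece (lam := lam) (μ := μ) (η := η) S t ρ
  unfold stageLaw
  rw [integral_finsetSum_measure fun ρ _ => Integrable.of_bound hf.aestronglyMeasurable D
    (Eventually.of_forall fun ω => (Real.norm_eq_abs _).le.trans (hD ω))]
  simp only [stageExp, avgN, gibbs_eq_gav, gav]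
  rw [integral_finsetSum _ fun ρ _ => ?_]
  · refine sum_congr rfl fun ρ _ => ?_
    rw [integral_map (measurable_stageCube ρ).aemeasurable hf.aestronglyMeasurable,
      integral_withDensity_eq_integral_toReal_smul (measurable_gw_stage S t ρ).ennreal_ofReal
        (Eventually.of_forall fun _ => ENNReal.ofReal_lt_top)]
    exact integral_congr_ae (Eventually.of_forall fun ω => by
      simp [ENNReal.toReal_ofReal (gw_nonneg _ ρ)])
  · refine Integrable.of_bound ((measurable_gw_stage S t ρ).mul
      (hf.comp (measurable_stageCube ρ))).aestronglyMeasurable D (Eventually.of_forall fun ω => ?_)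
    rw [Real.norm_eq_abs, abs_mul, abs_of_nonneg (gw_nonneg _ ρ)]
    exact (mul_le_mul (gw_le_one _ ρ) (hD _) (abs_nonneg _) zero_le_one).trans (one_mul D).le

lemma isProbabilityMeasure_stageLaw (S : Stages) (t : ℕ) :
    IsProbabilityMeasure (stageLaw lam μ η S t) := by
  have := fun ρ => isFiniteMeasure_piece (lam := lam) (μ := μ) (η := η) S t ρ
  have : IsFiniteMeasure (stageLaw lam μ η S t) := by unfold stageLaw; infer_instance
  have h := integral_stageLaw (lam := lam) (μ := μ) (η := η) S t (measurable_const (a := (1 : ℝ)))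
    (D := 1) fun _ => by simp
  simp only [stageExp, avgN, gibbs_eq_gav, gav_const, integral_const, smul_eq_mul, mul_one,
    probReal_univ] at h
  exact ⟨(ENNReal.toReal_eq_one_iff _).1 h⟩

omit [IsProbabilityMeasure μ] [IsProbabilityMeasure η] in
/-- A stage with more replicas has the same law of the coordinates of fewer. -/
lemma stageExp_mono {M N n m : ℕ} (hnm : n ≤ m) (x : Par M) {f : Cube → ℝ} (hf : DepBelow n f) :
    stageExp lam μ η N x m f = stageExp lam μ η N x n f := by
  simp only [stageExp, avgN, gibbs_eq_gav]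
  refine integral_congr_ae (Eventually.of_forall fun ω => ?_)
  refine Eq.trans (congrArg (gav _ m) (funext fun ρ => depBelow_stage hnm hf ω ρ)) ?_
  exact gav_comp _ (Fin.castLE_injective hnm) fun τ => f (stageCube ω τ)

omit [IsProbabilityMeasure μ] [IsProbabilityMeasure η] in
/-- Renaming the replicas of a stage. -/
lemma stageExp_relabel {M N n m : ℕ} (x : Par M) {e : ℕ → ℕ} (he : Function.Injective e)
    (hem : ∀ l < n, e l < m) {f : Cube → ℝ} (hf : DepBelow n f) :
    stageExp lam μ η N x m (fun ω => f (relabel e ω)) = stageExp lam μ η N x n f := by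
  set g : Fin n → Fin m := fun l => ⟨e l, hem l l.2⟩
  have hg : Function.Injective g := fun a b h => Fin.ext (he (congrArg Fin.val h))
  simp only [stageExp, avgN, gibbs_eq_gav]
  refine integral_congr_ae (Eventually.of_forall fun ω => ?_)
  refine Eq.trans (congrArg (gav _ m) (funext fun ρ => hf _ (stageCube ω (ρ ∘ g)) fun j A hA => ?_)) ?_
  · exact stageCube_comp g he (fun l => rfl) ω ρ j A hA
  · exact gav_comp _ hg fun τ => f (stageCube ω τ)

/-- The coordinates of the first `n` replicas. -/
noncomputable def trunc (n : ℕ) (ω : Cube) : Cube :=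
  open Classical in fun a => if Below n a.2 then ω a else ⟨0, by norm_num⟩

omit [IsProbabilityMeasure μ] [IsProbabilityMeasure η] in
lemma continuous_trunc (n : ℕ) : Continuous (trunc n) := by
  refine continuous_pi fun a => ?_
  unfold trunc
  split
  · exact continuous_apply a
  · exact continuous_const

omit [IsProbabilityMeasure μ] [IsProbabilityMeasure η] in
lemma tendsto_trunc (ω : Cube) : Tendsto (fun n => trunc n ω) atTop (𝓝 ω) := by
  refine tendsto_pi_nhds.2 fun a => tendsto_const_nhds.congr' ?_
  filter_upwards [eventually_ge_atTop (a.2.sup Prod.fst + 1)] with n hn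
  simp [trunc, below_mono (below_sup a.2) hn]

omit [IsProbabilityMeasure μ] [IsProbabilityMeasure η] in
lemma depBelow_trunc (n : ℕ) (F : Cube → ℝ) : DepBelow n fun ω => F (trunc n ω) :=
  fun ω ω' h => congrArg F (funext fun a => by
    unfold trunc
    split
    · next ha => exact Subtype.ext (h a.1 a.2 ha)
    · rfl)

omit [IsProbabilityMeasure μ] [IsProbabilityMeasure η] in
lemma continuous_relabel (e : ℕ → ℕ) : Continuous (relabel e) :=
  continuous_pi fun _ => continuous_apply _

/-- A subsequence of stages with converging laws, and the limit is exchangeable. -/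
lemma exists_stage_limit (S : Stages) :
    ∃ (φ : ℕ → ℕ) (P : Measure Cube), StrictMono φ ∧ IsProbabilityMeasure P ∧
      (∀ n (f : Cube → ℝ), Continuous f → DepBelow n f →
        Tendsto (fun t => stageExp lam μ η (S.N (φ t)) (S.x (φ t)) n f) atTop
          (𝓝 (∫ ω, f ω ∂P))) ∧
      ∀ e : ℕ → ℕ, Function.Injective e → P.map (relabel e) = P := by
  set Q : ℕ → ProbabilityMeasure Cube := fun t =>
    ⟨stageLaw lam μ η S t, isProbabilityMeasure_stageLaw S t⟩
  obtain ⟨P, -, φ, hφ, hlim⟩ := (isCompact_univ (X := ProbabilityMeasure Cube)).tendsto_subseq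
    (x := Q) fun _ => Set.mem_univ _
  have hconv : ∀ n (f : Cube → ℝ), Continuous f → DepBelow n f →
      Tendsto (fun t => stageExp lam μ η (S.N (φ t)) (S.x (φ t)) n f) atTop
        (𝓝 (∫ ω, f ω ∂(P : Measure Cube))) := by
    intro n f hf hd
    obtain ⟨D, hD⟩ := exists_bound hf
    have h := (ProbabilityMeasure.tendsto_iff_forall_integral_tendsto.1 hlim)
      (BoundedContinuousFunction.mkOfCompact ⟨f, hf⟩)
    simp only [BoundedContinuousFunction.mkOfCompact_apply, ContinuousMap.coe_mk,
      Function.comp_apply] at h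
    refine h.congr' ?_
    filter_upwards [hφ.tendsto_atTop.eventually (eventually_ge_atTop n)] with t ht
    exact (integral_stageLaw S (φ t) hf.measurable hD).trans (stageExp_mono ht _ hd)
  refine ⟨φ, P, hφ, inferInstance, hconv, fun e he => ?_⟩
  have hm := (continuous_relabel e).measurable
  have := Measure.isProbabilityMeasure_map (μ := (P : Measure Cube)) hm.aemeasurable
  refine ext_of_forall_integral_eq_of_IsFiniteMeasure fun F => ?_
  rw [integral_map hm.aemeasurable F.continuous.aestronglyMeasurable]
  have key : ∀ m, ∫ ω, F (trunc m (relabel e ω)) ∂(P : Measure Cube) =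
      ∫ ω, F (trunc m ω) ∂(P : Measure Cube) := by
    intro m
    set n := (range m).sup e + 1
    have hem : ∀ l < m, e l < n := fun l hl => Nat.lt_succ_of_le (le_sup (mem_range.2 hl))
    have hd : DepBelow n fun ω => F (trunc m (relabel e ω)) := fun ω ω' h =>
      depBelow_trunc m F _ _ fun j A hA => h j _ fun q hq => by
        obtain ⟨p, hp, rfl⟩ := mem_image.1 hq
        exact hem _ (hA p hp)
    refine tendsto_nhds_unique ((hconv n _ (F.continuous.comp
      ((continuous_trunc m).comp (continuous_relabel e))) hd).congr fun t => ?_)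
      (hconv m _ (F.continuous.comp (continuous_trunc m)) (depBelow_trunc m F))
    exact stageExp_relabel _ he hem (depBelow_trunc m F)
  have hdom : ∀ g : Cube → Cube, Continuous g →
      Tendsto (fun m => ∫ ω, F (trunc m (g ω)) ∂(P : Measure Cube)) atTop
        (𝓝 (∫ ω, F (g ω) ∂(P : Measure Cube))) := fun g hg =>
    tendsto_integral_of_dominated_convergence (fun _ => ‖F‖)
      (fun m => (F.continuous.comp ((continuous_trunc m).comp hg)).aestronglyMeasurable)
      (integrable_const _) (fun m => Eventually.of_forall fun ω => F.norm_coe_le_norm _)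
      (Eventually.of_forall fun ω => (F.continuous.tendsto _).comp (tendsto_trunc (g ω)))
  exact tendsto_nhds_unique ((hdom _ (continuous_relabel e)).congr key) (hdom id continuous_id)

end Vale.Agent.P168.Exi
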