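import Vale.Agent.P168.Fin.GG
import Vale.Agent.P168.Fin.ASS
import Vale.Agent.P168.MP.Value
import Vale.Agent.P168.Fin.Limit

/-!
P168: limit objects below the limit points of the pressure.
-/

namespace Vale.Agent.P168

open MeasureTheory Filter Finset Exi
open scoped Topology symmDiff

namespace Exi

variable {K : ℕ} {lam : ℝ} {μ : Measure (Table K)} {η : Measure ℝ}

instance instIsProbabilityMeasureBoxLaw (M : ℕ) : IsProbabilityMeasure (boxLaw M) := by
  have : IsProbabilityMeasure ((volume : Measure ℝ).restrict (Set.Icc 1 2)) :=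
    ⟨by simp; norm_num⟩
  unfold boxLaw
  infer_instance

lemma ae_boxLaw (M : ℕ) : ∀ᵐ x ∂boxLaw M, ∀ b, x b ∈ Set.Icc (1 : ℝ) 2 :=
  ae_all_iff.2 fun b => (Measure.tendsto_eval_ae_ae (μ := fun _ : ParIdx M =>
    (volume : Measure ℝ).restrict (Set.Icc 1 2)) (i := b)).eventually
    (ae_restrict_mem measurableSet_Icc)

lemma fluct_nonneg {M N : ℕ} (x : Par M) (H : Dis K M N → Conf N → ℝ) :
    0 ≤ fluct lam μ η x H :=
  integral_nonneg fun _ => sum_nonneg fun ρ _ => mul_nonneg (gw_nonneg _ ρ) (abs_nonneg _)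

lemma fieldErr_nonneg {M N : ℕ} (x : Par M) : 0 ≤ fieldErr lam μ η N x :=
  sum_nonneg fun _ _ => add_nonneg (fluct_nonneg x _) (fluct_nonneg x _)

lemma stageCol_isProb [IsProbabilityMeasure μ] [IsProbabilityMeasure η] {M N : ℕ} [NeZero N]
    (x : Par M) : (stageCol lam μ η N x).IsProb := by
  constructor
  · intro m n σ
    exact integral_nonneg fun ω => sum_nonneg fun ρ _ => mul_nonneg (gw_nonneg _ ρ)
      (integral_nonneg fun F => by positivity)
  · intro m n
    simp only [stageCol, avgN, gibbs_eq_gav, integral_pi_unif]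
    have hint : ∀ σ : Fin n → Fin m → Bool, Integrable (fun ω : Dis K M N => gav (pertHam x ω) n
        fun ρ => siteAvg m N fun F => if ∀ l i, ρ l (F i) = σ l i then (1 : ℝ) else 0)
        (disLaw M N lam μ η) := fun σ =>
      integrable_gav (measurable_pertHam x) (fun ρ => measurable_const) (D := 1)
        fun ω ρ => abs_siteAvg_le fun F => by split <;> simp
    have e : ∀ ρ : Fin n → Conf N, ∑ σ : Fin n → Fin m → Bool,
        siteAvg m N (fun F => if ∀ l i, ρ l (F i) = σ l i then (1 : ℝ) else 0) = 1 := fun ρ => by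
      simp only [siteAvg, ← Finset.sum_div]
      rw [Finset.sum_comm, div_eq_one_iff_eq
        (pow_ne_zero m (Nat.cast_ne_zero.2 (NeZero.ne N) : (N : ℝ) ≠ 0)),
        Finset.sum_congr rfl fun F _ => Finset.sum_eq_single (fun l i => ρ l (F i))
          (fun σ _ hσ => if_neg fun h => hσ (funext fun l => funext fun i => (h l i).symm))
          (by simp)]
      simp
    rw [← integral_finsetSum _ fun σ _ => hint σ]
    simp only [← gav_sum, e, gav_const]
    simp

/-- A sequence of stages with small defects and cavity values nearly below `L0`. -/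
lemma exists_stages {B0 : ℝ} (hK2 : 2 ≤ K) (hl : 0 < lam) [IsProbabilityMeasure μ]
    [IsProbabilityMeasure η] (hb : BoundedModel B0 μ η) {L0 : ℝ}
    (hL : ∃ᶠ N in atTop, pressure lam μ η N ≤ L0) :
    ∃ S : Stages, (∀ t, cavityVal lam μ η (stageCol lam μ η (S.N t) (S.x t)) ≤
        L0 + 2 / ((t : ℝ) + 1)) ∧
      (∀ n (f : Cube → ℝ) (D : ℝ), Continuous f → DepBelow n f → (∀ ω, |f ω| ≤ D) →
        ∀ (j : Spc) (B : Finset (Fin j.1)) (l : ℕ), l < n →
        Tendsto (fun t => (n : ℝ) *
            stageExp lam μ η (S.N t) (S.x t) (n + 1) (fun ω => f ω * R j (pair l n B) ω) -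
            (stageExp lam μ η (S.N t) (S.x t) n f *
                stageExp lam μ η (S.N t) (S.x t) 2 (fun ω => R j (pair 0 1 B) ω) +
              ∑ l' ∈ (range n).erase l,
                stageExp lam μ η (S.N t) (S.x t) n fun ω => f ω * R j (pair l l' B) ω))
          atTop (𝓝 0)) ∧
      ∀ (j : Spc) (B : Finset (Fin j.1)),
        Tendsto (fun t => stageExp lam μ η (S.N t) (S.x t) 1 (fun ω => |R j (single 0 B) ω -
          stageExp lam μ η (S.N t) (S.x t) 1 (fun ω' => R j (single 0 B) ω')|)) atTop (𝓝 0) := by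
  choose Cg dg hdg hgg using fun M n => exists_gg_bound (μ := μ) (η := η) hK2 hl hb M n
  choose Cc dc hdc hcc using fun M => exists_const_bound (μ := μ) (η := η) hK2 hl hb M
  choose df hdf hff using fun M => exists_fieldErr_bound (μ := μ) (η := η) hK2 hl hb M
  obtain ⟨Cb, hCb⟩ := exists_cavityVal_bound (μ := μ) (η := η) hK2 hl hb
  set B1 : ℝ := |L0| + 2 + |Cb| with hB1
  have step : ∀ t : ℕ, ∃ (N : ℕ) (x : Par t), t + 1 ≤ N ∧ (∀ b, x b ∈ Set.Icc (1 : ℝ) 2) ∧
      cavityVal lam μ η (stageCol lam μ η N x) ≤ L0 + 2 / ((t : ℝ) + 1) ∧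
      (∀ n ≤ t, |Cg t n| * (fieldErr lam μ η N x + |dg t n N|) ≤ (B1 + 1) / ((t : ℝ) + 1)) ∧
      |Cc t| * (fieldErr lam μ η N x + |dc t N|) ≤ (B1 + 1) / ((t : ℝ) + 1) := by
    intro t
    have ht : (0 : ℝ) < (t : ℝ) + 1 := by positivity
    set ε : ℝ := 1 / ((t : ℝ) + 1) with hε
    have hε0 : 0 < ε := by positivity
    have hε1 : ε ≤ 1 := by
      rw [hε, div_le_one ht]
      linarith [(Nat.cast_nonneg t : (0 : ℝ) ≤ t)]
    set Kc : ℝ := ((t : ℝ) + 1) * (1 + |Cc t| + ∑ n ∈ range (t + 1), |Cg t n|) with hKc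
    have hKc0 : 0 ≤ Kc := mul_nonneg ht.le
      (add_nonneg (add_nonneg zero_le_one (abs_nonneg _)) (sum_nonneg fun _ _ => abs_nonneg _))
    have small : ∀ (C : ℝ) (d : ℕ → ℝ), Tendsto d atTop (𝓝 0) →
        ∀ᶠ N in atTop, |C| * |d N| ≤ ε := fun C d hd => by
      have : Tendsto (fun N => |C| * |d N|) atTop (𝓝 0) := by simpa using hd.abs.const_mul |C|
      exact this.eventually (eventually_le_nhds hε0)
    obtain ⟨N0, hN0⟩ := eventually_atTop.1 (((eventually_ge_atTop (t + 1)).and
      ((small Kc _ (hdf t)).and (small (Cc t) _ (hdc t)))).and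
      ((eventually_all_finset (range (t + 1))).2 fun n _ => small (Cg t n) _ (hdg t n)))
    obtain ⟨N, hN, hint, hcav⟩ := exists_cavity_le hK2 hl hb hL t hε0 N0
    obtain ⟨⟨hNt, hNf, hNc⟩, hNg⟩ := hN0 N hN
    have : NeZero N := ⟨by omega⟩
    obtain ⟨hfi, hfb⟩ := hff t N (by omega)
    have hg : Integrable (fun x : Par t => cavityVal lam μ η (stageCol lam μ η N x) +
        Kc * fieldErr lam μ η N x) (boxLaw t) := hint.add (hfi.const_mul Kc)
    have hgb : ∫ x, (cavityVal lam μ η (stageCol lam μ η N x) + Kc * fieldErr lam μ η N x)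
        ∂boxLaw t ≤ L0 + 2 * ε := by
      rw [integral_add hint (hfi.const_mul Kc), integral_const_mul]
      have := mul_le_mul_of_nonneg_left (hfb.trans (le_abs_self _)) hKc0
      rw [abs_of_nonneg hKc0] at hNf
      linarith
    obtain ⟨x, hxn, hx⟩ := exists_notMem_null_le_integral hg (ae_iff.1 (ae_boxLaw t))
    rw [Set.mem_ofPred_eq, not_not] at hxn
    have hcav' := hCb _ (stageCol_isProb (lam := lam) (μ := μ) (η := η) (N := N) x)
    have hfe := fieldErr_nonneg (lam := lam) (μ := μ) (η := η) (N := N) x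
    have hKf : Kc * fieldErr lam μ η N x ≤ B1 := by
      have := (abs_le.1 hcav').1
      have := le_abs_self L0
      have := le_abs_self Cb
      linarith
    have key : ∀ C : ℝ, ((t : ℝ) + 1) * |C| ≤ Kc → ∀ d : ℝ, |C| * |d| ≤ ε →
        |C| * (fieldErr lam μ η N x + |d|) ≤ (B1 + 1) / ((t : ℝ) + 1) := fun C hC d hd => by
      rw [le_div_iff₀ ht]
      have h1 := (mul_le_mul_of_nonneg_right hC hfe).trans hKf
      have h2 := mul_le_mul_of_nonneg_left hd ht.le
      rw [hε, mul_one_div_cancel ht.ne'] at h2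
      linarith
    have hsum : 0 ≤ ∑ n ∈ range (t + 1), |Cg t n| := sum_nonneg fun _ _ => abs_nonneg _
    refine ⟨N, x, hNt, hxn, ?_, fun n hn => key _ ?_ _ (hNg n (mem_range.2 (by omega))),
      key _ ?_ _ hNc⟩
    · rw [show (2 : ℝ) / ((t : ℝ) + 1) = 2 * ε by rw [hε]; ring]
      have := mul_nonneg hKc0 hfe
      linarith
    · refine mul_le_mul_of_nonneg_left ?_ ht.le
      have := single_le_sum (f := fun k => |Cg t k|) (fun k _ => abs_nonneg _)
        (mem_range.2 (Nat.lt_succ_of_le hn))
      have := abs_nonneg (Cc t)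
      linarith
    · exact mul_le_mul_of_nonneg_left (by linarith) ht.le
  choose N x hN hx hcav hgb hcb using step
  have hz : Tendsto (fun t : ℕ => (B1 + 1) / ((t : ℝ) + 1)) atTop (𝓝 0) :=
    ((tendsto_natCast_atTop_atTop (R := ℝ)).atTop_add tendsto_const_nhds).const_div_atTop _
  refine ⟨⟨N, x, hx, hN⟩, hcav, fun n f D hf hd hD j B l hl' => ?_, fun j B => ?_⟩
  · refine squeeze_zero_norm' ?_ (by simpa using hz.const_mul |D|)
    filter_upwards [eventually_species j, eventually_ge_atTop n] with t hj hn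
    rw [Real.norm_eq_abs]
    refine (hgg t n (N t) (by linarith [hN t]) (x t) (hx t) f D hf hd hD j hj B l hl').trans ?_
    have hsum : fieldErr lam μ η (N t) (x t) + dg t n (N t) ≤
        fieldErr lam μ η (N t) (x t) + |dg t n (N t)| := by linarith [le_abs_self (dg t n (N t))]
    have h0 : 0 ≤ fieldErr lam μ η (N t) (x t) + |dg t n (N t)| :=
      add_nonneg (fieldErr_nonneg _) (abs_nonneg _)
    calc _ ≤ |Cg t n * D * (fieldErr lam μ η (N t) (x t) + dg t n (N t))| := le_abs_self _
      _ ≤ |D| * (|Cg t n| * (fieldErr lam μ η (N t) (x t) + |dg t n (N t)|)) := by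
        rw [abs_mul, abs_mul, mul_comm |Cg t n|, mul_assoc]
        refine mul_le_mul_of_nonneg_left (mul_le_mul_of_nonneg_left ?_ (abs_nonneg _)) (abs_nonneg _)
        exact (abs_add_le _ _).trans_eq (by rw [abs_of_nonneg (fieldErr_nonneg _)])
      _ ≤ _ := mul_le_mul_of_nonneg_left (hgb t n hn) (abs_nonneg _)
  · refine squeeze_zero_norm' ?_ hz
    filter_upwards [eventually_species j] with t hj
    have h0 : 0 ≤ stageExp lam μ η (N t) (x t) 1 (fun ω => |R j (single 0 B) ω -
        stageExp lam μ η (N t) (x t) 1 (fun ω' => R j (single 0 B) ω')|) :=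
      integral_nonneg fun ω => sum_nonneg fun ρ _ => mul_nonneg (gw_nonneg _ ρ) (abs_nonneg _)
    rw [Real.norm_eq_abs, abs_of_nonneg h0]
    refine (hcc t (N t) (by linarith [hN t]) (x t) (hx t) j hj B).trans ((le_abs_self _).trans ?_)
    rw [abs_mul]
    exact (mul_le_mul_of_nonneg_left ((abs_add_le _ _).trans_eq
      (by rw [abs_of_nonneg (fieldErr_nonneg _)])) (abs_nonneg _)).trans (hcb t)

end Exi

/-- Perturbed models give a limit whose cavity functional is below any limit point of the pressure. -/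
theorem exists_lim {K : ℕ} (hK2 : 2 ≤ K) {lam B0 : ℝ} (hl : 0 < lam) {μ : Measure (Table K)}
    {η : Measure ℝ} [IsProbabilityMeasure μ] [IsProbabilityMeasure η] (hb : BoundedModel B0 μ η)
    {L0 : ℝ} (hL : ∃ᶠ N in atTop, pressure lam μ η N ≤ L0) :
    ∃ L : Lim, cavityVal lam μ η L.colLaw ≤ L0 := by
  obtain ⟨S, hcav, hgg, hconst⟩ := exists_stages hK2 hl hb hL
  obtain ⟨φ, P, hφ, hP, hconv, hinv⟩ := exists_stage_limit (lam := lam) (μ := μ) (η := η) S
  have hsub : ∀ {u : ℕ → ℝ}, Tendsto u atTop (𝓝 0) → Tendsto (fun t => u (φ t)) atTop (𝓝 0) :=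
    fun h => h.comp hφ.tendsto_atTop
  have hint : ∀ {f : Cube → ℝ}, Continuous f → Integrable f P := fun {f} hf => by
    obtain ⟨D, hD⟩ := exists_bound hf
    exact Integrable.of_bound hf.aestronglyMeasurable D
      (Eventually.of_forall fun ω => (Real.norm_eq_abs _).le.trans (hD ω))
  have zero_ae : ∀ {n : ℕ} {f : Cube → ℝ}, Continuous f → DepBelow n f → (∀ ω, 0 ≤ f ω) →
      Tendsto (fun t => stageExp lam μ η (S.N t) (S.x t) n f) atTop (𝓝 0) →
      ∀ᵐ ω ∂P, f ω = 0 := fun {n f} hf hd h0 h => by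
    have := tendsto_nhds_unique (hconv n f hf hd) (hsub h)
    exact (integral_eq_zero_iff_of_nonneg h0 (hint hf)).1 this
  have one : ∀ j : Spc, ∀ᵐ ω ∂P, R j ∅ ω = 1 := fun j => by
    refine (zero_ae (n := 0) ((continuous_coord j ∅).sub continuous_const).abs
      (fun ω ω' h => congrArg (fun r : ℝ => |r - 1|) (h j ∅ (by simp [Below]))) (fun ω => abs_nonneg _)
      (tendsto_one S j)).mono fun ω h => ?_
    exact sub_eq_zero.1 (abs_eq_zero.1 h)
  have psd : ∀ (j : Spc) (s : Finset (Pat j.1)) (c : Pat j.1 → ℝ),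
      ∀ᵐ ω ∂P, 0 ≤ ∑ A ∈ s, ∑ A' ∈ s, c A * c A' * R j (A ∆ A') ω := fun j s c => by
    set n := s.sup (fun A => A.sup Prod.fst + 1)
    have hs : ∀ A ∈ s, Below n A := fun A hA =>
      below_mono (below_sup A) (le_sup (f := fun A : Pat j.1 => A.sup Prod.fst + 1) hA)
    refine (zero_ae (n := n) (continuous_const.max (continuous_quad j s c).neg)
      (fun ω ω' h => ?_) (fun ω => le_max_left _ _) (tendsto_psd S j s c hs)).mono fun ω h => ?_
    · refine congrArg (fun r => max 0 (-r)) (sum_congr rfl fun A hA => sum_congr rfl fun A' hA' => ?_)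
      rw [h j _ (below_symmDiff (hs A hA) (hs A' hA'))]
    · have : -quad j s c ω ≤ 0 := (le_max_right _ _).trans_eq h
      simpa [quad] using this
  have mult : ∀ (j j' : Spc) (A : Pat j.1) (A' : Pat j'.1),
      ∀ᵐ ω ∂P, R (j.app j') (cat A A') ω = R j A ω * R j' A' ω := fun j j' A A' => by
    set n := max (A.sup Prod.fst + 1) (A'.sup Prod.fst + 1)
    have hA : Below n A := below_mono (below_sup A) (le_max_left _ _)
    have hA' : Below n A' := below_mono (below_sup A') (le_max_right _ _)
    set g : Cube → ℝ := fun ω => R (j.app j') (cat A A') ω - R j A ω * R j' A' ω with hg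
    have hgc : Continuous g :=
      (continuous_coord _ _).sub ((continuous_coord _ _).mul (continuous_coord _ _))
    have hgd : DepBelow n g := fun ω ω' h => by
      simp only [hg]
      rw [h (j.app j') _ (below_cat hA hA'), h j A hA, h j' A' hA']
    obtain ⟨D, hD⟩ := exists_bound hgc
    have h1 := hconv n _ (hgc.mul (continuous_coord (j.app j') (cat A A')))
      (depBelow_mul hgd (depBelow_coord _ (below_cat hA hA')))
    have h2 := hconv n _ (hgc.mul ((continuous_coord j A).mul (continuous_coord j' A')))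
      (depBelow_mul hgd (depBelow_mul (depBelow_coord _ hA) (depBelow_coord _ hA')))
    have h3 := tendsto_nhds_unique (h1.sub h2) (hsub (tendsto_mult S hgc hD j j' hA hA'))
    rw [← integral_sub (hint (hgc.mul (continuous_coord _ _)))
      (hint (hgc.mul ((continuous_coord _ _).mul (continuous_coord _ _))))] at h3
    simp only [Pi.mul_apply, ← mul_sub] at h3
    refine ((integral_eq_zero_iff_of_nonneg (fun ω => mul_self_nonneg (g ω))
      (hint (hgc.mul hgc))).1 h3).mono fun ω h => ?_
    exact sub_eq_zero.1 (mul_self_eq_zero.1 h)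
  have deriv : ∀ (n : ℕ) (f : Cube → ℝ), Continuous f → DepBelow n f → ∀ D : ℝ,
      (∀ ω, |f ω| ≤ D) → ∀ (j : Spc) (c : ℚ) (B : Finset (Fin j.1)) (A : Pat j.1), Below n A →
      |∫ ω, f ω * R (j.shift c B) A ω ∂P - ∫ ω, f ω * R j A ω ∂P -
          (c : ℝ) * (∑ l ∈ range n, ∫ ω, f ω * R j (flipPat A l B) ω ∂P -
            (n : ℝ) * ∫ ω, f ω * R j (flipPat A n B) ω ∂P)| ≤
        4 * ((n : ℝ) + 1) ^ 2 * D * (c : ℝ) ^ 2 := fun n f hf hd D hD j c B A hA => by
    refine le_of_forall_pos_le_add fun ε hε => ?_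
    refine le_of_tendsto (Tendsto.abs (((hconv n _ (hf.mul (continuous_coord (j.shift c B) A))
      (depBelow_mul hd (depBelow_coord _ hA))).sub (hconv n _ (hf.mul (continuous_coord j A))
      (depBelow_mul hd (depBelow_coord _ hA)))).sub (((tendsto_finsetSum _ fun l hl =>
        hconv n _ (hf.mul (continuous_coord j _)) (depBelow_mul hd (depBelow_coord _
          (below_flip hA le_rfl (mem_range.1 hl) B)))).sub
        ((hconv (n + 1) _ (hf.mul (continuous_coord j _)) (depBelow_mul (depBelow_mono hd n.le_succ)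
          (depBelow_coord _ (below_flip hA n.le_succ n.lt_succ_self B)))).const_mul _)).const_mul _)))
      (hφ.tendsto_atTop.eventually (eventually_deriv S hf hd hD j c B hA hε))
  have gg : ∀ (n : ℕ) (f : Cube → ℝ), Continuous f → DepBelow n f →
      ∀ (j : Spc) (B : Finset (Fin j.1)) (l : ℕ), l < n →
        (n : ℝ) * ∫ ω, f ω * R j (pair l n B) ω ∂P =
          (∫ ω, f ω ∂P) * (∫ ω, R j (pair 0 1 B) ω ∂P) +
            ∑ l' ∈ (range n).erase l, ∫ ω, f ω * R j (pair l l' B) ω ∂P :=
    fun n f hf hd j B l hl' => by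
    obtain ⟨D, hD⟩ := exists_bound hf
    have hp : ∀ {m a b : ℕ}, a < m → b < m → Below m (pair a b B) := fun ha hb =>
      below_symmDiff (below_single ha B) (below_single hb B)
    have h1 := (hconv (n + 1) _ (hf.mul (continuous_coord j (pair l n B)))
      (depBelow_mul (depBelow_mono hd n.le_succ) (depBelow_coord _
        (hp (hl'.trans n.lt_succ_self) n.lt_succ_self)))).const_mul (n : ℝ)
    have h2 := ((hconv n f hf hd).mul (hconv 2 _ (continuous_coord j (pair 0 1 B))
      (depBelow_coord _ (hp zero_lt_two one_lt_two)))).add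
      (tendsto_finsetSum ((range n).erase l) fun l' hl'' =>
        hconv n _ (hf.mul (continuous_coord j (pair l l' B))) (depBelow_mul hd (depBelow_coord _
          (hp hl' (mem_range.1 (mem_of_mem_erase hl''))))))
    exact sub_eq_zero.1 (tendsto_nhds_unique (h1.sub h2) (hsub (hgg n f D hf hd hD j B l hl')))
  have const1 : ∀ (j : Spc) (B : Finset (Fin j.1)),
      ∀ᵐ ω ∂P, R j (single 0 B) ω = ∫ ω', R j (single 0 B) ω' ∂P := fun j B => by
    have hc := continuous_coord j (single 0 B)
    have hdc : DepBelow 1 (R j (single 0 B)) := depBelow_coord _ (below_single zero_lt_one B)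
    set c := ∫ ω', R j (single 0 B) ω' ∂P
    have hb1 := hconv 1 (fun ω => |R j (single 0 B) ω - c|) (hc.sub continuous_const).abs
      fun ω ω' h => congrArg (fun r : ℝ => |r - c|) (hdc ω ω' h)
    have hlim : Tendsto (fun t => stageExp lam μ η (S.N (φ t)) (S.x (φ t)) 1
        fun ω => |R j (single 0 B) ω - c|) atTop (𝓝 0) := by
      have hc' := (((hconv 1 _ hc hdc).sub_const c).abs)
      rw [sub_self, abs_zero] at hc'
      refine squeeze_zero (fun t => integral_nonneg fun ω => sum_nonneg fun ρ _ =>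
        mul_nonneg (gw_nonneg _ ρ) (abs_nonneg _)) (fun t => ?_)
        (by simpa using (hsub (hconst j B)).add hc')
      set a := stageExp lam μ η (S.N (φ t)) (S.x (φ t)) 1 fun ω' => R j (single 0 B) ω'
      have hi : ∀ d : ℝ, Integrable (fun ω => gav (pertHam (S.x (φ t)) ω) 1
          fun ρ => |R j (single 0 B) (stageCube ω ρ) - d|) (disLaw (φ t) (S.N (φ t)) lam μ η) :=
        fun d => integrable_gav (measurable_pertHam _)
          (fun ρ => (((measurable_coord _ _).comp (measurable_stageCube ρ)).sub_const d).abs)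
          (D := 1 + |d|) fun ω ρ => by
            rw [abs_abs]
            exact (abs_sub _ _).trans (add_le_add (abs_coord_le _ _ _) le_rfl)
      simp only [stageExp, avgN, gibbs_eq_gav]
      refine (integral_mono (hi c) ((hi a).add (integrable_const |a - c|)) fun ω => ?_).trans_eq ?_
      · refine (gav_mono _ fun ρ => abs_sub_le _ a c).trans_eq ?_
        rw [gav_add, gav_const]
        rfl
      · rw [integral_add' (hi a) (integrable_const _), integral_const, probReal_univ, one_smul]
    refine ((integral_eq_zero_iff_of_nonneg (fun ω => abs_nonneg _)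
      (hint (hc.sub continuous_const).abs)).1 (tendsto_nhds_unique hb1 hlim)).mono fun ω h => ?_
    exact sub_eq_zero.1 (abs_eq_zero.1 h)
  let L : Lim := ⟨P, hP, hinv, one, psd, mult, deriv, gg, const1⟩
  refine ⟨L, ?_⟩
  have hcol : ∀ m n σ, Tendsto (fun t => stageCol lam μ η (S.N (φ t)) (S.x (φ t)) m n σ) atTop
      (𝓝 (L.colLaw m n σ)) := fun m n σ => by
    have h1 := hsub (tendsto_stageCol (lam := lam) (μ := μ) (η := η) S m n σ)
    have h2 := (tendsto_finsetSum (univ : Finset (Finset (Fin n × Fin m))) fun A _ =>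
      (hconv n _ (continuous_coord (Spc.free m) (A.image fun p => ((p.1 : ℕ), p.2)))
        (depBelow_coord _ fun q hq => by
          obtain ⟨p, -, rfl⟩ := mem_image.1 hq
          exact p.1.2)).const_mul (∏ p ∈ A, spin (σ p.1 p.2))).const_mul ((2 : ℝ) ^ (n * m))⁻¹
    have h := h1.add h2
    simp only [sub_add_cancel, zero_add] at h
    exact h
  refine le_of_tendsto_of_tendsto' (tendsto_cavityVal hK2 hl hb
    (fun t => stageCol_isProb (S.x (φ t))) hcol) ?_ fun t => hcav (φ t)
  simpa using ((((tendsto_natCast_atTop_atTop (R := ℝ)).comp hφ.tendsto_atTop).atTop_add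
    tendsto_const_nhds).const_div_atTop (2 : ℝ)).const_add L0

end Vale.Agent.P168
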