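import Vale.Agent.P168.Fin.GGConc

/-!
P168: fluctuations of the fields of the perturbation and the identities they give.
-/

namespace Vale.Agent.P168

open MeasureTheory Filter Finset
open scoped Topology

variable {K : ℕ} {lam B0 : ℝ} {μ : Measure (Table K)} {η : Measure ℝ} [IsProbabilityMeasure μ]
  [IsProbabilityMeasure η]

section cube

variable {M N n : ℕ}

open Classical in
omit [IsProbabilityMeasure μ] [IsProbabilityMeasure η] in
/-- A species of the stage is read from one of its copies. -/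
lemma gg_cube_apply {j : Spc} (h : ∃ i : Fin M, spcOf i = j) :
    ∃ (i : Fin M) (e : spcOf i = j), ∀ (n : ℕ) (ω : Dis K M N) (ρ : Fin n → Conf N) (A : Pat j.1),
      Below n A → R j A (stageCube ω ρ) =
        stageR i (A.image fun p => (p.1, Fin.cast (congrArg Sigma.fst e.symm) p.2)) ω ρ := by
  refine ⟨h.choose, h.choose_spec, fun n ω ρ A hA => ?_⟩
  simp only [R, stageCube]
  rw [dif_pos (show (∃ i : Fin M, spcOf i = j) ∧ Below n A from ⟨h, hA⟩)]

lemma gg_cast_image {k : ℕ} (A : Pat k) :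
    (A.image fun p => (p.1, Fin.cast (rfl : k = k) p.2)) = A := by
  simp

lemma gg_chiPat_single {k : ℕ} (B : Finset (Fin k)) (l : Fin n) (I : Fin k → Fin N)
    (ρ : Fin n → Conf N) : chiPat (single l B) I ρ = chi B fun p => ρ l (I p) := by
  simp only [chiPat, single, Finset.prod_product, Finset.prod_singleton, chi]
  exact Finset.prod_congr rfl fun p _ => by rw [dif_pos l.isLt]

lemma gg_pair_eq {k : ℕ} (B : Finset (Fin k)) {a b : ℕ} (h : a ≠ b) :
    Disjoint (single a B) (single b B) ∧ pair a b B = single a B ∪ single b B := by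
  have hd : Disjoint (single a B) (single b B) := Finset.disjoint_left.2 fun p hp hq => by
    simp only [single, Finset.mem_product, Finset.mem_singleton] at hp hq
    exact h (hp.1.symm.trans hq.1)
  refine ⟨hd, ?_⟩
  rw [pair, Finset.symmDiff_eq_union (Finset.disjoint_iff_inter_eq_empty.1 hd |>
    fun e => Finset.disjoint_iff_inter_eq_empty.2 e)]

lemma gg_below_single {k : ℕ} (B : Finset (Fin k)) {a n : ℕ} (h : a < n) : Below n (single a B) :=
  fun p hp => by
    simp only [single, Finset.mem_product, Finset.mem_singleton] at hp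
    omega

lemma gg_below_pair {k : ℕ} (B : Finset (Fin k)) {a b n : ℕ} (ha : a < n) (hb : b < n) :
    Below n (pair a b B) := fun p hp => by
  simp only [pair, Finset.mem_symmDiff] at hp
  rcases hp with ⟨h, -⟩ | ⟨h, -⟩
  · exact gg_below_single B ha p h
  · exact gg_below_single B hb p h

lemma gg_chiPat_pair {k : ℕ} (B : Finset (Fin k)) (l l' : Fin n) (h : l ≠ l') (I : Fin k → Fin N)
    (ρ : Fin n → Conf N) :
    chiPat (pair l l' B) I ρ = (chi B fun p => ρ l (I p)) * chi B fun p => ρ l' (I p) := by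
  obtain ⟨hd, he⟩ := gg_pair_eq B (fun e => h (Fin.ext e) : (l : ℕ) ≠ l')
  rw [he, ← gg_chiPat_single B l I ρ, ← gg_chiPat_single B l' I ρ]
  exact Finset.prod_union hd

omit [IsProbabilityMeasure μ] [IsProbabilityMeasure η] in
lemma gg_stageR_symm (i : Fin M) (A : Pat (ar i)) (h : Fin N → ℝ) (ρ : Fin n → Conf N) :
    CfgSymm fun ω : Cfg (Mark K M N) => stageR i A (ω, h) ρ := fun k e v => by
  simp only [stageR, gg_speciesSum_eq]
  rw [gg_sum_symm _ k e v]

omit [IsProbabilityMeasure μ] [IsProbabilityMeasure η] in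
lemma gg_stageCube_symm (h : Fin N → ℝ) (ρ : Fin n → Conf N) (k : ℕ) (e : Equiv.Perm (Fin k))
    (v : Fin k → Mark K M N) :
    stageCube ((⟨k, v ∘ e⟩ : Cfg (Mark K M N)), h) ρ = stageCube ((⟨k, v⟩ : Cfg (Mark K M N)), h) ρ := by
  funext a
  simp only [stageCube]
  split
  · exact Subtype.ext (gg_stageR_symm _ _ h ρ k e v)
  · rfl

omit [IsProbabilityMeasure μ] [IsProbabilityMeasure η] in
lemma gg_stageR_blind (i₀ : Fin M) (I : Fin (ar i₀) → Fin N) (g g' : Finset (Fin (ar i₀)) → ℝ)
    (ω : Cfg (Mark K M N)) (h : Fin N → ℝ) (i : Fin M) (A : Pat (ar i)) (ρ : Fin n → Conf N) :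
    stageR i A (Cfg.cons (Sum.inr ⟨i₀, I, g⟩) ω, h) ρ =
      stageR i A (Cfg.cons (Sum.inr ⟨i₀, I, g'⟩) ω, h) ρ := by
  simp only [stageR, gg_speciesSum_eq, gg_sum_cons]
  rcases eq_or_ne i₀ i with rfl | hne
  · simp only [ggLift_self]
  · simp only [ggLift_ne hne]

omit [IsProbabilityMeasure μ] [IsProbabilityMeasure η] in
lemma gg_measurable_stageCube (ρ : Fin n → Conf N) :
    Measurable fun ω : Dis K M N => stageCube ω ρ := by
  refine measurable_pi_lambda _ fun a => ?_
  simp only [stageCube]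
  split
  · exact ((measurable_const.max (measurable_const.min ((gg_measurable_speciesSum _
      ((measurable_of_finite fun I => chiPat _ I ρ).comp measurable_fst)).div_const _))).subtype_mk)
  · exact measurable_const

omit [IsProbabilityMeasure μ] [IsProbabilityMeasure η] in
/-- A function of the first replicas does not see a further one. -/
lemma gg_dep_castSucc {f : Cube → ℝ} (hf : DepBelow n f) (ω : Dis K M N)
    (ρ : Fin (n + 1) → Conf N) : f (stageCube ω ρ) = f (stageCube ω fun a => ρ a.castSucc) := by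
  classical
  refine hf _ _ fun j A hA => ?_
  by_cases h : ∃ i : Fin M, spcOf i = j
  · obtain ⟨i, e, hh⟩ := gg_cube_apply (K := K) (N := N) h
    subst e
    rw [hh _ ω ρ A fun p hp => (hA p hp).trans (Nat.lt_succ_self n), hh _ ω _ A hA]
    simp only [stageR, gg_cast_image]
    have e : ∀ I : Fin (ar i) → Fin N, chiPat A I ρ = chiPat A I fun a => ρ a.castSucc := fun I =>
      Finset.prod_congr rfl fun p hp => by
        have h1 := hA p hp
        rw [dif_pos (h1.trans (Nat.lt_succ_self n)), dif_pos h1]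
        rfl
    simp only [e]
  · have h0 : ∀ (m : ℕ) (r : Fin m → Conf N), R j A (stageCube ω r) = 0 := fun m r => by
      simp only [R, stageCube]
      rw [dif_neg fun hh => h hh.1]
    rw [h0, h0]

end cube

omit [IsProbabilityMeasure μ] [IsProbabilityMeasure η] in
lemma gg_stageExp_succ {M : ℕ} (N : ℕ) (x : Par M) {n : ℕ} {f : Cube → ℝ} (hf : DepBelow n f) :
    stageExp lam μ η N x n f =
      avgN (N := N) lam μ η x (n + 1) fun ω ρ => f (stageCube ω fun a => ρ a.castSucc) := by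
  rw [stageExp, gg_avgN_eq, gg_avgN_eq]
  exact integral_congr_ae (Filter.Eventually.of_forall fun ω =>
    (ggAv_castSucc _ fun r => f (stageCube ω r)).symm)

lemma gg_integrable_av {M N : ℕ} (x : Par M) {n : ℕ} {F : Dis K M N → (Fin n → Conf N) → ℝ}
    (hF : ∀ ρ, Measurable fun ω => F ω ρ) {b : Dis K M N → ℝ}
    (hb : Integrable b (disLaw M N lam μ η)) (h : ∀ ω ρ, |F ω ρ| ≤ b ω) :
    Integrable (fun ω => ggAv (pertHam x ω) n (F ω)) (disLaw M N lam μ η) :=
  hb.mono' (measurable_ggAv (gg_measurable_pertHam x) hF).aestronglyMeasurable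
    (Filter.Eventually.of_forall fun ω => abs_ggAv_le_of _ (h ω))

lemma gg_clip_dist {r e : ℝ} (h : |r| ≤ e) : |r - max (-1) (min 1 r)| ≤ |e - 1| := by
  obtain ⟨h1, h2⟩ := abs_le.1 h
  have := le_abs_self (e - 1)
  have := abs_nonneg (e - 1)
  rcases le_total r (-1) with a | a
  · rw [min_eq_right (a.trans (by norm_num)), max_eq_left a, abs_le]; constructor <;> linarith
  rcases le_total r 1 with b | b
  · rw [min_eq_right b, max_eq_right a]; simpa using abs_nonneg (e - 1)
  · rw [min_eq_left b, max_eq_right (by norm_num : (-1 : ℝ) ≤ 1), abs_le]; constructor <;> linarith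

/-- The number of clauses of a species is concentrated. -/
lemma gg_count_dev {M N : ℕ} (hl : 0 ≤ lam) (hN : 1 ≤ N) (i : Fin M) :
    Integrable (fun ω : Dis K M N => |speciesSum i (fun _ => 1) ω / sN N - 1|) (disLaw M N lam μ η) ∧
      ∫ ω, |speciesSum i (fun _ => 1) ω / sN N - 1| ∂disLaw M N lam μ η ≤ 1 / Real.sqrt (sN N) := by
  have := gg_prob_disLaw (M := M) (lam := lam) (μ := μ) (η := η) hN
  have := gg_finite_markLaw (M := M) (lam := lam) (μ := μ) hN
  have := isProbabilityMeasure_pp (markLaw M N lam μ)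
  have := gg_prob_pair hN i
  have hs : 0 < sN N := zero_lt_one.trans_le (gg_sN_mem hN).1
  obtain ⟨hci, -⟩ := gg_integral_count (lam := lam) (μ := μ) (η := η) hl hN i
  refine ⟨(hci.sub' (integrable_const _)).abs, ?_⟩
  set φ : Mark K M N → ℝ := ggLift i fun _ => 1 with hφ
  have hφm : Measurable φ := gg_measurable_lift i measurable_const
  obtain ⟨h1, h2⟩ := gg_integrable_lift (lam := lam) (μ := μ) hl hN i (φ := fun _ => (1 : ℝ))
    measurable_const (integrable_const _)
  rw [integral_const, probReal_univ, one_smul, mul_one] at h2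
  have hφ2 : (fun c => φ c ^ 2) = φ := funext fun c =>
    ggLift_ind (P := fun r : ℝ => r ^ 2 = r) i (by norm_num) (fun _ => by norm_num) c
  have hincr : CfgIncr (Cfg.sum φ) φ := fun c ω => by
    rw [gg_sum_cons, add_sub_cancel_right]
    exact (abs_of_nonneg (ggLift_ind (P := fun r : ℝ => 0 ≤ r) i le_rfl (fun _ => zero_le_one) c)).le
  have hf := fluct_pp (markLaw M N lam μ) (gg_measurable_cfgsum hφm) (gg_sum_symm φ) h1
    (by rw [hφ2]; exact h1) hincr
  rw [(integral_sum (markLaw M N lam μ) h1).2, hφ2, h2] at hf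
  have e : ∀ ω : Dis K M N, |speciesSum i (fun _ => 1) ω / sN N - 1| =
      |Cfg.sum φ ω.1 - sN N| / sN N := fun ω => by
    rw [gg_speciesSum_eq, div_sub_one hs.ne', abs_div, abs_of_pos hs]
  simp only [e, disLaw]
  rw [integral_div, integral_fun_fst (fun ω : Cfg (Mark K M N) => |Cfg.sum φ ω - sN N|), probReal_univ,
    one_smul]
  refine (div_le_div_of_nonneg_right hf hs.le).trans_eq ?_
  rw [one_div, ← div_mul_cancel₀ (Real.sqrt (sN N)) (Real.sqrt_pos.2 hs).ne']
  field_simp
  rw [Real.sq_sqrt hs.le]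

lemma gg_delta_tendsto : Tendsto (fun N => 1 / Real.sqrt (sN N)) atTop (𝓝 0) := by
  refine ((tendsto_rpow_neg_atTop (show (0 : ℝ) < 2 / 5 by norm_num)).comp
    tendsto_natCast_atTop_atTop).congr fun N => ?_
  show (N : ℝ) ^ (-(2 / 5 : ℝ)) = _
  rw [sN, Real.sqrt_eq_rpow, ← Real.rpow_mul (Nat.cast_nonneg N), one_div,
    ← Real.rpow_neg (Nat.cast_nonneg N)]
  norm_num

lemma gg_fluct_le_fieldErr {M N : ℕ} (x : Par M) (b : ParIdx M) :
    fluct (N := N) lam μ η x (ggField b) ≤ fieldErr lam μ η N x := by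
  rw [gg_fieldErr_eq]
  refine Finset.single_le_sum (f := fun b : ParIdx M => fluct (N := N) lam μ η x (ggField b))
    (fun b' _ => ?_) (Finset.mem_univ b)
  rw [fluct, gg_avgN_eq]
  exact integral_nonneg fun ω =>
    le_trans (le_of_eq (ggAv_const _ 0).symm) (ggAv_mono _ fun ρ => abs_nonneg _)

/-- The fields fluctuate little, averaged over the strengths. -/
theorem exists_fieldErr_bound (hK2 : 2 ≤ K) (hl : 0 < lam) (hb : BoundedModel B0 μ η) (M : ℕ) :
    ∃ δ : ℕ → ℝ, Tendsto δ atTop (𝓝 0) ∧ ∀ N, 1 ≤ N →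
      Integrable (fieldErr (M := M) lam μ η N) (boxLaw M) ∧
      ∫ x, fieldErr (M := M) lam μ η N x ∂boxLaw M ≤ δ N :=
  gg_fieldErr_bound hl.le hb M

/-- The Ghirlanda–Guerra defect of a pair overlap is small with the fluctuations. -/
theorem exists_gg_bound (hK2 : 2 ≤ K) (hl : 0 < lam) (hb : BoundedModel B0 μ η) (M n : ℕ) :
    ∃ (C : ℝ) (δ : ℕ → ℝ), Tendsto δ atTop (𝓝 0) ∧ ∀ N, 1 ≤ N → ∀ x : Par M,
      (∀ b, x b ∈ Set.Icc (1 : ℝ) 2) → ∀ (f : Cube → ℝ) (D : ℝ), Continuous f → DepBelow n f →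
      (∀ ω, |f ω| ≤ D) → ∀ j : Spc, (∃ i : Fin M, spcOf i = j) →
      ∀ (B : Finset (Fin j.1)) (l : ℕ), l < n →
        |(n : ℝ) * stageExp lam μ η N x (n + 1) (fun ω => f ω * R j (pair l n B) ω) -
            (stageExp lam μ η N x n f * stageExp lam μ η N x 2 (fun ω => R j (pair 0 1 B) ω) +
              ∑ l' ∈ (range n).erase l,
                stageExp lam μ η N x n fun ω => f ω * R j (pair l l' B) ω)| ≤
          C * D * (fieldErr lam μ η N x + δ N) := by
  refine ⟨2 * (n : ℝ) + 2, fun N => 1 / Real.sqrt (sN N), gg_delta_tendsto,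
    fun N hN x hx f D hfc hfd hfb j hj B l hl' => ?_⟩
  have := gg_prob_disLaw (M := M) (lam := lam) (μ := μ) (η := η) hN
  obtain ⟨i, e, hcube⟩ := gg_cube_apply (K := K) (N := N) hj
  subst e
  set P := disLaw M N lam μ η
  set le : Fin n := ⟨l, hl'⟩ with hle
  have hxb := hx (⟨i, B⟩, false)
  set xb := x (⟨i, B⟩, false)
  have hD : 0 ≤ D := (abs_nonneg _).trans (hfb fun _ => ⟨0, by norm_num⟩)
  set Φ : Cfg (Mark K M N) → (Fin n → Conf N) → ℝ := fun ω ρ => f (stageCube (ω, fun _ => 0) ρ)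
  have hΦe : ∀ (ω : Dis K M N) (ρ : Fin n → Conf N), Φ ω.1 ρ = f (stageCube ω ρ) := fun ω ρ => rfl
  have hΦm : ∀ ρ, Measurable fun ω => Φ ω ρ := fun ρ =>
    hfc.measurable.comp ((gg_measurable_stageCube ρ).comp (measurable_id.prodMk measurable_const))
  have hblind : ∀ I g g' ω, Φ (Cfg.cons (Sum.inr ⟨i, I, g⟩) ω) = Φ (Cfg.cons (Sum.inr ⟨i, I, g'⟩) ω) := by
    intro I g g' ω
    funext ρ
    refine congrArg f (funext fun a => ?_)
    simp only [stageCube]
    split
    · exact Subtype.ext (gg_stageR_blind i I g g' ω _ _ _ ρ)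
    · rfl
  have hst := gg_field_stein (lam := lam) (μ := μ) (η := η) hl.le hN x i B le Φ hΦm
    (fun ρ k e v => congrArg f (gg_stageCube_symm _ ρ k e v)) (fun ω ρ => hfb _) hblind
  have hst1 := gg_field_stein (lam := lam) (μ := μ) (η := η) hl.le hN x i B (n := 1) 0 (fun _ _ => 1)
    (fun _ => measurable_const) (fun _ _ _ _ => rfl) (D := 1) (fun _ _ => by simp)
    (fun _ _ _ _ => rfl)
  obtain ⟨hei, he⟩ := gg_count_dev (lam := lam) (μ := μ) (η := η) hl.le hN i
  obtain ⟨hci, hce⟩ := gg_integral_count (lam := lam) (μ := μ) (η := η) hl.le hN i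
  set L := fun ω : Dis K M N => speciesSum i (fun _ => 1) ω / sN N
  set δ := 1 / Real.sqrt (sN N)
  -- replicas
  set F1 := fun (ω : Dis K M N) (ρ : Fin (n + 1) → Conf N) => Φ ω.1 fun a => ρ a.castSucc
  have hF1m : ∀ ρ, Measurable fun ω => F1 ω ρ := fun ρ => (hΦm _).comp measurable_fst
  set cl := fun (m : ℕ) (a b : Fin m) (ω : Dis K M N) (ρ : Fin m → Conf N) =>
    max (-1) (min 1 (ggOv i B a b ω ρ))
  have hcl : ∀ (m : ℕ) (a b : Fin m) (ω : Dis K M N) (ρ : Fin m → Conf N), a ≠ b →
      R (spcOf i) (pair a b B) (stageCube ω ρ) = cl m a b ω ρ := fun m a b ω ρ hab => by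
    rw [hcube m ω ρ _ (gg_below_pair B a.isLt b.isLt)]
    simp only [stageR, gg_cast_image, gg_chiPat_pair B a b hab]
    rfl
  have hclb : ∀ (m : ℕ) (a b : Fin m) (ω : Dis K M N) (ρ : Fin m → Conf N), |cl m a b ω ρ| ≤ 1 :=
    fun m a b ω ρ => abs_le.2 ⟨le_max_left _ _, max_le (by norm_num) (min_le_left _ _)⟩
  have hovm : ∀ (m : ℕ) (a b : Fin m) (ρ : Fin m → Conf N), Measurable fun ω => cl m a b ω ρ :=
    fun m a b ρ => measurable_const.max (measurable_const.min (gg_measurable_ov i B a b ρ))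
  -- an average with clipped overlaps against one with overlaps
  have hclip : ∀ (m : ℕ) (G : Dis K M N → (Fin m → Conf N) → ℝ) (D' : ℝ),
      (∀ ρ, Measurable fun ω => G ω ρ) → (∀ ω ρ, |G ω ρ| ≤ D') → 0 ≤ D' → ∀ a b,
      |avgN lam μ η x m (fun ω ρ => G ω ρ * cl m a b ω ρ) -
        avgN lam μ η x m (fun ω ρ => G ω ρ * ggOv i B a b ω ρ)| ≤ D' * δ := by
    intro m G D' hG hGb hD' a b
    rw [gg_avgN_eq, gg_avgN_eq, ← integral_sub
      (gg_integrable_av (b := fun _ => D' * 1) (F := fun ω ρ => G ω ρ * cl m a b ω ρ) x (fun ρ => (hG ρ).mul (hovm m a b ρ))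
        (integrable_const _) fun ω ρ => by
          rw [abs_mul]; exact mul_le_mul (hGb ω ρ) (hclb m a b ω ρ) (abs_nonneg _) hD')
      (gg_integrable_av (b := fun ω => D' * L ω) (F := fun ω ρ => G ω ρ * ggOv i B a b ω ρ) x
        (fun ρ => (hG ρ).mul (gg_measurable_ov i B a b ρ)) (hci.const_mul D') fun ω ρ => by
          rw [abs_mul]; exact mul_le_mul (hGb ω ρ) (abs_ggOv_le hN i B a b ω ρ) (abs_nonneg _) hD')]
    refine abs_integral_le_integral_abs.trans ((integral_mono_of_nonneg
      (Filter.Eventually.of_forall fun ω => abs_nonneg _) (hei.const_mul D')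
      (Filter.Eventually.of_forall fun ω => ?_)).trans ?_)
    · show |ggAv _ m _ - ggAv _ m _| ≤ _
      rw [← ggAv_sub]
      refine abs_ggAv_le_of _ fun ρ => ?_
      rw [← mul_sub, abs_mul, abs_sub_comm]
      exact mul_le_mul (hGb ω ρ) (gg_clip_dist (abs_ggOv_le hN i B a b ω ρ)) (abs_nonneg _) hD'
    · rw [integral_const_mul]; exact mul_le_mul_of_nonneg_left he hD'
  set T := fun c : Fin (n + 1) => avgN lam μ η x (n + 1) fun ω ρ => F1 ω ρ * ggOv i B le.castSucc c ω ρ
  set Ef := avgN lam μ η x (n + 1) F1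
  set H1 := avgN lam μ η x 1 fun ω ρ => fieldH i B ω (ρ 0)
  set b2 := avgN lam μ η x 2 fun ω ρ => ggOv i B (0 : Fin 2) 1 ω ρ
  -- the two integrations by parts
  have iT : ∀ c, Integrable (fun ω => ggAv (pertHam x ω) (n + 1) fun ρ =>
      F1 ω ρ * ggOv i B le.castSucc c ω ρ) P := fun c =>
    gg_integrable_av (b := fun ω => D * L ω) x (fun ρ => (hF1m ρ).mul (gg_measurable_ov i B _ c ρ))
      (hci.const_mul D) fun ω ρ => by
        rw [abs_mul]; exact mul_le_mul (hfb _) (abs_ggOv_le hN i B _ c ω ρ) (abs_nonneg _) hD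
  have hS : avgN lam μ η x n (fun ω ρ => Φ ω.1 ρ * fieldH i B ω (ρ le)) =
      xb * (∑ a : Fin n, T a.castSucc - n * T (Fin.last n)) := by
    refine hst.trans (congrArg (xb * ·) ?_)
    simp only [T, gg_avgN_eq]
    rw [← integral_finsetSum _ fun a _ => iT a.castSucc, ← integral_const_mul,
      ← integral_sub (integrable_finsetSum _ fun a _ => iT a.castSucc) ((iT _).const_mul _)]
    refine integral_congr_ae (Filter.Eventually.of_forall fun ω => ?_)
    simp only [mul_sub, Finset.mul_sum, ggAv_sub, ggAv_sum]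
    rw [show (fun ρ => Φ ω.1 (fun a => ρ a.castSucc) * ((n : ℝ) * ggOv i B le.castSucc (Fin.last n) ω ρ))
        = fun ρ => (n : ℝ) * (F1 ω ρ * ggOv i B le.castSucc (Fin.last n) ω ρ) from
      funext fun ρ => mul_left_comm _ _ _, ggAv_const_mul]
  have hdiag : ∀ {m : ℕ} (a : Fin m) (ω : Dis K M N) (ρ : Fin m → Conf N), ggOv i B a a ω ρ = L ω :=
    fun a ω ρ => by simp only [ggOv, ggTwo, gg_chi_mul_self, L]
  have hH1 : H1 = xb * (1 - b2) := by
    have h := hst1
    simp only [one_mul, Fin.sum_univ_one, Nat.cast_one, hdiag] at h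
    refine h.trans (congrArg (xb * ·) ?_)
    simp only [b2, gg_avgN_eq]
    rw [← hce, ← integral_sub hci (gg_integrable_av (b := L) x
      (fun ρ => gg_measurable_ov i B _ _ ρ) hci fun ω ρ => abs_ggOv_le hN i B _ _ ω ρ)]
    refine integral_congr_ae (Filter.Eventually.of_forall fun ω => ?_)
    simp only [ggAv_sub, ggAv_const]
    rfl
  -- the diagonal
  have hTd : |T le.castSucc - Ef| ≤ D * δ := by
    simp only [T, Ef, gg_avgN_eq]
    rw [← integral_sub (iT _) (gg_integrable_av (b := fun _ => D) x hF1m (integrable_const _)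
      fun ω ρ => hfb _)]
    refine abs_integral_le_integral_abs.trans ((integral_mono_of_nonneg
      (Filter.Eventually.of_forall fun ω => abs_nonneg _) (hei.const_mul D)
      (Filter.Eventually.of_forall fun ω => ?_)).trans ?_)
    · show |ggAv _ _ _ - ggAv _ _ _| ≤ _
      rw [← ggAv_sub]
      refine abs_ggAv_le_of _ fun ρ => ?_
      rw [hdiag, show F1 ω ρ * L ω - F1 ω ρ = F1 ω ρ * (L ω - 1) by ring, abs_mul]
      exact mul_le_mul_of_nonneg_right (hfb _) (abs_nonneg _)
    · rw [integral_const_mul]; exact mul_le_mul_of_nonneg_left he hD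
  -- the fluctuation
  have hEf : stageExp lam μ η N x n f = Ef := gg_stageExp_succ N x hfd
  have hfl : |avgN lam μ η x n (fun ω ρ => Φ ω.1 ρ * fieldH i B ω (ρ le)) - Ef * H1| ≤
      D * fieldErr lam μ η N x := by
    have hEf' : Ef = avgN lam μ η x n fun ω ρ => Φ ω.1 ρ :=
      (gg_stageExp_succ N x hfd).symm
    have hI := gg_integrable_fieldBd (lam := lam) (μ := μ) (η := η) hl.le hN (⟨i, B⟩, false)
    have iA : Integrable (fun ω => ggAv (pertHam x ω) n fun ρ => Φ ω.1 ρ * fieldH i B ω (ρ le)) P :=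
      gg_integrable_av (b := fun ω => D * ggFieldBd (⟨i, B⟩, false) ω) x
        (fun ρ => ((hΦm ρ).comp measurable_fst).mul (gg_measurable_field (⟨i, B⟩, false) (ρ le)))
        (hI.const_mul D) fun ω ρ => by
          rw [abs_mul]
          exact mul_le_mul (hfb _) (gg_abs_field_le hN (⟨i, B⟩, false) ω (ρ le)) (abs_nonneg _) hD
    have iB : Integrable (fun ω => ggAv (pertHam x ω) n fun ρ => Φ ω.1 ρ) P :=
      gg_integrable_av (b := fun _ => D) x (fun ρ => (hΦm ρ).comp measurable_fst) (integrable_const _)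
        fun ω ρ => hfb _
    have iC : Integrable (fun ω => ggAv (pertHam x ω) 1 fun ρ => |fieldH i B ω (ρ 0) - H1|) P :=
      gg_integrable_av (b := fun ω => ggFieldBd (⟨i, B⟩, false) ω + |H1|) x
        (fun ρ => ((gg_measurable_field (⟨i, B⟩, false) (ρ 0)).sub_const _).abs)
        (hI.add (integrable_const _)) fun ω ρ => by
          rw [abs_abs]
          exact (abs_sub _ _).trans (add_le_add (gg_abs_field_le hN (⟨i, B⟩, false) ω (ρ 0)) le_rfl)
    rw [hEf', gg_avgN_eq, gg_avgN_eq, ← integral_mul_const, ← integral_sub iA (iB.mul_const _)]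
    refine abs_integral_le_integral_abs.trans ((integral_mono_of_nonneg
      (Filter.Eventually.of_forall fun ω => abs_nonneg _) (iC.const_mul D)
      (Filter.Eventually.of_forall fun ω => ?_)).trans ?_)
    · show |ggAv _ n _ - ggAv _ n _ * H1| ≤ D * ggAv _ 1 _
      rw [mul_comm (ggAv _ n _) H1, ← ggAv_const_mul, ← ggAv_sub,
        ← ggAv_single _ le (fun σ => |fieldH i B ω σ - H1|), ← ggAv_const_mul]
      refine (abs_ggAv_le _).trans (ggAv_mono _ fun ρ => ?_)
      rw [show Φ ω.1 ρ * fieldH i B ω (ρ le) - H1 * Φ ω.1 ρ =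
        Φ ω.1 ρ * (fieldH i B ω (ρ le) - H1) by ring, abs_mul]
      exact mul_le_mul_of_nonneg_right (hfb _) (abs_nonneg _)
    · rw [integral_const_mul]
      refine mul_le_mul_of_nonneg_left ?_ hD
      exact gg_fluct_le_fieldErr (lam := lam) (μ := μ) (η := η) x (⟨i, B⟩, false)
  -- the terms of the identity
  have hterm : ∀ c : Fin (n + 1), le.castSucc ≠ c →
      |stageExp lam μ η N x (n + 1) (fun ω => f ω * R (spcOf i) (pair l c B) ω) - T c| ≤ D * δ := by
    intro c hc
    have e : stageExp lam μ η N x (n + 1) (fun ω => f ω * R (spcOf i) (pair l c B) ω) =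
        avgN lam μ η x (n + 1) fun ω ρ => F1 ω ρ * cl (n + 1) le.castSucc c ω ρ := by
      refine congrArg (avgN lam μ η x (n + 1)) (funext fun ω => funext fun ρ => ?_)
      show f (stageCube ω ρ) * R (spcOf i) (pair l c B) (stageCube ω ρ) = _
      rw [gg_dep_castSucc hfd ω ρ, ← hcl (n + 1) le.castSucc c ω ρ hc]
      rfl
    rw [e]
    exact hclip _ F1 D hF1m (fun ω ρ => hfb _) hD _ _
  have hb2 : |stageExp lam μ η N x 2 (fun ω => R (spcOf i) (pair 0 1 B) ω) - b2| ≤ δ := by
    have e : stageExp lam μ η N x 2 (fun ω => R (spcOf i) (pair 0 1 B) ω) =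
        avgN lam μ η x 2 fun ω ρ => 1 * cl 2 0 1 ω ρ := by
      refine congrArg (avgN lam μ η x 2) (funext fun ω => funext fun ρ => ?_)
      rw [one_mul, ← hcl 2 0 1 ω ρ (by decide)]
      rfl
    have h := hclip 2 (fun _ _ => 1) 1 (fun _ => measurable_const) (fun _ _ => by simp) zero_le_one 0 1
    rw [e]
    simpa only [one_mul, b2] using h
  have hEfb : |Ef| ≤ D := by
    refine (gg_abs_avgN_le hN x (b := fun _ => D) (integrable_const _) fun ω ρ => hfb _).trans_eq ?_
    simp
  have hlast := hterm (Fin.last n) (Fin.castSucc_lt_last le).ne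
  simp only [Fin.val_last] at hlast
  -- the other replicas
  have hsum : |∑ l' ∈ (range n).erase l, stageExp lam μ η N x n (fun ω => f ω * R (spcOf i) (pair l l' B) ω) -
      (∑ a : Fin n, T a.castSucc - T le.castSucc)| ≤ n * (D * δ) := by
    have e : ∑ l' ∈ (range n).erase l,
        stageExp lam μ η N x n (fun ω => f ω * R (spcOf i) (pair l l' B) ω) =
        ∑ a ∈ (Finset.univ : Finset (Fin n)).erase le,
          stageExp lam μ η N x n (fun ω => f ω * R (spcOf i) (pair l a B) ω) := by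
      rw [Finset.sum_erase_eq_sub (Finset.mem_range.2 hl'), Finset.sum_erase_eq_sub (Finset.mem_univ le),
        ← Fin.sum_univ_eq_sum_range
          (fun l' => stageExp lam μ η N x n fun ω => f ω * R (spcOf i) (pair l l' B) ω) n]
    rw [e, ← Finset.sum_erase_eq_sub (Finset.mem_univ le), ← Finset.sum_sub_distrib]
    refine (Finset.abs_sum_le_sum_abs _ _).trans ((Finset.sum_le_sum (g := fun _ => D * δ)
      fun a ha => ?_).trans ?_)
    · have hne : le ≠ a := fun h => (Finset.ne_of_mem_erase ha) h.symm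
      have hdep : DepBelow n fun ω => f ω * R (spcOf i) (pair l (a : ℕ) B) ω := fun ω ω' h => by
        simp only
        rw [hfd ω ω' h, h _ _ (gg_below_pair B hl' a.isLt)]
      rw [gg_stageExp_succ N x hdep]
      refine le_trans (le_of_eq ?_) (hterm a.castSucc fun h => hne (Fin.castSucc_injective _ h))
      refine congrArg (fun r => |r - T a.castSucc|) ?_
      refine congrArg (avgN lam μ η x (n + 1)) (funext fun ω => funext fun ρ => ?_)
      exact (gg_dep_castSucc hdep ω ρ).symm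
    · rw [Finset.sum_const, nsmul_eq_mul]
      refine mul_le_mul_of_nonneg_right ?_ (mul_nonneg hD (by positivity))
      exact_mod_cast (Finset.card_erase_le.trans (by simp))
  -- assembly
  have hx0 : 0 < xb := zero_lt_one.trans_le hxb.1
  rw [hS, hH1, show xb * (∑ a : Fin n, T a.castSucc - n * T (Fin.last n)) - Ef * (xb * (1 - b2)) =
    xb * (∑ a : Fin n, T a.castSucc - n * T (Fin.last n) - Ef * (1 - b2)) by ring, abs_mul,
    abs_of_pos hx0] at hfl
  have hfl' := (le_mul_of_one_le_left (abs_nonneg _) hxb.1).trans hfl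
  rw [hEf]
  have hprod : |Ef * stageExp lam μ η N x 2 (fun ω => R (spcOf i) (pair 0 1 B) ω) - Ef * b2| ≤ D * δ := by
    rw [← mul_sub, abs_mul]
    exact mul_le_mul hEfb hb2 (abs_nonneg _) hD
  have hlastn : |(n : ℝ) * stageExp lam μ η N x (n + 1) (fun ω => f ω * R (spcOf i) (pair l n B) ω) -
      n * T (Fin.last n)| ≤ n * (D * δ) := by
    rw [← mul_sub, abs_mul, Nat.abs_cast]
    exact mul_le_mul_of_nonneg_left hlast (Nat.cast_nonneg n)
  have hfe : 0 ≤ fieldErr lam μ η N x := le_trans (by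
    rw [fluct, gg_avgN_eq]
    exact integral_nonneg fun ω =>
      le_trans (le_of_eq (ggAv_const _ 0).symm) (ggAv_mono _ fun ρ => abs_nonneg _))
    (gg_fluct_le_fieldErr (lam := lam) (μ := μ) (η := η) x (⟨i, B⟩, false))
  have hn0 : (0 : ℝ) ≤ n := Nat.cast_nonneg n
  have hnn : D * fieldErr lam μ η N x ≤ (2 * (n : ℝ) + 2) * D * fieldErr lam μ η N x := by
    rw [mul_assoc]
    exact le_mul_of_one_le_left (mul_nonneg hD hfe) (by linarith)
  rw [mul_add ((2 * (n : ℝ) + 2) * D)]
  have e2 : (2 * (n : ℝ) + 2) * D * δ = n * (D * δ) + n * (D * δ) + D * δ + D * δ := by ring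
  rw [e2]
  rw [show Ef * (1 - b2) = Ef - Ef * b2 by ring] at hfl'
  obtain ⟨a1, a2⟩ := abs_le.1 hfl'
  obtain ⟨b1, b2'⟩ := abs_le.1 hTd
  obtain ⟨c1, c2⟩ := abs_le.1 hsum
  obtain ⟨d1, d2⟩ := abs_le.1 hprod
  obtain ⟨g1, g2⟩ := abs_le.1 hlastn
  exact abs_le.2 ⟨by linarith, by linarith⟩

/-- One-replica overlaps are nearly constant with small fluctuations. -/
theorem exists_const_bound (hK2 : 2 ≤ K) (hl : 0 < lam) (hb : BoundedModel B0 μ η) (M : ℕ) :
    ∃ (C : ℝ) (δ : ℕ → ℝ), Tendsto δ atTop (𝓝 0) ∧ ∀ N, 1 ≤ N → ∀ x : Par M,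
      (∀ b, x b ∈ Set.Icc (1 : ℝ) 2) → ∀ j : Spc, (∃ i : Fin M, spcOf i = j) →
      ∀ B : Finset (Fin j.1),
        stageExp lam μ η N x 1 (fun ω => |R j (single 0 B) ω -
            stageExp lam μ η N x 1 (fun ω' => R j (single 0 B) ω')|) ≤
          C * (fieldErr lam μ η N x + δ N) := by
  refine ⟨2, fun _ => 0, tendsto_const_nhds, fun N hN x hx j hj B => ?_⟩
  have := gg_prob_disLaw (M := M) (lam := lam) (μ := μ) (η := η) hN
  obtain ⟨i, e, hcube⟩ := gg_cube_apply (K := K) (N := N) hj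
  subst e
  set clip := fun r : ℝ => max (-1 : ℝ) (min 1 r)
  have hlip : ∀ u v : ℝ, |clip u - clip v| ≤ |u - v| := fun u v =>
    (abs_max_sub_max_le_max _ _ _ _).trans (max_le (by simp)
      ((abs_min_sub_min_le_max _ _ _ _).trans (max_le (by simp) le_rfl)))
  have hclb : ∀ u, |clip u| ≤ 1 := fun u =>
    abs_le.2 ⟨le_max_left _ _, max_le (by norm_num) (min_le_left _ _)⟩
  set b : ParIdx M := (⟨i, B⟩, true)
  set P := disLaw M N lam μ η
  have hR : ∀ (ω : Dis K M N) (ρ : Fin 1 → Conf N),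
      R (spcOf i) (single 0 B) (stageCube ω ρ) = clip (ggField b ω (ρ 0)) := fun ω ρ => by
    rw [hcube 1 ω ρ _ (gg_below_single B one_pos)]
    simp only [stageR, gg_cast_image]
    have hc : ∀ I : Fin (ar i) → Fin N, chiPat (single 0 B) I ρ = chi B fun p => ρ 0 (I p) :=
      fun I => gg_chiPat_single B (0 : Fin 1) I ρ
    simp only [hc]
    rfl
  set m := avgN lam μ η x 1 fun ω ρ => ggField b ω (ρ 0)
  set c := stageExp lam μ η N x 1 fun ω => R (spcOf i) (single 0 B) ω
  have hc : c = ∫ ω, ggAv (pertHam x ω) 1 (fun ρ => clip (ggField b ω (ρ 0))) ∂P := by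
    simp only [c, stageExp, gg_avgN_eq, hR]
    rfl
  have hm : ∀ ρ : Fin 1 → Conf N, Measurable fun ω : Dis K M N => clip (ggField b ω (ρ 0)) := fun ρ =>
    measurable_const.max (measurable_const.min (gg_measurable_field b (ρ 0)))
  set Dv := fun ω : Dis K M N => ggAv (pertHam x ω) 1 fun ρ => |ggField b ω (ρ 0) - m|
  have iD : Integrable Dv P :=
    gg_integrable_av (b := fun ω => ggFieldBd b ω + |m|) x
      (fun ρ => ((gg_measurable_field b (ρ 0)).sub_const _).abs)
      ((gg_integrable_fieldBd hl.le hN b).add (integrable_const _)) fun ω ρ => by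
        rw [abs_abs]; exact (abs_sub _ _).trans (add_le_add (gg_abs_field_le hN b ω (ρ 0)) le_rfl)
  have hcm : |clip m - c| ≤ ∫ ω, Dv ω ∂P := by
    have ic : Integrable (fun ω => ggAv (pertHam x ω) 1 fun ρ => clip (ggField b ω (ρ 0))) P :=
      gg_integrable_av (b := fun _ => 1) x hm (integrable_const _) fun ω ρ => hclb _
    rw [hc, abs_sub_comm]
    have e : (∫ ω, ggAv (pertHam x ω) 1 (fun ρ => clip (ggField b ω (ρ 0))) ∂P) - clip m =
        ∫ ω, (ggAv (pertHam x ω) 1 (fun ρ => clip (ggField b ω (ρ 0))) - clip m) ∂P := by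
      rw [integral_sub ic (integrable_const _), integral_const, probReal_univ, one_smul]
    rw [e]
    refine abs_integral_le_integral_abs.trans (integral_mono (ic.sub (integrable_const _)).abs iD
      fun ω => ?_)
    show |ggAv _ 1 _ - clip m| ≤ _
    rw [← ggAv_const (pertHam x ω) (n := 1) (clip m), ← ggAv_sub]
    exact (abs_ggAv_le _).trans (ggAv_mono _ fun ρ => hlip _ _)
  have hfl : ∫ ω, Dv ω ∂P ≤ fieldErr lam μ η N x :=
    gg_fluct_le_fieldErr (lam := lam) (μ := μ) (η := η) x b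
  have hmain : stageExp lam μ η N x 1 (fun ω => |R (spcOf i) (single 0 B) ω - c|) ≤
      ∫ ω, (Dv ω + |clip m - c|) ∂P := by
    rw [stageExp, gg_avgN_eq]
    refine integral_mono_of_nonneg (Filter.Eventually.of_forall fun ω =>
      le_trans (le_of_eq (ggAv_const _ 0).symm) (ggAv_mono _ fun ρ => abs_nonneg _))
      (iD.add (integrable_const _)) (Filter.Eventually.of_forall fun ω => ?_)
    refine (ggAv_mono (G := fun ρ => |ggField b ω (ρ 0) - m| + |clip m - c|) _ fun ρ => ?_).trans_eq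
      (by rw [ggAv_add, ggAv_const])
    show |R (spcOf i) (single 0 B) (stageCube ω ρ) - c| ≤ _
    rw [hR]
    exact (abs_sub_le _ (clip m) _).trans (add_le_add (hlip _ _) le_rfl)
  refine hmain.trans ?_
  rw [integral_add iD (integrable_const _), integral_const, probReal_univ, one_smul, add_zero]
  linarith

end Vale.Agent.P168
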