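import Vale.Agent.P168.Fin.GGStein

/-!
P168: the fields of the perturbation fluctuate little, averaged over the strengths.
-/

namespace Vale.Agent.P168

open MeasureTheory ProbabilityTheory Filter Finset
open scoped Topology

variable {K M N : ℕ} {lam B0 : ℝ} {μ : Measure (Table K)} {η : Measure ℝ} [IsProbabilityMeasure μ]
  [IsProbabilityMeasure η]

lemma gg_field_coord (hb : ∀ᵐ h ∂η, |h| ≤ B0) :
    ∀ᵐ h ∂Measure.pi (fun _ : Fin N => η), ∀ i, |h i| ≤ B0 :=
  Filter.eventually_all.2 fun i =>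
    (measurePreserving_eval (fun _ : Fin N => η) i).quasiMeasurePreserving.ae hb

omit [IsProbabilityMeasure μ] [IsProbabilityMeasure η] in
lemma gg_abs_pertHam_le (hN : 1 ≤ N) {x : Par M} {R : ℝ} (hR : 1 ≤ R) (hx : ∀ b, |x b| ≤ 3 * R)
    (ω : Dis K M N) (σ : Conf N) :
    |pertHam x ω σ| ≤ R * Cfg.sum ggPot ω.1 + ∑ i, |ω.2 i| := by
  refine (abs_add_le _ _).trans (add_le_add ?_ ((Finset.abs_sum_le_sum_abs _ _).trans
    (Finset.sum_le_sum fun i _ => ?_)))
  · exact (gg_abs_sum_le (fun c => gg_abs_markPot_le' hN hR hx c σ) ω.1).trans_eq (gg_sum_smul R _ _)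
  · rw [abs_mul, show |spin (σ i)| = 1 by unfold spin; split <;> simp, mul_one]

/-- The log-partition function is integrable. -/
lemma gg_integrable_logZ (hl : 0 ≤ lam) (hb : BoundedModel B0 μ η) (hN : 1 ≤ N) (x : Par M) :
    Integrable (fun ω => ggLogZ (pertHam x ω)) (disLaw M N lam μ η) := by
  have := gg_finite_markLaw (M := M) (lam := lam) (μ := μ) hN
  have := isProbabilityMeasure_pp (markLaw M N lam μ)
  obtain ⟨C, -, hC⟩ := gg_pot_moments (M := M) hl hb.1
  have := gg_prob_disLaw (M := M) (lam := lam) (μ := μ) (η := η) hN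
  set R := 1 + ∑ b, |x b|
  have hR : 1 ≤ R := le_add_of_nonneg_right (Finset.sum_nonneg fun _ _ => abs_nonneg _)
  have hx : ∀ b, |x b| ≤ 3 * R := fun b => by
    have := Finset.single_le_sum (f := fun b => |x b|) (fun _ _ => abs_nonneg _) (Finset.mem_univ b)
    have h0 : 0 ≤ |x b| := abs_nonneg _
    simp only [R] at this ⊢
    linarith
  set c0 := |ggLogZ (fun _ : Conf N => (0 : ℝ))|
  have hh : Integrable (fun ω : Dis K M N => ∑ i, |ω.2 i|) (disLaw M N lam μ η) := by
    refine Integrable.comp_snd (f := fun h : Fin N → ℝ => ∑ i, |h i|) ?_ _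
    exact integrable_finsetSum _ fun i _ => (Integrable.of_bound
      (measurable_pi_apply i).aestronglyMeasurable B0
      ((gg_field_coord hb.2).mono fun h hh => hh i)).abs
  refine (((gg_integral_dis hN (hC N hN).1).1.const_mul R).add hh |>.add (integrable_const c0)).mono'
    (measurable_ggLogZ (gg_measurable_pertHam x)).aestronglyMeasurable
    (Filter.Eventually.of_forall fun ω => ?_)
  have h := abs_ggLogZ_sub_le (E := pertHam x ω) (E' := fun _ => (0 : ℝ)) fun u => by
    rw [sub_zero]; exact gg_abs_pertHam_le hN hR hx ω u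
  rw [Real.norm_eq_abs]
  refine (abs_sub_abs_le_abs_sub _ _).trans h |> fun e => ?_
  show |ggLogZ (pertHam x ω)| ≤ R * Cfg.sum ggPot ω.1 + ∑ i, |ω.2 i| + c0
  linarith

/-- The log-partition function fluctuates like the square root of the number of sites. -/
lemma gg_logZ_fluct (hl : 0 ≤ lam) (hb : BoundedModel B0 μ η) :
    ∃ C, 0 ≤ C ∧ ∀ N, 1 ≤ N → ∀ x : Par M, (∀ b, |x b| ≤ 3) →
      ∫ ω, |ggLogZ (pertHam (N := N) x ω) - ∫ ω', ggLogZ (pertHam (N := N) x ω') ∂disLaw M N lam μ η|
        ∂disLaw M N lam μ η ≤ C * Real.sqrt N := by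
  obtain ⟨C, hC0, hC⟩ := gg_pot_moments (M := M) hl hb.1
  refine ⟨Real.sqrt C + 2 * |B0|, by positivity, fun N hN x hx => ?_⟩
  have := gg_finite_markLaw (M := M) (lam := lam) (μ := μ) hN
  have := isProbabilityMeasure_pp (markLaw M N lam μ)
  set P := pp (markLaw M N lam μ)
  set Q := Measure.pi fun _ : Fin N => η
  set ψ := fun ω : Dis K M N => ggLogZ (pertHam x ω)
  have hψm : Measurable ψ := measurable_ggLogZ (gg_measurable_pertHam x)
  have hψi : Integrable ψ (P.prod Q) := gg_integrable_logZ hl hb hN x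
  set m := fun h : Fin N → ℝ => ∫ ω, ψ (ω, h) ∂P
  have hmm : Measurable m := (hψm.stronglyMeasurable.integral_prod_left' (μ := P)).measurable
  have hmi : Integrable m Q := hψi.integral_prod_right
  have hE : ∫ ω, ψ ω ∂P.prod Q = ∫ h, m h ∂Q := integral_prod_symm _ hψi
  have hincr : ∀ h, CfgIncr (fun ω => ψ (ω, h)) ggPot := fun h c ω => abs_ggLogZ_sub_le fun σ => by
    rw [gg_pertHam_cons, add_sub_cancel_right]
    exact gg_abs_markPot_le hN hx c σ
  have hsym : ∀ h, CfgSymm fun ω => ψ (ω, h) := fun h k e v =>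
    congrArg ggLogZ (funext fun σ => gg_pertHam_symm x h σ k e v)
  have hm1 : ∀ h, Measurable fun ω => ψ (ω, h) := fun h =>
    hψm.comp (measurable_id.prodMk measurable_const)
  have h1 : ∀ h, ∫ ω, |ψ (ω, h) - m h| ∂P ≤ Real.sqrt C * Real.sqrt N := fun h =>
    (fluct_pp _ (hm1 h) (hsym h) (hC N hN).1 (hC N hN).2.1 (hincr h)).trans
      ((Real.sqrt_le_sqrt (hC N hN).2.2).trans_eq (Real.sqrt_mul hC0 _))
  have hd : ∀ h i u, |m (Function.update h i u) - m h| ≤ |u| + |h i| := fun h i u => by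
    have hi : ∀ h, Integrable (fun ω => ψ (ω, h)) P := fun h =>
      integrable_of_incr _ (hm1 h) (hC N hN).1 (hincr h)
    rw [← integral_sub (hi _) (hi _)]
    refine abs_integral_le_integral_abs.trans ((integral_mono ((hi _).sub (hi _)).abs
      (integrable_const (|u| + |h i|)) fun ω => abs_ggLogZ_sub_le fun σ => ?_).trans_eq (by simp))
    simp only [pertHam, add_sub_add_left_eq_sub, ← Finset.sum_sub_distrib]
    rw [Finset.sum_eq_single i (fun j _ hj => by simp [hj]) (by simp), Function.update_self, ← sub_mul,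
      abs_mul, show |spin (σ i)| = 1 by unfold spin; split <;> simp, mul_one]
    exact abs_sub _ _
  have hsq : Integrable (fun u : ℝ => |u| ^ 2) η :=
    Integrable.of_bound (by fun_prop) (B0 ^ 2) (hb.2.mono fun u hu => by
      rw [Real.norm_eq_abs, abs_pow, abs_abs]; exact pow_le_pow_left₀ (abs_nonneg _) hu 2)
  have h2 : ∫ h, |m h - ∫ h', m h' ∂Q| ∂Q ≤ 2 * |B0| * Real.sqrt N := by
    refine (fluct_pi η hmm (φ := fun u => |u|) hsq hd).trans ?_
    rw [Fintype.card_fin, Real.sqrt_mul (Nat.cast_nonneg N), mul_assoc 2, mul_comm (|B0|)]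
    refine mul_le_mul_of_nonneg_left (mul_le_mul_of_nonneg_left ?_ (Real.sqrt_nonneg _)) zero_le_two
    rw [← Real.sqrt_sq_eq_abs B0]
    exact Real.sqrt_le_sqrt ((integral_mono_ae hsq (integrable_const _) (hb.2.mono fun u hu => by
      exact pow_le_pow_left₀ (abs_nonneg _) hu 2)).trans_eq (by simp))
  have hA : Integrable (fun ω : Dis K M N => |ψ ω - m ω.2|) (P.prod Q) :=
    (hψi.sub' (hmi.comp_snd P)).abs
  have hB : Integrable (fun ω : Dis K M N => |m ω.2 - ∫ h', m h' ∂Q|) (P.prod Q) :=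
    ((hmi.comp_snd P).sub' (integrable_const _)).abs
  show ∫ ω, |ψ ω - ∫ ω', ψ ω' ∂P.prod Q| ∂P.prod Q ≤ _
  rw [hE]
  refine (integral_mono (hψi.sub' (integrable_const _)).abs (hA.add hB) fun ω =>
    abs_sub_le _ (m ω.2) _).trans ?_
  simp only [Pi.add_apply]
  rw [integral_add hA hB, integral_prod_symm _ hA,
    integral_fun_snd (μ := P) (fun h => |m h - ∫ h', m h' ∂Q|), probReal_univ, one_smul, add_mul]
  exact add_le_add ((integral_mono hA.integral_prod_right (integrable_const _) h1).trans_eq (by simp)) h2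

/-- The field of a strength. -/
noncomputable def ggField (b : ParIdx M) (ω : Dis K M N) (σ : Conf N) : ℝ :=
  if b.2 then fieldD b.1.1 b.1.2 ω σ else fieldH b.1.1 b.1.2 ω σ

/-- A bound for the field of a strength. -/
noncomputable def ggFieldBd (b : ParIdx M) (ω : Dis K M N) : ℝ :=
  if b.2 then speciesSum b.1.1 (fun _ => 1) ω / sN N
  else speciesSum b.1.1 (fun g => |g.2 b.1.2|) ω / (betaN N * sN N)

omit [IsProbabilityMeasure μ] [IsProbabilityMeasure η] in
lemma gg_measurable_field (b : ParIdx M) (σ : Conf N) :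
    Measurable fun ω : Dis K M N => ggField b ω σ := by
  obtain ⟨⟨i, B⟩, k⟩ := b
  cases k
  · simp only [ggField, fieldH, Bool.false_eq_true, ↓reduceIte]
    refine (gg_measurable_speciesSum i ?_).div_const _
    exact (measurable_from_prod_countable_right (f := fun g : PertMark N i =>
      g.2 B * chi B fun p => σ (g.1 p)) fun I => by fun_prop)
  · simp only [ggField, fieldD, ↓reduceIte]
    exact (gg_measurable_speciesSum i
      ((measurable_of_finite fun I : Fin (ar i) → Fin N => chi B fun p => σ (I p)).comp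
        measurable_fst)).div_const _

omit [IsProbabilityMeasure μ] [IsProbabilityMeasure η] in
lemma gg_coef_eq (hN : 1 ≤ N) (b : ParIdx M) (ω : Dis K M N) (σ : Conf N) :
    speciesSum b.1.1 (ggCoef b σ) ω = betaN N ^ 2 * sN N * ggField b ω σ := by
  have hb := (gg_betaN_mem hN).1.ne'
  have hs := (zero_lt_one.trans_le (gg_sN_mem hN).1).ne'
  have key : ∀ (i : Fin M) (a : ℝ) (φ ψ : PertMark N i → ℝ), (∀ g, φ g = a * ψ g) →
      speciesSum i φ ω = a * speciesSum i ψ ω := fun i a φ ψ h => by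
    simp only [gg_speciesSum_eq, ← gg_sum_smul]
    refine congrArg (fun f => Cfg.sum f ω.1) (funext fun c => ?_)
    match c with
    | Sum.inl _ => simp [ggLift]
    | Sum.inr ⟨i', g⟩ =>
      rcases eq_or_ne i' i with rfl | hne
      · simp only [ggLift_self, h]
      · simp [ggLift_ne hne]
  obtain ⟨⟨i, B⟩, k⟩ := b
  cases k
  · simp only [ggField, fieldH, Bool.false_eq_true, ↓reduceIte]
    rw [key i (betaN N) _ (fun g => g.2 B * chi B fun p => σ (g.1 p)) fun g => by
      simp [ggCoef, mul_assoc]]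
    field_simp
  · simp only [ggField, fieldD, ↓reduceIte]
    rw [key i (betaN N ^ 2) _ (fun g => chi B fun p => σ (g.1 p)) fun g => by simp [ggCoef]]
    field_simp

omit [IsProbabilityMeasure μ] [IsProbabilityMeasure η] in
lemma gg_abs_field_le (hN : 1 ≤ N) (b : ParIdx M) (ω : Dis K M N) (σ : Conf N) :
    |ggField b ω σ| ≤ ggFieldBd b ω := by
  have hb := (gg_betaN_mem hN).1
  have hs := zero_lt_one.trans_le (gg_sN_mem hN).1
  obtain ⟨⟨i, B⟩, k⟩ := b
  cases k
  · simp only [ggField, ggFieldBd, fieldH, Bool.false_eq_true, ↓reduceIte, gg_speciesSum_eq]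
    rw [abs_div, abs_of_pos (mul_pos hb hs)]
    refine div_le_div_of_nonneg_right (gg_abs_sum_le (fun c => ?_) ω.1) (mul_pos hb hs).le
    rw [ggLift_abs]
    exact ggLift_mono i (fun g => (by rw [abs_mul, gg_chi_abs, mul_one] : _ ≤ |g.2 B|)) c
  · simp only [ggField, ggFieldBd, fieldD, ↓reduceIte, gg_speciesSum_eq]
    rw [abs_div, abs_of_pos hs]
    refine div_le_div_of_nonneg_right (gg_abs_sum_le (fun c => ?_) ω.1) hs.le
    rw [ggLift_abs]
    exact ggLift_mono i (fun g => (gg_chi_abs _ _).le) c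

lemma gg_integral_count (hl : 0 ≤ lam) (hN : 1 ≤ N) (i : Fin M) :
    Integrable (fun ω : Dis K M N => speciesSum i (fun _ => 1) ω / sN N) (disLaw M N lam μ η) ∧
      ∫ ω, speciesSum i (fun _ => 1) ω / sN N ∂disLaw M N lam μ η = 1 := by
  have := gg_prob_pair hN i
  obtain ⟨h1, h2⟩ := gg_integrable_lift (lam := lam) (μ := μ) hl hN i (φ := fun _ => (1 : ℝ))
    measurable_const (integrable_const _)
  obtain ⟨h3, h4⟩ := gg_integral_dis (η := η) hN h1
  refine ⟨h3.div_const _, ?_⟩
  simp only [gg_speciesSum_eq]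
  rw [integral_div, h4, h2, integral_const, probReal_univ, one_smul, mul_one,
    div_self (zero_lt_one.trans_le (gg_sN_mem hN).1).ne']

lemma gg_integrable_fieldBd (hl : 0 ≤ lam) (hN : 1 ≤ N) (b : ParIdx M) :
    Integrable (fun ω : Dis K M N => ggFieldBd b ω) (disLaw M N lam μ η) := by
  obtain ⟨⟨i, B⟩, k⟩ := b
  cases k
  · simp only [ggFieldBd, Bool.false_eq_true, ↓reduceIte, gg_speciesSum_eq]
    exact (gg_integral_dis hN (gg_integrable_lift hl hN i
      ((measurable_pi_apply B).comp measurable_snd).abs (gg_integrable_abs_coord hN i B)).1).1.div_const _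
  · simp only [ggFieldBd, ↓reduceIte]
    exact (gg_integral_count hl hN i).1

lemma gg_abs_avgN_le (hN : 1 ≤ N) (x : Par M) {n : ℕ} {F : Dis K M N → (Fin n → Conf N) → ℝ}
    {b : Dis K M N → ℝ} (hb : Integrable b (disLaw M N lam μ η)) (h : ∀ ω ρ, |F ω ρ| ≤ b ω) :
    |avgN lam μ η x n F| ≤ ∫ ω, b ω ∂disLaw M N lam μ η := by
  rw [gg_avgN_eq]
  exact abs_integral_le_integral_abs.trans (integral_mono_of_nonneg
    (Filter.Eventually.of_forall fun ω => abs_nonneg _) hb
    (Filter.Eventually.of_forall fun ω => abs_ggAv_le_of _ (h ω)))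

/-- The mean field of a strength is bounded by a multiple of that strength or by one. -/
lemma gg_mean_field_le (hl : 0 ≤ lam) (hN : 1 ≤ N) (x : Par M) (b : ParIdx M) :
    |avgN (N := N) lam μ η x 1 (fun ω ρ => ggField b ω (ρ 0))| ≤ max (2 * |x b|) 1 := by
  obtain ⟨⟨i, B⟩, k⟩ := b
  obtain ⟨hci, hce⟩ := gg_integral_count (lam := lam) (μ := μ) (η := η) hl hN i
  cases k
  · refine le_max_of_le_left ?_
    simp only [ggField, Bool.false_eq_true, ↓reduceIte]
    have h := gg_field_stein (η := η) (μ := μ) hl hN x i B (n := 1) 0 (fun _ _ => 1)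
      (fun _ => measurable_const) (fun _ _ _ _ => rfl) (D := 1) (fun _ _ => by simp)
      (fun _ _ _ _ => rfl)
    simp only [one_mul] at h
    rw [h, abs_mul, mul_comm 2 |x _|]
    refine mul_le_mul_of_nonneg_left ?_ (abs_nonneg _)
    refine (gg_abs_avgN_le hN x (hci.const_mul 2) fun ω ρ => ?_).trans_eq (by
      rw [integral_const_mul, hce, mul_one])
    simp only [Fin.sum_univ_one, Nat.cast_one, one_mul]
    exact (abs_sub _ _).trans (by
      linarith [abs_ggOv_le hN i B (0 : Fin 1).castSucc (0 : Fin 1).castSucc ω ρ,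
        abs_ggOv_le hN i B (0 : Fin 1).castSucc (Fin.last 1) ω ρ])
  · refine le_max_of_le_right ((gg_abs_avgN_le hN x hci fun ω ρ => ?_).trans_eq hce)
    exact gg_abs_field_le hN (⟨i, B⟩, true) ω (ρ 0)

omit [IsProbabilityMeasure μ] [IsProbabilityMeasure η] in
lemma gg_fieldErr_eq (N : ℕ) (x : Par M) :
    fieldErr lam μ η N x = ∑ b : ParIdx M, fluct (N := N) lam μ η x (ggField b) := by
  rw [fieldErr, Fintype.sum_prod_type]
  refine Finset.sum_congr rfl fun b _ => ?_
  rw [Fintype.sum_bool, add_comm]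
  rfl

/-- The fluctuation of one field, averaged over the strengths. -/
lemma gg_fluct_le (hl : 0 ≤ lam) (hb : BoundedModel B0 μ η) (hN : 1 ≤ N) {v : ℝ}
    (hv : ∀ x : Par M, (∀ b, |x b| ≤ 3) →
      ∫ ω, |ggLogZ (pertHam (N := N) x ω) - ∫ ω', ggLogZ (pertHam (N := N) x ω') ∂disLaw M N lam μ η|
        ∂disLaw M N lam μ η ≤ v) (b : ParIdx M) {e : ℝ} (he : 0 < e) (he1 : e ≤ 1) :
    Integrable (fun x => fluct (N := N) lam μ η x (ggField b)) (boxLaw M) ∧
      ∫ x, fluct (N := N) lam μ η x (ggField b) ∂boxLaw M ≤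
        (2 * 6 + 1) / Real.sqrt (betaN N ^ 2 * sN N) + 4 * 6 * e + 3 * v / (e * (betaN N ^ 2 * sN N)) := by
  have := gg_prob_disLaw (M := M) (lam := lam) (μ := μ) (η := η) hN
  have hbox : IsProbabilityMeasure (boxLaw M) :=
    show IsProbabilityMeasure (Measure.pi fun _ : ParIdx M => P157.Low.unitLaw) from inferInstance
  set P := disLaw M N lam μ η
  set a := betaN N ^ 2 * sN N
  have ha : 0 < a := mul_pos (pow_pos (gg_betaN_mem hN).1 2) (zero_lt_one.trans_le (gg_sN_mem hN).1)
  set F := fun x : Par M => fluct (N := N) lam μ η x (ggField (K := K) b)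
  have hI := gg_integrable_fieldBd (lam := lam) (μ := μ) (η := η) hl hN b
  set Q := fun x : Par M => ∫ ω, ggAv (pertHam x ω) 1 (fun ρ => ggField b ω (ρ 0)) ∂P
  have hQm : Measurable Q :=
    (((measurable_ggAv (E := fun p : Par M × Dis K M N => pertHam p.1 p.2) gg_pertHam_joint
      fun ρ => (gg_measurable_field b (ρ 0)).comp measurable_snd)).stronglyMeasurable.integral_prod_right'
        (ν := P)).measurable
  have hQb : ∀ x, |Q x| ≤ ∫ ω, ggFieldBd b ω ∂P := fun x =>
    gg_abs_avgN_le hN x hI fun ω ρ => gg_abs_field_le hN b ω (ρ 0)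
  have hFm : Measurable F :=
    ((measurable_ggAv (E := fun p : Par M × Dis K M N => pertHam p.1 p.2) gg_pertHam_joint
      fun ρ => (((gg_measurable_field b (ρ 0)).comp measurable_snd).sub
        (hQm.comp measurable_fst)).abs).stronglyMeasurable.integral_prod_right' (ν := P)).measurable
  have hFb : ∀ x, |F x| ≤ 2 * ∫ ω, ggFieldBd b ω ∂P := fun x => by
    refine (gg_abs_avgN_le hN x (hI.add (integrable_const (∫ ω, ggFieldBd b ω ∂P))) fun ω ρ => ?_).trans_eq ?_
    · rw [abs_abs]
      exact (abs_sub _ _).trans (add_le_add (gg_abs_field_le hN b ω (ρ 0)) (hQb x))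
    · simp only [Pi.add_apply]
      rw [integral_add hI (integrable_const _), integral_const, probReal_univ, one_smul, two_mul]
  have hFi : Integrable F (boxLaw M) :=
    Integrable.of_bound hFm.aestronglyMeasurable _ (Filter.Eventually.of_forall hFb)
  refine ⟨hFi, ?_⟩
  have hmp := P157.Low.measurePreserving_update (ι := ParIdx M) (ν := P157.Low.unitLaw) b
  have hi2 := hmp.integrable_comp_of_integrable (g := F) hFi
  show ∫ x, F x ∂boxLaw M ≤ _
  rw [show boxLaw M = _ from hmp.map_eq.symm, integral_map hmp.measurable.aemeasurable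
    hFm.aestronglyMeasurable]
  rw [integral_prod (fun z : Par M × ℝ => F (Function.update z.1 b z.2)) hi2]
  have hae : ∀ᵐ x ∂Measure.pi (fun _ : ParIdx M => P157.Low.unitLaw), ∀ b', |x b'| ≤ 3 :=
    Filter.eventually_all.2 fun b' =>
      (measurePreserving_eval (fun _ : ParIdx M => P157.Low.unitLaw) b').quasiMeasurePreserving.ae
        (p := fun t => |t| ≤ 3) (P157.Low.ae_unitLaw.mono fun t ht => abs_le.2 ⟨by linarith [ht.1], by linarith [ht.2]⟩)
  refine (integral_mono_ae hi2.integral_prod_left (integrable_const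
    ((2 * 6 + 1) / Real.sqrt a + 4 * 6 * e + 3 * v / (e * a))) (hae.mono fun x hx => ?_)).trans_eq (by simp)
  set x0 := Function.update x b 0
  set A := fun ω : Dis K M N => pertHam x0 ω
  set H := fun ω : Dis K M N => ggField b ω
  have hlin : ∀ t ω, pertHam (Function.update x b t) ω = fun u => A ω u + t * (a * H ω u) :=
    fun t ω => funext fun u => by
      have h := gg_pertHam_update x0 b t ω u
      simp only [x0, Function.update_idem, Function.update_self, sub_zero, gg_coef_eq hN] at h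
      exact h
  have hup : ∀ t ∈ Set.Icc (0 : ℝ) 3, ∀ b', |Function.update x b t b'| ≤ 3 := fun t ht b' => by
    rcases eq_or_ne b' b with rfl | hne
    · rw [Function.update_self]; exact abs_le.2 ⟨by linarith [ht.1], ht.2⟩
    · rw [Function.update_of_ne hne]; exact hx b'
  have hψ : ∀ t, Integrable (fun ω => ggLogZ fun u => A ω u + t * (a * H ω u)) P := fun t => by
    simp only [← hlin]
    exact gg_integrable_logZ hl hb hN _
  have hcore := gg_fluct_core P A H (gg_measurable_pertHam x0) (gg_measurable_field b) ha hI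
    (gg_abs_field_le hN b) hψ (K := 6) (v := v)
    (fun t ht => by
      simp only [← hlin]
      refine (gg_mean_field_le hl hN (Function.update x b t) b).trans ?_
      rw [Function.update_self]
      exact max_le (by rw [abs_of_nonneg ht.1]; linarith [ht.2]) (by norm_num))
    (fun t ht => by
      simp only [← hlin]
      exact hv _ (hup t ht)) he he1
  simp only [← hlin] at hcore
  exact hcore

/-- The fields fluctuate little, averaged over the strengths. -/
theorem gg_fieldErr_bound (hl : 0 ≤ lam) (hb : BoundedModel B0 μ η) (M : ℕ) :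
    ∃ δ : ℕ → ℝ, Tendsto δ atTop (𝓝 0) ∧ ∀ N, 1 ≤ N →
      Integrable (fieldErr (M := M) lam μ η N) (boxLaw M) ∧
      ∫ x, fieldErr (M := M) lam μ η N x ∂boxLaw M ≤ δ N := by
  obtain ⟨C, hC0, hC⟩ := gg_logZ_fluct (M := M) hl hb
  set e : ℕ → ℝ := fun N => (N : ℝ) ^ (-(1 / 20) : ℝ)
  set term : ℕ → ℝ := fun N => 13 * (N : ℝ) ^ (-(3 / 10) : ℝ) + 24 * e N + 3 * C * e N
  refine ⟨fun N => (Fintype.card (ParIdx M) : ℝ) * term N, ?_, fun N hN => ?_⟩
  · have r : ∀ y : ℝ, 0 < y → Tendsto (fun N : ℕ => (N : ℝ) ^ (-y)) atTop (𝓝 0) := fun y hy =>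
      (tendsto_rpow_neg_atTop hy).comp tendsto_natCast_atTop_atTop
    simpa [term, e] using (((r (3 / 10) (by norm_num)).const_mul 13).add
      ((r (1 / 20) (by norm_num)).const_mul 24) |>.add
        ((r (1 / 20) (by norm_num)).const_mul (3 * C))).const_mul (Fintype.card (ParIdx M) : ℝ)
  have hN' : (1 : ℝ) ≤ N := by exact_mod_cast hN
  have hN0 : (0 : ℝ) < N := by linarith
  have he : 0 < e N := Real.rpow_pos_of_pos hN0 _
  have he1 : e N ≤ 1 := Real.rpow_le_one_of_one_le_of_nonpos hN' (by norm_num)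
  have key := fun b => gg_fluct_le hl hb hN (fun x hx => hC N hN x hx) b he he1
  have hfe : (fieldErr (M := M) lam μ η N) = fun x => ∑ b, fluct (N := N) lam μ η x (ggField b) :=
    funext fun x => gg_fieldErr_eq N x
  rw [hfe]
  refine ⟨integrable_finsetSum _ fun b _ => (key b).1, ?_⟩
  rw [integral_finsetSum _ fun b _ => (key b).1]
  refine (Finset.sum_le_sum (g := fun _ => term N) fun b _ => (key b).2.trans_eq ?_).trans_eq (by simp)
  have ea : betaN N ^ 2 * sN N = (N : ℝ) ^ (3 / 5 : ℝ) := by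
    rw [betaN, sN, ← Real.rpow_natCast, ← Real.rpow_mul hN0.le, ← Real.rpow_add hN0]; norm_num
  have e1 : (1 : ℝ) / Real.sqrt ((N : ℝ) ^ (3 / 5 : ℝ)) = (N : ℝ) ^ (-(3 / 10) : ℝ) := by
    rw [Real.sqrt_eq_rpow, ← Real.rpow_mul hN0.le, one_div, ← Real.rpow_neg hN0.le]; norm_num
  have e2 : Real.sqrt N / (e N * (N : ℝ) ^ (3 / 5 : ℝ)) = e N := by
    simp only [e]
    rw [Real.sqrt_eq_rpow, ← Real.rpow_add hN0, ← Real.rpow_sub hN0]; norm_num
  rw [ea]
  calc (2 * 6 + 1) / Real.sqrt ((N : ℝ) ^ (3 / 5 : ℝ)) + 4 * 6 * e N +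
      3 * (C * Real.sqrt N) / (e N * (N : ℝ) ^ (3 / 5 : ℝ))
      = 13 * (1 / Real.sqrt ((N : ℝ) ^ (3 / 5 : ℝ))) + 24 * e N +
        3 * C * (Real.sqrt N / (e N * (N : ℝ) ^ (3 / 5 : ℝ))) := by ring
    _ = term N := by rw [e1, e2]

end Vale.Agent.P168
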