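import Vale.Agent.P168.Fin.GGTools

/-!
P168: measurability, linearity and moments of the perturbed potentials.
-/

namespace Vale.Agent.P168

open MeasureTheory ProbabilityTheory Finset

variable {K M N : ℕ}

/-- A function of the marks of one species, zero on the other clauses. -/
noncomputable def ggLift (i : Fin M) (φ : PertMark N i → ℝ) : Mark K M N → ℝ
  | Sum.inl _ => 0
  | Sum.inr ⟨i', g⟩ => if h : i' = i then φ (h ▸ g) else 0

lemma gg_speciesSum_eq (i : Fin M) (φ : PertMark N i → ℝ) (ω : Dis K M N) :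
    speciesSum i φ ω = Cfg.sum (ggLift i φ) ω.1 := rfl

lemma ggLift_self (i : Fin M) (φ : PertMark N i → ℝ) (g : PertMark N i) :
    ggLift (K := K) i φ (Sum.inr ⟨i, g⟩) = φ g := dif_pos (c := i = i) rfl

lemma ggLift_ne {i i' : Fin M} (h : i' ≠ i) (φ : PertMark N i → ℝ) (g : PertMark N i') :
    (ggLift (K := K) i φ (Sum.inr ⟨i', g⟩) : ℝ) = 0 := dif_neg h

lemma ggLift_ind (i : Fin M) {φ : PertMark N i → ℝ} {P : ℝ → Prop} (h0 : P 0) (h : ∀ g, P (φ g))
    (c : Mark K M N) : P (ggLift i φ c) := by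
  match c with
  | Sum.inl _ => exact h0
  | Sum.inr ⟨i', g⟩ =>
    rcases eq_or_ne i' i with rfl | hne
    · rw [ggLift_self]; exact h g
    · rw [ggLift_ne hne]; exact h0

lemma ggLift_abs (i : Fin M) (φ : PertMark N i → ℝ) (c : Mark K M N) :
    |ggLift i φ c| = ggLift i (fun g => |φ g|) c := by
  match c with
  | Sum.inl _ => exact abs_zero
  | Sum.inr ⟨i', g⟩ =>
    rcases eq_or_ne i' i with rfl | hne
    · rw [ggLift_self, ggLift_self]
    · rw [ggLift_ne hne, ggLift_ne hne, abs_zero]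

lemma ggLift_mono (i : Fin M) {φ ψ : PertMark N i → ℝ} (h : ∀ g, φ g ≤ ψ g) (c : Mark K M N) :
    ggLift i φ c ≤ ggLift i ψ c := by
  match c with
  | Sum.inl _ => exact le_rfl
  | Sum.inr ⟨i', g⟩ =>
    rcases eq_or_ne i' i with rfl | hne
    · rw [ggLift_self, ggLift_self]; exact h g
    · rw [ggLift_ne hne, ggLift_ne hne]

lemma gg_measurable_mark {φ : Mark K M N → ℝ} (h1 : Measurable fun c => φ (Sum.inl c))
    (h2 : ∀ i : Fin M, Measurable fun g : PertMark N i => φ (Sum.inr ⟨i, g⟩)) : Measurable φ :=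
  measurable_fun_sum h1 fun s hs => MeasurableSpace.measurableSet_iInf.2 fun i => h2 i hs

lemma gg_measurable_lift (i : Fin M) {φ : PertMark N i → ℝ} (hφ : Measurable φ) :
    Measurable (ggLift (K := K) i φ) := by
  refine gg_measurable_mark measurable_const fun i' => ?_
  rcases eq_or_ne i' i with rfl | hne
  · simp only [ggLift_self]; exact hφ
  · simp only [ggLift_ne hne]; exact measurable_const

lemma gg_measurable_inr (i : Fin M) :
    Measurable fun g : PertMark N i => (Sum.inr ⟨i, g⟩ : Mark K M N) :=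
  measurable_inr.comp fun s hs => MeasurableSpace.measurableSet_iInf.1 hs i

lemma gg_measurable_cfgsum {X : Type} [MeasurableSpace X] {φ : X → ℝ} (hφ : Measurable φ) :
    Measurable (Cfg.sum φ) := fun s hs => MeasurableSpace.measurableSet_iInf.2 fun n =>
  (Finset.measurable_sum (Finset.univ : Finset (Fin n)) fun i _ => hφ.comp (measurable_pi_apply i)) hs

lemma gg_measurable_speciesSum (i : Fin M) {φ : PertMark N i → ℝ} (hφ : Measurable φ) :
    Measurable fun ω : Dis K M N => speciesSum i φ ω :=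
  (gg_measurable_cfgsum (gg_measurable_lift i hφ)).comp measurable_fst

lemma gg_sum_cons {X : Type} [MeasurableSpace X] (φ : X → ℝ) (c : X) (ω : Cfg X) :
    Cfg.sum φ (Cfg.cons c ω) = φ c + Cfg.sum φ ω := by
  show ∑ i : Fin (ω.1 + 1), φ ((Fin.cons c ω.2 : Fin (ω.1 + 1) → X) i) = _
  rw [Fin.sum_univ_succ]
  simp [Cfg.sum]

lemma gg_sum_symm {X : Type} [MeasurableSpace X] (φ : X → ℝ) : CfgSymm (Cfg.sum φ) :=
  fun _ e v => Equiv.sum_comp e fun j => φ (v j)

lemma gg_abs_sum_le {X : Type} [MeasurableSpace X] {φ ψ : X → ℝ} (h : ∀ c, |φ c| ≤ ψ c)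
    (ω : Cfg X) : |Cfg.sum φ ω| ≤ Cfg.sum ψ ω :=
  (Finset.abs_sum_le_sum_abs _ _).trans (Finset.sum_le_sum fun _ _ => h _)

lemma gg_sum_smul {X : Type} [MeasurableSpace X] (a : ℝ) (φ : X → ℝ) (ω : Cfg X) :
    Cfg.sum (fun c => a * φ c) ω = a * Cfg.sum φ ω := (Finset.mul_sum _ _ _).symm

lemma gg_sum_add {X : Type} [MeasurableSpace X] (φ ψ : X → ℝ) (ω : Cfg X) :
    Cfg.sum (fun c => φ c + ψ c) ω = Cfg.sum φ ω + Cfg.sum ψ ω := Finset.sum_add_distrib

/-- The coefficient of a strength in the potential of a mark of its species. -/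
noncomputable def ggCoef (b : ParIdx M) (σ : Conf N) (g : PertMark N b.1.1) : ℝ :=
  (if b.2 then betaN N ^ 2 else betaN N * g.2 b.1.2) * chi b.1.2 fun p => σ (g.1 p)

/-- The potential is affine in every strength. -/
lemma gg_markPot_update (x : Par M) (b : ParIdx M) (t : ℝ) (c : Mark K M N) (σ : Conf N) :
    markPot (Function.update x b t) c σ =
      markPot x c σ + (t - x b) * ggLift b.1.1 (ggCoef b σ) c := by
  match c with
  | Sum.inl cl => simp [markPot, ggLift]
  | Sum.inr ⟨i, I, g⟩ =>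
    obtain ⟨⟨i₀, B₀⟩, k⟩ := b
    simp only [markPot]
    rw [add_assoc]
    congr 1
    rcases eq_or_ne i i₀ with rfl | hne
    · rw [ggLift_self, ← sub_eq_iff_eq_add', ← Finset.sum_sub_distrib,
        Finset.sum_eq_single B₀ (fun B _ hB => ?_) (by simp)]
      · cases k <;> simp [ggCoef] <;> ring
      · simp [hB]
    · rw [ggLift_ne hne, mul_zero, add_zero]
      refine Finset.sum_congr rfl fun B _ => ?_
      have h : ∀ k', ((⟨i, B⟩, k') : ParIdx M) ≠ (⟨i₀, B₀⟩, k) := fun k' e =>
        hne (congrArg (fun p : ParIdx M => p.1.1) e)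
      rw [Function.update_of_ne (h false), Function.update_of_ne (h true)]

lemma gg_pertHam_update (x : Par M) (b : ParIdx M) (t : ℝ) (ω : Dis K M N) (σ : Conf N) :
    pertHam (Function.update x b t) ω σ =
      pertHam x ω σ + (t - x b) * speciesSum b.1.1 (ggCoef b σ) ω := by
  simp only [pertHam, gg_speciesSum_eq, gg_markPot_update, gg_sum_add, gg_sum_smul]
  ring

/-- The potential of a mark is affine in each of its Gaussian coordinates. -/
lemma gg_markPot_gauss (x : Par M) (i : Fin M) (B : Finset (Fin (ar i)))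
    (I : Fin (ar i) → Fin N) (g : Finset (Fin (ar i)) → ℝ) (u : ℝ) (σ : Conf N) :
    (markPot x (Sum.inr ⟨i, I, Function.update g B u⟩ : Mark K M N) σ : ℝ) =
      markPot x (Sum.inr ⟨i, I, Function.update g B 0⟩ : Mark K M N) σ +
        u * (x (⟨i, B⟩, false) * betaN N * chi B fun p => σ (I p)) := by
  simp only [markPot]
  rw [add_assoc]
  congr 1
  rw [← sub_eq_iff_eq_add', ← Finset.sum_sub_distrib,
    Finset.sum_eq_single B (fun B' _ hB => ?_) (by simp)]
  · simp only [Function.update_self]; ring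
  · simp [hB]

lemma gg_measurable_markPot (x : Par M) (σ : Conf N) :
    Measurable fun c : Mark K M N => markPot x c σ := by
  refine gg_measurable_mark ?_ fun i => ?_
  · simp only [markPot]
    exact (measurable_from_prod_countable_left (f := fun cl : Table K × (Fin K → Fin N) =>
      cl.1 fun j => σ (cl.2 j)) fun I => measurable_pi_apply (fun j => σ (I j)))
  · simp only [markPot]
    exact (measurable_from_prod_countable_right (f := fun g : PertMark N i =>
      ((spcOf i).2 fun p => σ (g.1 p) : ℝ) + ∑ B, (x (⟨i, B⟩, false) * betaN N * g.2 B +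
        x (⟨i, B⟩, true) * betaN N ^ 2) * chi B fun p => σ (g.1 p)) fun I => by fun_prop)

lemma gg_measurable_pertHam (x : Par M) (σ : Conf N) :
    Measurable fun ω : Dis K M N => pertHam x ω σ :=
  ((gg_measurable_cfgsum (gg_measurable_markPot x σ)).comp measurable_fst).add
    (Finset.measurable_sum _ fun i _ => ((measurable_pi_apply i).comp measurable_snd).mul_const _)

lemma gg_pertHam_joint (σ : Conf N) :
    Measurable fun p : Par M × Dis K M N => pertHam p.1 p.2 σ := by
  refine measurable_uncurry_of_continuous_of_measurable (u := fun x ω => pertHam x ω σ)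
    (fun ω => ?_) fun x => gg_measurable_pertHam x σ
  unfold pertHam Cfg.sum
  refine (continuous_finsetSum _ fun j _ => ?_).add continuous_const
  generalize ω.1.2 j = c
  match c with
  | Sum.inl cl => exact continuous_const
  | Sum.inr ⟨i, I, g⟩ => simp only [markPot]; fun_prop

lemma gg_chi_abs {k : ℕ} (B : Finset (Fin k)) (τ : Fin k → Bool) : |chi B τ| = 1 := by
  rw [chi, Finset.abs_prod]
  exact Finset.prod_eq_one fun i _ => by unfold spin; split <;> simp

lemma gg_chi_mul_self {k : ℕ} (B : Finset (Fin k)) (τ : Fin k → Bool) : chi B τ * chi B τ = 1 := by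
  rw [← abs_mul_abs_self, gg_chi_abs, one_mul]

lemma gg_betaN_mem (hN : 1 ≤ N) : 0 < betaN N ∧ betaN N ≤ 1 :=
  ⟨Real.rpow_pos_of_pos (by exact_mod_cast hN) _,
    Real.rpow_le_one_of_one_le_of_nonpos (by exact_mod_cast hN) (by norm_num)⟩

lemma gg_sN_mem (hN : 1 ≤ N) : 1 ≤ sN N ∧ sN N ≤ (N : ℝ) :=
  ⟨Real.one_le_rpow (by exact_mod_cast hN) (by norm_num),
    (Real.rpow_le_rpow_of_exponent_le (by exact_mod_cast hN) (by norm_num : (4 / 5 : ℝ) ≤ 1)).trans_eq
      (Real.rpow_one _)⟩

/-- A bound for the potential of a mark at bounded strengths. -/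
noncomputable def ggPot : Mark K M N → ℝ
  | Sum.inl cl => ∑ τ, |cl.1 τ|
  | Sum.inr ⟨i, _, g⟩ => (∑ τ, |((spcOf i).2 τ : ℝ)|) + ∑ B, (3 * |g B| + 3)

lemma gg_abs_markPot_le' (hN : 1 ≤ N) {x : Par M} {R : ℝ} (hR : 1 ≤ R) (hx : ∀ b, |x b| ≤ 3 * R)
    (c : Mark K M N) (σ : Conf N) : |markPot x c σ| ≤ R * ggPot c := by
  obtain ⟨hb0, hb1⟩ := gg_betaN_mem hN
  match c with
  | Sum.inl cl =>
    exact (Finset.single_le_sum (f := fun τ => |cl.1 τ|) (fun _ _ => abs_nonneg _)
      (Finset.mem_univ _)).trans (le_mul_of_one_le_left (Finset.sum_nonneg fun _ _ => abs_nonneg _) hR)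
  | Sum.inr ⟨i, I, g⟩ =>
    simp only [markPot, ggPot, mul_add, Finset.mul_sum _ _ R]
    refine (abs_add_le _ _).trans (add_le_add
      ((Finset.single_le_sum (f := fun τ => R * |((spcOf i).2 τ : ℝ)|) (fun _ _ => by positivity)
        (Finset.mem_univ _)).trans' (le_mul_of_one_le_left (abs_nonneg _) hR))
      ((Finset.abs_sum_le_sum_abs _ _).trans (Finset.sum_le_sum fun B _ => ?_)))
    rw [abs_mul, gg_chi_abs, mul_one]
    refine (abs_add_le _ _).trans ?_
    rw [abs_mul, abs_mul, abs_mul, abs_pow, abs_of_pos hb0]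
    have h1 := hx (⟨i, B⟩, false)
    have h2 := hx (⟨i, B⟩, true)
    have a1 : |x (⟨i, B⟩, false)| * betaN N * |g B| ≤ 3 * R * 1 * |g B| :=
      mul_le_mul_of_nonneg_right (mul_le_mul h1 hb1 hb0.le (by linarith)) (abs_nonneg _)
    have a2 : |x (⟨i, B⟩, true)| * betaN N ^ 2 ≤ 3 * R * 1 :=
      mul_le_mul h2 (pow_le_one₀ hb0.le hb1) (by positivity) (by linarith)
    linarith

lemma gg_abs_markPot_le (hN : 1 ≤ N) {x : Par M} (hx : ∀ b, |x b| ≤ 3) (c : Mark K M N)
    (σ : Conf N) : |markPot x c σ| ≤ ggPot c :=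
  (gg_abs_markPot_le' hN le_rfl (by simpa using hx) c σ).trans_eq (one_mul _)

lemma gg_measurable_pot : Measurable (ggPot (K := K) (M := M) (N := N)) := by
  refine gg_measurable_mark ?_ fun i => ?_
  · simp only [ggPot]; fun_prop
  · simp only [ggPot]; fun_prop

/-- The law of a mark of one species. -/
noncomputable def ggPairLaw (N : ℕ) (i : ℕ) : Measure (PertMark N i) :=
  (Measure.pi fun _ : Fin (ar i) => unif N).prod
    (Measure.pi fun _ : Finset (Fin (ar i)) => gaussianReal 0 1)

lemma gg_prob_unif (hN : 1 ≤ N) : IsProbabilityMeasure (unif N) :=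
  ⟨by
    rw [unif, Measure.smul_apply, Measure.count_univ, smul_eq_mul, ENat.card_eq_coe_fintype_card,
      Fintype.card_fin, ENat.toENNReal_coe]
    exact ENNReal.inv_mul_cancel (Nat.cast_ne_zero.2 (by omega)) (ENNReal.natCast_ne_top N)⟩

lemma gg_prob_pair (hN : 1 ≤ N) (i : ℕ) : IsProbabilityMeasure (ggPairLaw N i) := by
  have := gg_prob_unif hN
  unfold ggPairLaw
  infer_instance

variable {lam : ℝ} {μ : Measure (Table K)}

lemma gg_finite_markLaw [IsProbabilityMeasure μ] (hN : 1 ≤ N) :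
    IsFiniteMeasure (markLaw M N lam μ) := by
  have := gg_prob_unif hN
  unfold markLaw
  refine ⟨?_⟩
  rw [Measure.add_apply, Measure.finsetSum_apply]
  simp only [Measure.smul_apply, smul_eq_mul]
  exact ENNReal.add_lt_top.2 ⟨ENNReal.mul_lt_top ENNReal.ofReal_lt_top (measure_lt_top _ _),
    ENNReal.sum_lt_top.2 fun i _ => ENNReal.mul_lt_top ENNReal.ofReal_lt_top (measure_lt_top _ _)⟩

lemma gg_mainMean_mem (hl : 0 ≤ lam) (K : ℕ) (hN : 1 ≤ N) :
    0 ≤ mainMean lam K N ∧ mainMean lam K N ≤ 2 * lam * N := by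
  have hN' : (1 : ℝ) ≤ N := by exact_mod_cast hN
  refine ⟨by unfold mainMean; positivity, ?_⟩
  have h : ((N : ℝ) / (N + 1)) ^ K ≤ 1 :=
    pow_le_one₀ (by positivity) ((div_le_one (by positivity)).2 (by linarith))
  unfold mainMean
  calc lam * ((N : ℝ) + 1) * ((N : ℝ) / (N + 1)) ^ K ≤ lam * ((N : ℝ) + 1) * 1 :=
        mul_le_mul_of_nonneg_left h (by positivity)
    _ ≤ 2 * lam * N := by nlinarith

/-- Integration against the intensity of clauses. -/
lemma gg_integral_markLaw [IsProbabilityMeasure μ] (hl : 0 ≤ lam) (hN : 1 ≤ N)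
    {φ : Mark K M N → ℝ} (hm : Measurable φ)
    (h1 : Integrable (fun c => φ (Sum.inl c)) (μ.prod (Measure.pi fun _ : Fin K => unif N)))
    (h2 : ∀ i : Fin M, Integrable (fun g => φ (Sum.inr ⟨i, g⟩)) (ggPairLaw N i)) :
    Integrable φ (markLaw M N lam μ) ∧
      ∫ c, φ c ∂markLaw M N lam μ =
        mainMean lam K N * (∫ c, φ (Sum.inl c) ∂μ.prod (Measure.pi fun _ : Fin K => unif N)) +
          ∑ i : Fin M, sN N * ∫ g, φ (Sum.inr ⟨i, g⟩) ∂ggPairLaw N i := by
  have hmi : ∀ i : Fin M, Measurable fun g : PertMark N i => (Sum.inr ⟨i, g⟩ : Mark K M N) :=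
    fun i => measurable_inr.comp fun s hs => MeasurableSpace.measurableSet_iInf.1 hs i
  have i1 : Integrable φ ((μ.prod (Measure.pi fun _ : Fin K => unif N)).map Sum.inl) :=
    (integrable_map_measure hm.aestronglyMeasurable measurable_inl.aemeasurable).2 h1
  have i2 : ∀ i : Fin M, Integrable φ ((ggPairLaw N i).map fun g => (Sum.inr ⟨i, g⟩ : Mark K M N)) :=
    fun i => (integrable_map_measure hm.aestronglyMeasurable (hmi i).aemeasurable).2 (h2 i)
  have j1 := i1.smul_measure (c := ENNReal.ofReal (mainMean lam K N)) ENNReal.ofReal_ne_top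
  have j2 : ∀ i ∈ (Finset.univ : Finset (Fin M)), Integrable φ (ENNReal.ofReal (sN N) •
      (ggPairLaw N i).map fun g => (Sum.inr ⟨i, g⟩ : Mark K M N)) :=
    fun i _ => (i2 i).smul_measure ENNReal.ofReal_ne_top
  have j3 := integrable_finsetSum_measure.2 j2
  refine ⟨j1.add_measure j3, ?_⟩
  unfold markLaw
  rw [integral_add_measure j1 (by simpa only [ggPairLaw] using j3),
    integral_finsetSum_measure (by simpa only [ggPairLaw] using j2), integral_smul_measure,
    ENNReal.toReal_ofReal (gg_mainMean_mem hl K hN).1,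
    integral_map measurable_inl.aemeasurable hm.aestronglyMeasurable]
  refine congrArg₂ (· + ·) rfl (Finset.sum_congr rfl fun i _ => ?_)
  rw [integral_smul_measure, ENNReal.toReal_ofReal (zero_le_one.trans (gg_sN_mem hN).1),
    integral_map (hmi i).aemeasurable hm.aestronglyMeasurable]
  rfl

lemma gg_integrable_lift [IsProbabilityMeasure μ] (hl : 0 ≤ lam) (hN : 1 ≤ N) (i : Fin M)
    {φ : PertMark N i → ℝ} (hm : Measurable φ) (hi : Integrable φ (ggPairLaw N i)) :
    Integrable (ggLift (K := K) i φ) (markLaw M N lam μ) ∧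
      ∫ c, ggLift i φ c ∂markLaw M N lam μ = sN N * ∫ g, φ g ∂ggPairLaw N i := by
  have h := gg_integral_markLaw (lam := lam) (μ := μ) hl hN (gg_measurable_lift i hm)
    (by simp only [ggLift]; exact integrable_zero _ _ _) (fun i' => by
      rcases eq_or_ne i' i with rfl | hne
      · simp only [ggLift_self]; exact hi
      · simp only [ggLift_ne hne]; exact integrable_zero _ _ _)
  refine ⟨h.1, h.2.trans ?_⟩
  have e : ∀ cl : Table K × (Fin K → Fin N), (ggLift i φ (Sum.inl cl : Mark K M N) : ℝ) = 0 :=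
    fun _ => rfl
  rw [Finset.sum_eq_single i (fun i' _ hne => by simp [ggLift_ne hne]) (by simp)]
  simp [e, ggLift_self]

lemma gg_memLp_coord (hN : 1 ≤ N) (i : ℕ) (B : Finset (Fin (ar i))) :
    MemLp (fun g : PertMark N i => g.2 B) 2 (ggPairLaw N i) := by
  have := gg_prob_unif hN
  have hmp : MeasurePreserving (fun g : PertMark N i => g.2 B) (ggPairLaw N i) (gaussianReal 0 1) :=
    (measurePreserving_eval (fun _ : Finset (Fin (ar i)) => gaussianReal 0 1) B).comp
      measurePreserving_snd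
  exact (IsGaussian.memLp_id (gaussianReal 0 1) 2 (by simp)).comp_measurePreserving hmp

lemma gg_integrable_abs_coord (hN : 1 ≤ N) (i : ℕ) (B : Finset (Fin (ar i))) :
    Integrable (fun g : PertMark N i => |g.2 B|) (ggPairLaw N i) := by
  have := gg_prob_pair hN i
  exact ((gg_memLp_coord hN i B).integrable one_le_two).abs

/-- The bound of the potentials has first and second moments linear in the number of sites. -/
lemma gg_pot_moments [IsProbabilityMeasure μ] (hl : 0 ≤ lam) {B0 : ℝ}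
    (hμ : ∀ᵐ θ ∂μ, ∀ σ, |θ σ| ≤ B0) :
    ∃ C, 0 ≤ C ∧ ∀ N, 1 ≤ N → Integrable (ggPot (K := K) (M := M) (N := N)) (markLaw M N lam μ) ∧
      Integrable (fun c => ggPot (K := K) (M := M) (N := N) c ^ 2) (markLaw M N lam μ) ∧
      ∫ c, ggPot (K := K) (M := M) (N := N) c ^ 2 ∂markLaw M N lam μ ≤ C * N := by
  set c0 : ℝ := ((2 : ℝ) ^ K * B0) ^ 2
  have h1g : Integrable (fun z : ℝ => z ^ 2) (gaussianReal 0 1) :=
    (IsGaussian.memLp_id (gaussianReal 0 1) 2 (by simp)).integrable_sq
  set ci : Fin M → ℝ := fun i =>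
    2 * (∑ τ, |((spcOf i).2 τ : ℝ)|) ^ 2 + 2 * (Fintype.card (Finset (Fin (ar i))) : ℝ) *
      ∑ _B : Finset (Fin (ar i)), (18 * ∫ z, z ^ 2 ∂gaussianReal 0 1 + 18)
  have hci : ∀ i, 0 ≤ ci i := fun i => by
    have : 0 ≤ ∫ z, z ^ 2 ∂gaussianReal 0 1 := integral_nonneg fun z => sq_nonneg z
    positivity
  refine ⟨2 * lam * c0 + ∑ i, ci i,
    add_nonneg (by positivity) (Finset.sum_nonneg fun i _ => hci i), fun N hN => ?_⟩
  have := gg_prob_unif hN
  have hfin := gg_finite_markLaw (M := M) (lam := lam) (μ := μ) hN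
  set ν0 := μ.prod (Measure.pi fun _ : Fin K => unif N)
  have hae : ∀ᵐ cl ∂ν0, |ggPot (M := M) (Sum.inl cl : Mark K M N) ^ 2| ≤ c0 := by
    filter_upwards [(Measure.quasiMeasurePreserving_fst (μ := μ)).ae hμ] with cl hcl
    rw [abs_of_nonneg (sq_nonneg _)]
    refine pow_le_pow_left₀ (Finset.sum_nonneg fun _ _ => abs_nonneg _) ?_ 2
    refine (Finset.sum_le_sum fun τ _ => hcl τ).trans_eq ?_
    simp
  have hm2 : Measurable fun c : Mark K M N => ggPot c ^ 2 := gg_measurable_pot.pow_const 2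
  have a1 : Integrable (fun cl => ggPot (Sum.inl cl : Mark K M N) ^ 2) ν0 :=
    Integrable.of_bound (hm2.comp measurable_inl).aestronglyMeasurable c0 hae
  have a1' : ∫ cl, ggPot (Sum.inl cl : Mark K M N) ^ 2 ∂ν0 ≤ c0 :=
    (integral_mono_ae a1 (integrable_const c0) (hae.mono fun cl h => (le_abs_self _).trans h)).trans_eq
      (by simp)
  have hsq : ∀ i : Fin M, Integrable (fun g => ggPot (Sum.inr ⟨i, g⟩ : Mark K M N) ^ 2)
      (ggPairLaw N i) ∧ ∫ g, ggPot (Sum.inr ⟨i, g⟩ : Mark K M N) ^ 2 ∂ggPairLaw N i ≤ ci i := by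
    intro i
    have := gg_prob_pair hN i
    set T := ∑ τ, |((spcOf i).2 τ : ℝ)|
    set n := (Fintype.card (Finset (Fin (ar i))) : ℝ)
    have hB : ∀ B, Integrable (fun g : PertMark N i => g.2 B ^ 2) (ggPairLaw N i) := fun B =>
      (gg_memLp_coord hN i B).integrable_sq
    have hbnd : ∀ g : PertMark N i, ggPot (Sum.inr ⟨i, g⟩ : Mark K M N) ^ 2 ≤
        2 * T ^ 2 + 2 * n * ∑ B, (18 * g.2 B ^ 2 + 18) := fun g => by
      have hsum := sq_sum_le_card_mul_sum_sq (s := (Finset.univ : Finset (Finset (Fin (ar i)))))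
        (f := fun B => 3 * |g.2 B| + 3)
      rw [Finset.card_univ] at hsum
      have hs2 : ∑ B, (3 * |g.2 B| + 3) ^ 2 ≤ ∑ B, (18 * g.2 B ^ 2 + 18) :=
        Finset.sum_le_sum fun B _ => by nlinarith [sq_abs (g.2 B), sq_nonneg (3 * |g.2 B| - 3)]
      have h3 := mul_le_mul_of_nonneg_left hs2 (show (0 : ℝ) ≤ n by positivity)
      show (T + ∑ B, (3 * |g.2 B| + 3)) ^ 2 ≤ _
      nlinarith [sq_nonneg (T - ∑ B, (3 * |g.2 B| + 3))]
    have hR : Integrable (fun g : PertMark N i => 2 * T ^ 2 + 2 * n * ∑ B, (18 * g.2 B ^ 2 + 18))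
        (ggPairLaw N i) :=
      (integrable_const _).add ((integrable_finsetSum _ fun B _ =>
        ((hB B).const_mul 18).add (integrable_const 18)).const_mul _)
    have hi : Integrable (fun g => ggPot (Sum.inr ⟨i, g⟩ : Mark K M N) ^ 2) (ggPairLaw N i) :=
      hR.mono' (hm2.comp (gg_measurable_inr i)).aestronglyMeasurable
        (Filter.Eventually.of_forall fun g => by
          rw [Real.norm_eq_abs, abs_of_nonneg (sq_nonneg _)]; exact hbnd g)
    refine ⟨hi, (integral_mono hi hR hbnd).trans_eq ?_⟩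
    have hB' : ∀ B, Integrable (fun g : PertMark N i => 18 * g.2 B ^ 2 + 18) (ggPairLaw N i) :=
      fun B => ((hB B).const_mul 18).add (integrable_const 18)
    rw [integral_add (integrable_const _) ((integrable_finsetSum _ fun B _ => hB' B).const_mul _),
      integral_const, probReal_univ, one_smul, integral_const_mul, integral_finsetSum _ fun B _ => hB' B]
    simp only [ci, integral_const, probReal_univ, one_smul]
    refine congrArg₂ (· + ·) rfl (congrArg₂ (· * ·) rfl (Finset.sum_congr rfl fun B _ => ?_))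
    rw [integral_add ((hB B).const_mul 18) (integrable_const _), integral_const_mul, integral_const,
      probReal_univ, one_smul]
    have hmp : MeasurePreserving (fun g : PertMark N i => g.2 B) (ggPairLaw N i) (gaussianReal 0 1) :=
      (measurePreserving_eval (fun _ : Finset (Fin (ar i)) => gaussianReal 0 1) B).comp
        measurePreserving_snd
    conv_rhs => rw [← hmp.map_eq]
    rw [integral_map hmp.measurable.aemeasurable (by fun_prop)]
  have h := gg_integral_markLaw (lam := lam) (μ := μ) hl hN hm2 a1 fun i => (hsq i).1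
  have hmem : MemLp (ggPot (K := K) (M := M) (N := N)) 2 (markLaw M N lam μ) :=
    (memLp_two_iff_integrable_sq gg_measurable_pot.aestronglyMeasurable).2 h.1
  refine ⟨hmem.integrable one_le_two, h.1, h.2.le.trans ?_⟩
  rw [add_mul, Finset.sum_mul]
  refine add_le_add ?_ (Finset.sum_le_sum fun i _ => ?_)
  · calc mainMean lam K N * ∫ cl, ggPot (Sum.inl cl : Mark K M N) ^ 2 ∂ν0
        ≤ 2 * lam * N * c0 := by
          refine mul_le_mul (gg_mainMean_mem hl K hN).2 a1' (integral_nonneg fun _ => sq_nonneg _)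
            (by positivity)
      _ = 2 * lam * c0 * N := by ring
  · rw [mul_comm (ci i)]
    exact mul_le_mul (gg_sN_mem hN).2 (hsq i).2 (integral_nonneg fun _ => sq_nonneg _)
      (Nat.cast_nonneg N)

variable {η : Measure ℝ}

lemma gg_prob_disLaw [IsProbabilityMeasure μ] [IsProbabilityMeasure η] (hN : 1 ≤ N) :
    IsProbabilityMeasure (disLaw M N lam μ η) := by
  have := gg_finite_markLaw (M := M) (lam := lam) (μ := μ) hN
  have := isProbabilityMeasure_pp (markLaw M N lam μ)
  unfold disLaw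
  infer_instance

/-- A sum over the clauses is integrable against the disorder, with the mean of the intensity. -/
lemma gg_integral_dis [IsProbabilityMeasure μ] [IsProbabilityMeasure η] (hN : 1 ≤ N)
    {φ : Mark K M N → ℝ} (hφ : Integrable φ (markLaw M N lam μ)) :
    Integrable (fun ω : Dis K M N => Cfg.sum φ ω.1) (disLaw M N lam μ η) ∧
      ∫ ω, Cfg.sum φ ω.1 ∂disLaw M N lam μ η = ∫ c, φ c ∂markLaw M N lam μ := by
  have := gg_finite_markLaw (M := M) (lam := lam) (μ := μ) hN
  have := isProbabilityMeasure_pp (markLaw M N lam μ)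
  obtain ⟨h1, h2⟩ := integral_sum (markLaw M N lam μ) hφ
  unfold disLaw
  refine ⟨h1.comp_fst _, ?_⟩
  rw [integral_fun_fst, probReal_univ, one_smul, h2]

lemma gg_avgN_eq (x : Par M) (n : ℕ) (F : Dis K M N → (Fin n → Conf N) → ℝ) :
    avgN lam μ η x n F = ∫ ω, ggAv (pertHam x ω) n (F ω) ∂disLaw M N lam μ η := rfl

end Vale.Agent.P168
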