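import Vale.Agent.P168.Fin.GGModel

/-!
P168: the Gaussian integration by parts of a field of the perturbation.
-/

namespace Vale.Agent.P168

open MeasureTheory ProbabilityTheory Finset

lemma gg_measurable_cfg_dom {X Y : Type} [MeasurableSpace X] [MeasurableSpace Y] {f : Cfg X → Y}
    (hf : ∀ n, Measurable fun v : Fin n → X => f ⟨n, v⟩) : Measurable f :=
  fun _ hs => MeasurableSpace.measurableSet_iInf.2 fun n => hf n hs

lemma gg_measurable_cons {X : Type} [MeasurableSpace X] :
    Measurable fun p : X × Cfg X => Cfg.cons p.1 p.2 := by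
  classical
  set F : ℕ → X × Cfg X → Cfg X := fun n p =>
    Sum.elim (fun q : X × (Fin n → X) => (⟨n + 1, Fin.cons q.1 q.2⟩ : Cfg X)) (fun _ => ⟨0, Fin.elim0⟩)
      (MeasurableEquiv.prodSumDistrib X (Fin n → X) Unit
        (p.1, if h : p.2.1 = n then Sum.inl (fun i => p.2.2 (Fin.cast h.symm i)) else Sum.inr ()))
    with hF
  have hFm : ∀ n, Measurable (F n) := fun n => by
    have h1 : Measurable fun q : X × (Fin n → X) => (⟨n + 1, Fin.cons q.1 q.2⟩ : Cfg X) :=
      (show Measurable fun v : Fin (n + 1) → X => (⟨n + 1, v⟩ : Cfg X) from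
        fun s hs => MeasurableSpace.measurableSet_iInf.1 hs (n + 1)).comp
        (measurable_pi_lambda _ fun i => by
          refine Fin.cases ?_ (fun j => ?_) i
          · simpa using measurable_fst
          · simpa using measurable_snd.eval)
    have h2 : Measurable fun ω : Cfg X => (if h : ω.1 = n then
        Sum.inl (fun i => ω.2 (Fin.cast h.symm i)) else Sum.inr () : (Fin n → X) ⊕ Unit) := by
      refine gg_measurable_cfg_dom fun m => ?_
      by_cases h : m = n
      · subst h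
        simpa using (measurable_inl : Measurable (@Sum.inl (Fin m → X) Unit))
      · simpa [h] using measurable_const
    exact (h1.sumElim measurable_const).comp ((MeasurableEquiv.prodSumDistrib _ _ _).measurable.comp
      (measurable_fst.prodMk (h2.comp measurable_snd)))
  have hn : Measurable fun p : X × Cfg X => p.2.1 := by
    refine Measurable.comp (g := fun ω : Cfg X => ω.1) ?_ measurable_snd
    exact gg_measurable_cfg_dom fun m => measurable_const
  have e : (fun p : X × Cfg X => Cfg.cons p.1 p.2) = fun p => F p.2.1 p := by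
    funext p
    simp only [hF, dite_eq_ite, ↓reduceDIte]
    rfl
  rw [e]
  exact (measurable_from_prod_countable_right (f := fun q : ℕ × (X × Cfg X) => F q.1 q.2) hFm).comp
    (hn.prodMk measurable_id)

variable {K M N : ℕ} {lam : ℝ} {μ : Measure (Table K)} {η : Measure ℝ}

/-- Mecke's equation for the clauses of one species. -/
lemma gg_mecke [IsProbabilityMeasure μ] (hl : 0 ≤ lam) (hN : 1 ≤ N) (i : Fin M) {R : Type}
    [Fintype R] (φ : R → PertMark N i → ℝ) (hφm : ∀ r, Measurable (φ r))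
    (hφi : ∀ r, Integrable (φ r) (ggPairLaw N i)) (J : R → Cfg (Mark K M N) → ℝ)
    (hJm : ∀ r, Measurable (J r)) (hJs : ∀ r, CfgSymm (J r)) {D : ℝ} (hJb : ∀ r ω, |J r ω| ≤ D) :
    ∫ ω, ∑ r, J r ω * Cfg.sum (ggLift i (φ r)) ω ∂pp (markLaw M N lam μ) =
      sN N * ∫ g, ∫ ω, ∑ r, J r (Cfg.cons (Sum.inr ⟨i, g⟩) ω) * φ r g
        ∂pp (markLaw M N lam μ) ∂ggPairLaw N i := by
  classical
  have := gg_finite_markLaw (M := M) (lam := lam) (μ := μ) hN
  have := isProbabilityMeasure_pp (markLaw M N lam μ)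
  set G := fun (c : Mark K M N) (ω : Cfg (Mark K M N)) => ∑ r, J r ω * ggLift i (φ r) c with hG
  set b := fun c : Mark K M N => ∑ r, |D| * |ggLift i (φ r) c| with hb
  have hGm : Measurable (Function.uncurry G) :=
    Finset.measurable_sum _ fun r _ => ((hJm r).comp measurable_snd).mul
      ((gg_measurable_lift i (hφm r)).comp measurable_fst)
  have hGs : ∀ c, CfgSymm (G c) := fun c n e v => Finset.sum_congr rfl fun r _ => by
    rw [hJs r n e v]
  have hGb : ∀ c ω, |G c ω| ≤ b c := fun c ω =>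
    (Finset.abs_sum_le_sum_abs _ _).trans (Finset.sum_le_sum fun r _ => by
      rw [abs_mul]
      exact mul_le_mul_of_nonneg_right ((hJb r ω).trans (le_abs_self D)) (abs_nonneg _))
  have hbi : Integrable b (markLaw M N lam μ) := integrable_finsetSum _ fun r _ =>
    ((gg_integrable_lift hl hN i (hφm r) (hφi r)).1.abs).const_mul _
  have hL : ∫ ω, ∑ r, J r ω * Cfg.sum (ggLift i (φ r)) ω ∂pp (markLaw M N lam μ) =
      ∫ ω, ∑ k, G (ω.2 k) ω ∂pp (markLaw M N lam μ) := by
    refine integral_congr_ae (Filter.Eventually.of_forall fun ω => ?_)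
    simp only [hG, Cfg.sum, Finset.mul_sum]
    exact Finset.sum_comm
  rw [hL, mecke (markLaw M N lam μ) hGm hGs hbi hGb]
  set Ψ := fun c => ∫ ω, G c (Cfg.cons c ω) ∂pp (markLaw M N lam μ) with hΨ
  have hΨm : Measurable Ψ :=
    ((hGm.comp (measurable_fst.prodMk gg_measurable_cons)).stronglyMeasurable.integral_prod_right'
      (ν := pp (markLaw M N lam μ))).measurable
  have hΨb : ∀ c, |Ψ c| ≤ b c := fun c => by
    rcases eq_or_ne (b c) 0 with h0 | h0
    · have : ∀ ω, G c ω = 0 := fun ω => abs_nonpos_iff.1 ((hGb c ω).trans_eq h0)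
      simp [hΨ, this, h0]
    · refine abs_integral_le_integral_abs.trans ?_
      refine (integral_mono_of_nonneg (Filter.Eventually.of_forall fun ω => abs_nonneg _)
        (integrable_const (b c)) (Filter.Eventually.of_forall fun ω => hGb c _)).trans_eq ?_
      simp
  have hΨl : ∀ cl, Ψ (Sum.inl cl) = 0 := fun cl => by simp [hΨ, hG, ggLift]
  have hΨn : ∀ i' g, i' ≠ i → Ψ (Sum.inr ⟨i', g⟩) = 0 := fun i' g h => by
    simp [hΨ, hG, ggLift_ne h]
  have h1 : Integrable (fun g => Ψ (Sum.inr ⟨i, g⟩)) (ggPairLaw N i) :=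
    (integrable_finsetSum Finset.univ fun r _ => ((hφi r).abs).const_mul |D|).mono'
      (hΨm.comp (gg_measurable_inr i)).aestronglyMeasurable
      (Filter.Eventually.of_forall fun g => (hΨb _).trans_eq (by simp only [hb, ggLift_self]))
  have h := gg_integral_markLaw (lam := lam) (μ := μ) hl hN hΨm
    (by simp only [hΨl]; exact integrable_zero _ _ _) (fun i' => by
      rcases eq_or_ne i' i with rfl | hne
      · exact h1
      · simp only [hΨn _ _ hne]; exact integrable_zero _ _ _)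
  refine h.2.trans ?_
  rw [Finset.sum_eq_single i (fun i' _ hne => by simp [hΨn _ _ hne]) (by simp)]
  simp [hΨl]
  refine Or.inl (integral_congr_ae (Filter.Eventually.of_forall fun g => ?_))
  simp [hΨ, hG, ggLift_self]

lemma gg_pertHam_cons (x : Par M) (c : Mark K M N) (ω : Cfg (Mark K M N)) (h : Fin N → ℝ)
    (σ : Conf N) : pertHam x (Cfg.cons c ω, h) σ = markPot x c σ + pertHam x (ω, h) σ := by
  simp only [pertHam, gg_sum_cons, add_assoc]

lemma gg_pertHam_symm (x : Par M) (h : Fin N → ℝ) (σ : Conf N) :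
    CfgSymm fun ω : Cfg (Mark K M N) => pertHam x (ω, h) σ := fun n e v => by
  simp only [pertHam]
  rw [gg_sum_symm (fun c => markPot x c σ) n e v]

/-- The pair of characters of one clause seen by the replicas `l`, `l'`. -/
noncomputable def ggTwo {n : ℕ} (i : Fin M) (B : Finset (Fin (ar i))) (l l' : Fin n)
    (I : Fin (ar i) → Fin N) (ρ : Fin n → Conf N) : ℝ :=
  (chi B fun p => ρ l (I p)) * chi B fun p => ρ l' (I p)

/-- The linear combination of pairs given by the derivative of a Gibbs average. -/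
noncomputable def ggPsi {n : ℕ} (i : Fin M) (B : Finset (Fin (ar i))) (l : Fin n)
    (I : Fin (ar i) → Fin N) (ρ : Fin (n + 1) → Conf N) : ℝ :=
  ∑ l' : Fin n, ggTwo i B l.castSucc l'.castSucc I ρ - n * ggTwo i B l.castSucc (Fin.last n) I ρ

lemma abs_ggTwo {n : ℕ} (i : Fin M) (B : Finset (Fin (ar i))) (l l' : Fin n)
    (I : Fin (ar i) → Fin N) (ρ : Fin n → Conf N) : |ggTwo i B l l' I ρ| = 1 := by
  rw [ggTwo, abs_mul, gg_chi_abs, gg_chi_abs, one_mul]

lemma abs_ggPsi {n : ℕ} (i : Fin M) (B : Finset (Fin (ar i))) (l : Fin n)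
    (I : Fin (ar i) → Fin N) (ρ : Fin (n + 1) → Conf N) : |ggPsi i B l I ρ| ≤ 2 * n := by
  refine (abs_sub _ _).trans ?_
  rw [abs_mul, abs_ggTwo, mul_one, Nat.abs_cast]
  have h : |∑ l' : Fin n, ggTwo i B l.castSucc l'.castSucc I ρ| ≤ n :=
    (Finset.abs_sum_le_sum_abs _ _).trans_eq (by simp [abs_ggTwo])
  linarith

/-- Integration by parts in one Gaussian coordinate of a mark. -/
lemma gg_gauss_part (hN : 1 ≤ N) (i : ℕ) (B : Finset (Fin (ar i))) (c : ℝ) (F F' : PertMark N i → ℝ)
    (hFm : Measurable F) (hF'm : Measurable F') {D D' : ℝ} (hFb : ∀ g, |F g| ≤ D)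
    (hF'b : ∀ g, |F' g| ≤ D')
    (hd : ∀ I g u, HasDerivAt (fun u => F (I, Function.update g B u))
      (c * F' (I, Function.update g B u)) u) :
    ∫ g, g.2 B * F g ∂ggPairLaw N i = ∫ g, c * F' g ∂ggPairLaw N i := by
  have := gg_prob_unif hN
  have := gg_prob_pair hN i
  set γ := Measure.pi fun _ : Finset (Fin (ar i)) => gaussianReal 0 1
  have iA : Integrable (fun g => g.2 B * F g) (ggPairLaw N i) :=
    ((gg_integrable_abs_coord hN i B).mul_const D).mono'
      (((measurable_pi_apply B).comp measurable_snd).mul hFm).aestronglyMeasurable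
      (Filter.Eventually.of_forall fun g => by
        rw [Real.norm_eq_abs, abs_mul]; exact mul_le_mul_of_nonneg_left (hFb _) (abs_nonneg _))
  have iB : Integrable (fun g => c * F' g) (ggPairLaw N i) :=
    (Integrable.of_bound hF'm.aestronglyMeasurable D' (Filter.Eventually.of_forall hF'b)).const_mul c
  unfold ggPairLaw at iA iB ⊢
  rw [integral_prod _ iA, integral_prod _ iB]
  refine integral_congr_ae (Filter.Eventually.of_forall fun I => ?_)
  have hI : Measurable fun g : Finset (Fin (ar i)) → ℝ => ((I, g) : PertMark N i) :=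
    measurable_const.prodMk measurable_id
  have hmp := P157.Low.measurePreserving_update (ν := gaussianReal 0 1) B
  have hsw : ∀ G : (Finset (Fin (ar i)) → ℝ) → ℝ, Measurable G → Integrable G γ →
      ∫ g, G g ∂γ = ∫ g, ∫ u, G (Function.update g B u) ∂gaussianReal 0 1 ∂γ := fun G hG hi => by
    have hi' := hmp.integrable_comp_of_integrable hi
    rw [← integral_prod (fun z : (Finset (Fin (ar i)) → ℝ) × ℝ => G (Function.update z.1 B z.2)) hi']
    conv_lhs => rw [show γ = _ from hmp.map_eq.symm]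
    rw [integral_map hmp.measurable.aemeasurable (by rw [hmp.map_eq]; exact hG.aestronglyMeasurable)]
  have hcoord : Integrable (fun g : Finset (Fin (ar i)) → ℝ => g B) γ :=
    ((IsGaussian.memLp_id (gaussianReal 0 1) 2 (by simp)).comp_measurePreserving
      (measurePreserving_eval (fun _ : Finset (Fin (ar i)) => gaussianReal 0 1) B)).integrable one_le_two
  have jA : Integrable (fun g => g B * F (I, g)) γ :=
    (hcoord.abs.mul_const D).mono' ((measurable_pi_apply B).mul (hFm.comp hI)).aestronglyMeasurable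
      (Filter.Eventually.of_forall fun g => by
        rw [Real.norm_eq_abs, abs_mul]; exact mul_le_mul_of_nonneg_left (hFb _) (abs_nonneg _))
  have jB : Integrable (fun g => c * F' (I, g)) γ :=
    (Integrable.of_bound (hF'm.comp hI).aestronglyMeasurable D'
      (Filter.Eventually.of_forall fun g => hF'b _)).const_mul c
  show ∫ g, g B * F (I, g) ∂γ = ∫ g, c * F' (I, g) ∂γ
  rw [hsw (fun g => g B * F (I, g)) ((measurable_pi_apply B).mul (hFm.comp hI)) jA,
    hsw (fun g => c * F' (I, g)) ((hF'm.comp hI).const_mul c) jB]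
  refine integral_congr_ae (Filter.Eventually.of_forall fun g => ?_)
  simp only [Function.update_self]
  have hu : Measurable fun u : ℝ => ((I, Function.update g B u) : PertMark N i) :=
    measurable_const.prodMk (measurable_update g)
  have h := P157.Low.stein_real (hd I g)
    (Integrable.of_bound (hFm.comp hu).aestronglyMeasurable D
      (Filter.Eventually.of_forall fun u => hFb _))
    ((Integrable.of_bound (hF'm.comp hu).aestronglyMeasurable D'
      (Filter.Eventually.of_forall fun u => hF'b _)).const_mul c)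
    ((((IsGaussian.memLp_id (gaussianReal 0 1) 1 (by simp)).integrable le_rfl).abs.const_mul D).mono'
      ((hFm.comp hu).mul measurable_id).aestronglyMeasurable
      (Filter.Eventually.of_forall fun u => by
        rw [Real.norm_eq_abs, abs_mul]
        exact mul_le_mul_of_nonneg_right (hFb _) (abs_nonneg _)))
  simp only [mul_comm _ (F _)]
  exact h

/-- Integration by parts in one Gaussian coordinate, averaged over a further variable. -/
lemma gg_gauss_swap {Ω : Type} [MeasurableSpace Ω] (P : Measure Ω) [IsProbabilityMeasure P]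
    (hN : 1 ≤ N) (i : ℕ) (B : Finset (Fin (ar i))) (c : ℝ) (F F' : PertMark N i → Ω → ℝ)
    (hFm : Measurable fun q : PertMark N i × Ω => F q.1 q.2)
    (hF'm : Measurable fun q : PertMark N i × Ω => F' q.1 q.2) {D D' : ℝ}
    (hFb : ∀ g ω, |F g ω| ≤ D) (hF'b : ∀ g ω, |F' g ω| ≤ D')
    (hd : ∀ ω I g u, HasDerivAt (fun u => F (I, Function.update g B u) ω)
      (c * F' (I, Function.update g B u) ω) u) :
    ∫ g, ∫ ω, g.2 B * F g ω ∂P ∂ggPairLaw N i = c * ∫ g, ∫ ω, F' g ω ∂P ∂ggPairLaw N i := by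
  have := gg_prob_pair hN i
  have iF : Integrable (fun q : PertMark N i × Ω => q.1.2 B * F q.1 q.2) ((ggPairLaw N i).prod P) :=
    (((gg_integrable_abs_coord hN i B).mul_const D).comp_fst P).mono'
      ((((measurable_pi_apply B).comp measurable_snd).comp measurable_fst).mul hFm).aestronglyMeasurable
      (Filter.Eventually.of_forall fun q => by
        rw [Real.norm_eq_abs, abs_mul]; exact mul_le_mul_of_nonneg_left (hFb _ _) (abs_nonneg _))
  have iF' : Integrable (fun q : PertMark N i × Ω => c * F' q.1 q.2) ((ggPairLaw N i).prod P) :=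
    (Integrable.of_bound hF'm.aestronglyMeasurable D'
      (Filter.Eventually.of_forall fun q => hF'b _ _)).const_mul c
  simp only [← integral_const_mul c]
  rw [integral_integral_swap (f := fun g ω => g.2 B * F g ω) iF,
    integral_integral_swap (f := fun g ω => c * F' g ω) iF']
  exact integral_congr_ae (Filter.Eventually.of_forall fun ω =>
    gg_gauss_part hN i B c (fun g => F g ω) (fun g => F' g ω)
      (hFm.comp (measurable_id.prodMk measurable_const))
      (hF'm.comp (measurable_id.prodMk measurable_const)) (fun g => hFb g ω) (fun g => hF'b g ω)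
      fun I g u => hd ω I g u)

/-- Mecke's equation under a Gibbs average. -/
lemma gg_mecke_gibbs [IsProbabilityMeasure μ] (hl : 0 ≤ lam) (hN : 1 ≤ N) (x : Par M) (i : Fin M)
    (h : Fin N → ℝ) {m : ℕ} (φ : (Fin m → Conf N) → PertMark N i → ℝ) (hφm : ∀ ρ, Measurable (φ ρ))
    (hφi : ∀ ρ, Integrable (φ ρ) (ggPairLaw N i))
    (Φ : Cfg (Mark K M N) → (Fin m → Conf N) → ℝ) (hΦm : ∀ ρ, Measurable fun ω => Φ ω ρ)
    (hΦs : ∀ ρ, CfgSymm fun ω => Φ ω ρ) {D : ℝ} (hΦb : ∀ ω ρ, |Φ ω ρ| ≤ D) :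
    ∫ ω, ggAv (pertHam x (ω, h)) m (fun ρ => Φ ω ρ * speciesSum i (φ ρ) (ω, h))
        ∂pp (markLaw M N lam μ) =
      sN N * ∫ g, ∫ ω, ggAv (pertHam x (Cfg.cons (Sum.inr ⟨i, g⟩) ω, h)) m
          (fun ρ => Φ (Cfg.cons (Sum.inr ⟨i, g⟩) ω) ρ * φ ρ g)
        ∂pp (markLaw M N lam μ) ∂ggPairLaw N i := by
  set J := fun (ρ : Fin m → Conf N) (ω : Cfg (Mark K M N)) =>
    (∏ a, ggPr (pertHam x (ω, h)) (ρ a)) * Φ ω ρ with hJ
  have hHm : ∀ σ, Measurable fun ω : Cfg (Mark K M N) => pertHam x (ω, h) σ := fun σ =>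
    (gg_measurable_pertHam x σ).comp (measurable_id.prodMk measurable_const)
  have hJm : ∀ ρ, Measurable (J ρ) := fun ρ =>
    (Finset.measurable_prod _ fun a _ => measurable_ggPr hHm (ρ a)).mul (hΦm ρ)
  have hJs : ∀ ρ, CfgSymm (J ρ) := fun ρ k e v => by
    have hE : pertHam x (⟨k, v ∘ e⟩, h) = pertHam x ((⟨k, v⟩ : Cfg (Mark K M N)), h) :=
      funext fun σ => gg_pertHam_symm x h σ k e v
    have hP : Φ ⟨k, v ∘ e⟩ ρ = Φ ⟨k, v⟩ ρ := hΦs ρ k e v
    simp only [hJ, hE, hP]
  have hJb : ∀ ρ ω, |J ρ ω| ≤ |D| := fun ρ ω => by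
    rw [abs_mul, abs_of_nonneg (ggAv_weight_nonneg _ _)]
    refine (mul_le_mul ?_ ((hΦb ω ρ).trans (le_abs_self D)) (abs_nonneg _) zero_le_one).trans_eq
      (one_mul _)
    refine Finset.prod_le_one (fun a _ => (ggPr_pos _ _).le) fun a _ => ?_
    exact (Finset.single_le_sum (fun s _ => (ggPr_pos (pertHam x (ω, h)) s).le)
      (Finset.mem_univ _)).trans_eq (sum_ggPr _)
  have e := gg_mecke (lam := lam) (μ := μ) hl hN i φ hφm hφi J hJm hJs hJb
  refine Eq.trans (integral_congr_ae (Filter.Eventually.of_forall fun ω => ?_)) (e.trans ?_)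
  · exact Finset.sum_congr rfl fun ρ _ => (mul_assoc _ _ _).symm
  · refine congrArg _ (integral_congr_ae (Filter.Eventually.of_forall fun g =>
      integral_congr_ae (Filter.Eventually.of_forall fun ω => ?_)))
    exact Finset.sum_congr rfl fun ρ _ => mul_assoc _ _ _

/-- The derivative of a Gibbs average in one Gaussian mark. -/
lemma gg_stein_deriv (x : Par M) (i : Fin M) (B : Finset (Fin (ar i))) {n : ℕ} (l : Fin n)
    (h : Fin N → ℝ) (Φ : Cfg (Mark K M N) → (Fin n → Conf N) → ℝ)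
    (hblind : ∀ I g g' ω, Φ (Cfg.cons (Sum.inr ⟨i, I, g⟩) ω) = Φ (Cfg.cons (Sum.inr ⟨i, I, g'⟩) ω))
    (ω : Cfg (Mark K M N)) (I : Fin (ar i) → Fin N) (g : Finset (Fin (ar i)) → ℝ) (u : ℝ) :
    HasDerivAt
      (fun u => ggAv (pertHam x (Cfg.cons (Sum.inr ⟨i, I, Function.update g B u⟩) ω, h)) n fun ρ =>
        Φ (Cfg.cons (Sum.inr ⟨i, I, Function.update g B u⟩) ω) ρ * chi B fun p => ρ l (I p))
      (x (⟨i, B⟩, false) * betaN N *
        ggAv (pertHam x (Cfg.cons (Sum.inr ⟨i, I, Function.update g B u⟩) ω, h)) (n + 1) fun ρ =>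
          Φ (Cfg.cons (Sum.inr ⟨i, I, Function.update g B u⟩) ω) (fun a => ρ a.castSucc) *
            ggPsi i B l I ρ) u := by
  set E0 := pertHam x (Cfg.cons (Sum.inr ⟨i, I, Function.update g B 0⟩) ω, h)
  set X := fun σ : Conf N => x (⟨i, B⟩, false) * betaN N * chi B fun p => σ (I p) with hX
  set Φ0 := Φ (Cfg.cons (Sum.inr ⟨i, I, Function.update g B 0⟩) ω)
  have hpot : ∀ u, pertHam x (Cfg.cons (Sum.inr ⟨i, I, Function.update g B u⟩) ω, h) =
      fun σ => E0 σ + u * X σ := fun u => funext fun σ => by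
    simp only [E0, X, gg_pertHam_cons]
    rw [gg_markPot_gauss x i B I g u σ]
    ring
  have hΦu : ∀ u, Φ (Cfg.cons (Sum.inr ⟨i, I, Function.update g B u⟩) ω) = Φ0 := fun u =>
    hblind I _ _ ω
  simp only [hpot, hΦu]
  refine (hasDerivAt_ggAv E0 X _ u).congr_deriv ?_
  rw [← ggAv_const_mul]
  refine congrArg _ (funext fun ρ => ?_)
  simp only [hX, ggPsi, ggTwo, ← Finset.mul_sum]
  ring

/-- Integration by parts in one Gaussian mark. -/
lemma gg_stein_one [IsProbabilityMeasure μ] (hl : 0 ≤ lam) (hN : 1 ≤ N) (x : Par M) (i : Fin M)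
    (B : Finset (Fin (ar i))) {n : ℕ} (l : Fin n) (h : Fin N → ℝ)
    (Φ : Cfg (Mark K M N) → (Fin n → Conf N) → ℝ) (hΦm : ∀ ρ, Measurable fun ω => Φ ω ρ)
    (hΦs : ∀ ρ, CfgSymm fun ω => Φ ω ρ) {D : ℝ} (hΦb : ∀ ω ρ, |Φ ω ρ| ≤ D)
    (hblind : ∀ I g g' ω, Φ (Cfg.cons (Sum.inr ⟨i, I, g⟩) ω) = Φ (Cfg.cons (Sum.inr ⟨i, I, g'⟩) ω)) :
    ∫ ω, ggAv (pertHam x (ω, h)) n (fun ρ =>
        Φ ω ρ * speciesSum i (fun g => g.2 B * chi B fun p => ρ l (g.1 p)) (ω, h))
        ∂pp (markLaw M N lam μ) =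
      x (⟨i, B⟩, false) * betaN N * ∫ ω, ggAv (pertHam x (ω, h)) (n + 1) (fun ρ =>
        Φ ω (fun a => ρ a.castSucc) * speciesSum i (fun g => ggPsi i B l g.1 ρ) (ω, h))
        ∂pp (markLaw M N lam μ) := by
  have := gg_finite_markLaw (M := M) (lam := lam) (μ := μ) hN
  have := isProbabilityMeasure_pp (markLaw M N lam μ)
  have := gg_prob_pair hN i
  have mφ : ∀ ρ : Fin n → Conf N, Measurable fun g : PertMark N i =>
      g.2 B * chi B fun p => ρ l (g.1 p) := fun ρ => by
    exact (measurable_from_prod_countable_right (f := fun g : PertMark N i =>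
      g.2 B * chi B fun p => ρ l (g.1 p)) fun I => by fun_prop)
  have mψ : ∀ ρ : Fin (n + 1) → Conf N, Measurable fun g : PertMark N i => ggPsi i B l g.1 ρ :=
    fun ρ => (measurable_of_finite fun I => ggPsi i B l I ρ).comp measurable_fst
  rw [gg_mecke_gibbs hl hN x i h (fun ρ g => g.2 B * chi B fun p => ρ l (g.1 p)) mφ
      (fun ρ => (gg_integrable_abs_coord hN i B).mono' (mφ ρ).aestronglyMeasurable
        (Filter.Eventually.of_forall fun g => by
          rw [Real.norm_eq_abs, abs_mul, gg_chi_abs, mul_one])) Φ hΦm hΦs hΦb,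
    gg_mecke_gibbs hl hN x i h (fun ρ g => ggPsi i B l g.1 ρ) mψ
      (fun ρ => Integrable.of_bound (mψ ρ).aestronglyMeasurable (2 * n)
        (Filter.Eventually.of_forall fun g => abs_ggPsi i B l g.1 ρ))
      (fun ω ρ => Φ ω fun a => ρ a.castSucc) (fun ρ => hΦm _) (fun ρ => hΦs _) (fun ω ρ => hΦb ω _),
    mul_left_comm (x (⟨i, B⟩, false) * betaN N)]
  refine congrArg (sN N * ·) ?_
  set c := x (⟨i, B⟩, false) * betaN N
  set P := pp (markLaw M N lam μ)
  set F := fun (g : PertMark N i) (ω : Cfg (Mark K M N)) =>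
    ggAv (pertHam x (Cfg.cons (Sum.inr ⟨i, g⟩) ω, h)) n fun ρ =>
      Φ (Cfg.cons (Sum.inr ⟨i, g⟩) ω) ρ * chi B fun p => ρ l (g.1 p) with hF
  set F' := fun (g : PertMark N i) (ω : Cfg (Mark K M N)) =>
    ggAv (pertHam x (Cfg.cons (Sum.inr ⟨i, g⟩) ω, h)) (n + 1) fun ρ =>
      Φ (Cfg.cons (Sum.inr ⟨i, g⟩) ω) (fun a => ρ a.castSucc) * ggPsi i B l g.1 ρ with hF'
  have eF : ∀ (g : PertMark N i) (ω : Cfg (Mark K M N)),
      ggAv (pertHam x (Cfg.cons (Sum.inr ⟨i, g⟩) ω, h)) n (fun ρ =>
        Φ (Cfg.cons (Sum.inr ⟨i, g⟩) ω) ρ * (g.2 B * chi B fun p => ρ l (g.1 p))) = g.2 B * F g ω :=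
    fun g ω => by simp only [hF, mul_left_comm _ (g.2 B), ggAv_const_mul]
  simp only [eF]
  have hHm : ∀ σ, Measurable fun ω : Cfg (Mark K M N) => pertHam x (ω, h) σ := fun σ =>
    (gg_measurable_pertHam x σ).comp (measurable_id.prodMk measurable_const)
  have hcm : Measurable fun q : PertMark N i × Cfg (Mark K M N) =>
      Cfg.cons (Sum.inr ⟨i, q.1⟩ : Mark K M N) q.2 :=
    gg_measurable_cons.comp (((gg_measurable_inr i).comp measurable_fst).prodMk measurable_snd)
  have hFm : Measurable fun q : PertMark N i × Cfg (Mark K M N) => F q.1 q.2 :=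
    measurable_ggAv (fun σ => (hHm σ).comp hcm) fun ρ => ((hΦm ρ).comp hcm).mul
      ((measurable_of_finite fun I : Fin (ar i) → Fin N => chi B fun p => ρ l (I p)).comp
        (measurable_fst.comp measurable_fst))
  have hF'm : Measurable fun q : PertMark N i × Cfg (Mark K M N) => F' q.1 q.2 :=
    measurable_ggAv (fun σ => (hHm σ).comp hcm) fun ρ => ((hΦm _).comp hcm).mul
      ((measurable_of_finite fun I => ggPsi i B l I ρ).comp (measurable_fst.comp measurable_fst))
  have hFb : ∀ g ω, |F g ω| ≤ |D| := fun g ω => abs_ggAv_le_of _ fun ρ => by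
    rw [abs_mul, gg_chi_abs, mul_one]; exact (hΦb _ _).trans (le_abs_self D)
  have hF'b : ∀ g ω, |F' g ω| ≤ |D| * (2 * n) := fun g ω => abs_ggAv_le_of _ fun ρ => by
    rw [abs_mul]
    exact mul_le_mul ((hΦb _ _).trans (le_abs_self D)) (abs_ggPsi i B l g.1 ρ) (abs_nonneg _)
      (abs_nonneg _)
  refine gg_gauss_swap P hN i B c F F' hFm hF'm hFb hF'b ?_
  intro ω I g u
  simp only [hF, hF']
  exact gg_stein_deriv x i B l h Φ hblind ω I g u

/-- The overlap of two replicas in a species, not clipped. -/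
noncomputable def ggOv {n : ℕ} (i : Fin M) (B : Finset (Fin (ar i))) (l l' : Fin n)
    (ω : Dis K M N) (ρ : Fin n → Conf N) : ℝ :=
  speciesSum i (fun g => ggTwo i B l l' g.1 ρ) ω / sN N

lemma gg_measurable_ov {n : ℕ} (i : Fin M) (B : Finset (Fin (ar i))) (l l' : Fin n)
    (ρ : Fin n → Conf N) : Measurable fun ω : Dis K M N => ggOv i B l l' ω ρ :=
  (gg_measurable_speciesSum i
    ((measurable_of_finite fun I => ggTwo i B l l' I ρ).comp measurable_fst)).div_const _

lemma abs_ggOv_le {n : ℕ} (hN : 1 ≤ N) (i : Fin M) (B : Finset (Fin (ar i))) (l l' : Fin n)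
    (ω : Dis K M N) (ρ : Fin n → Conf N) :
    |ggOv i B l l' ω ρ| ≤ speciesSum i (fun _ => 1) ω / sN N := by
  have hs : 0 < sN N := zero_lt_one.trans_le (gg_sN_mem hN).1
  rw [ggOv, abs_div, abs_of_pos hs]
  rw [gg_speciesSum_eq, gg_speciesSum_eq]
  refine div_le_div_of_nonneg_right (gg_abs_sum_le (fun c => ?_) ω.1) hs.le
  show |ggLift i _ c| ≤ _
  rw [ggLift_abs]
  exact ggLift_mono i (fun g => (abs_ggTwo _ _ _ _ _ _).le) c

/-- The Gaussian field against a function of the replicas is a combination of overlaps. -/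
theorem gg_field_stein [IsProbabilityMeasure μ] [IsProbabilityMeasure η] (hl : 0 ≤ lam) (hN : 1 ≤ N)
    (x : Par M) (i : Fin M) (B : Finset (Fin (ar i))) {n : ℕ} (l : Fin n)
    (Φ : Cfg (Mark K M N) → (Fin n → Conf N) → ℝ) (hΦm : ∀ ρ, Measurable fun ω => Φ ω ρ)
    (hΦs : ∀ ρ, CfgSymm fun ω => Φ ω ρ) {D : ℝ} (hΦb : ∀ ω ρ, |Φ ω ρ| ≤ D)
    (hblind : ∀ I g g' ω, Φ (Cfg.cons (Sum.inr ⟨i, I, g⟩) ω) = Φ (Cfg.cons (Sum.inr ⟨i, I, g'⟩) ω)) :
    avgN lam μ η x n (fun ω ρ => Φ ω.1 ρ * fieldH i B ω (ρ l)) =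
      x (⟨i, B⟩, false) * avgN lam μ η x (n + 1) (fun ω ρ => Φ ω.1 (fun a => ρ a.castSucc) *
        (∑ l' : Fin n, ggOv i B l.castSucc l'.castSucc ω ρ -
          n * ggOv i B l.castSucc (Fin.last n) ω ρ)) := by
  have := gg_finite_markLaw (M := M) (lam := lam) (μ := μ) hN
  have := isProbabilityMeasure_pp (markLaw M N lam μ)
  have hb : 0 < betaN N := (gg_betaN_mem hN).1
  have hs : 0 < sN N := zero_lt_one.trans_le (gg_sN_mem hN).1
  have hHm : ∀ σ, Measurable fun ω : Dis K M N => pertHam x ω σ := gg_measurable_pertHam x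
  have hmφ : ∀ ρ : Fin n → Conf N, Measurable fun g : PertMark N i =>
      g.2 B * chi B fun p => ρ l (g.1 p) := fun ρ => by
    exact (measurable_from_prod_countable_right (f := fun g : PertMark N i =>
      g.2 B * chi B fun p => ρ l (g.1 p)) fun I => by fun_prop)
  set L := fun ω : Dis K M N => ggAv (pertHam x ω) n fun ρ =>
    Φ ω.1 ρ * speciesSum i (fun g => g.2 B * chi B fun p => ρ l (g.1 p)) ω
  set R := fun ω : Dis K M N => ggAv (pertHam x ω) (n + 1) fun ρ =>
    Φ ω.1 (fun a => ρ a.castSucc) * speciesSum i (fun g => ggPsi i B l g.1 ρ) ω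
  have hLm : Measurable L := measurable_ggAv hHm fun ρ =>
    ((hΦm ρ).comp measurable_fst).mul (gg_measurable_speciesSum i (hmφ ρ))
  have hRm : Measurable R := measurable_ggAv hHm fun ρ => ((hΦm _).comp measurable_fst).mul
    (gg_measurable_speciesSum i ((measurable_of_finite fun I => ggPsi i B l I ρ).comp measurable_fst))
  have iL : Integrable L (disLaw M N lam μ η) := by
    refine ((gg_integral_dis hN (gg_integrable_lift hl hN i
      ((measurable_pi_apply B).comp measurable_snd).abs (gg_integrable_abs_coord hN i B)).1).1.const_mul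
        |D|).mono' hLm.aestronglyMeasurable (Filter.Eventually.of_forall fun ω => ?_)
    refine abs_ggAv_le_of _ fun ρ => ?_
    rw [abs_mul, gg_speciesSum_eq]
    refine mul_le_mul ((hΦb _ _).trans (le_abs_self D)) (gg_abs_sum_le (fun c => ?_) ω.1)
      (abs_nonneg _) (abs_nonneg _)
    show |ggLift i _ c| ≤ _
    rw [ggLift_abs]
    exact ggLift_mono i (fun g => (by rw [abs_mul, gg_chi_abs, mul_one] : _ ≤ |g.2 B|)) c
  have hpair := gg_prob_pair hN i
  have iR : Integrable R (disLaw M N lam μ η) := by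
    refine ((gg_integral_dis hN (gg_integrable_lift hl hN i (φ := fun _ => 2 * (n : ℝ))
      measurable_const (integrable_const _)).1).1.const_mul |D|).mono' hRm.aestronglyMeasurable
        (Filter.Eventually.of_forall fun ω => ?_)
    refine abs_ggAv_le_of _ fun ρ => ?_
    rw [abs_mul, gg_speciesSum_eq]
    refine mul_le_mul ((hΦb _ _).trans (le_abs_self D)) (gg_abs_sum_le (fun c => ?_) ω.1)
      (abs_nonneg _) (abs_nonneg _)
    show |ggLift i _ c| ≤ _
    rw [ggLift_abs]
    exact ggLift_mono i (fun g => abs_ggPsi i B l g.1 ρ) c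
  have hmain : ∫ ω, L ω ∂disLaw M N lam μ η =
      x (⟨i, B⟩, false) * betaN N * ∫ ω, R ω ∂disLaw M N lam μ η := by
    unfold disLaw at iL iR ⊢
    rw [integral_prod_symm _ iL, integral_prod_symm _ iR, ← integral_const_mul]
    exact integral_congr_ae (Filter.Eventually.of_forall fun h =>
      gg_stein_one hl hN x i B l h Φ hΦm hΦs hΦb hblind)
  have e1 : avgN lam μ η x n (fun ω ρ => Φ ω.1 ρ * fieldH i B ω (ρ l)) =
      (∫ ω, L ω ∂disLaw M N lam μ η) / (betaN N * sN N) := by
    rw [gg_avgN_eq, ← integral_div]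
    refine integral_congr_ae (Filter.Eventually.of_forall fun ω => ?_)
    simp only [fieldH, L, ggAv, Finset.sum_div, ← mul_div_assoc]
  have e2 : avgN lam μ η x (n + 1) (fun ω ρ => Φ ω.1 (fun a => ρ a.castSucc) *
      (∑ l' : Fin n, ggOv i B l.castSucc l'.castSucc ω ρ -
        n * ggOv i B l.castSucc (Fin.last n) ω ρ)) = (∫ ω, R ω ∂disLaw M N lam μ η) / sN N := by
    rw [gg_avgN_eq, ← integral_div]
    refine integral_congr_ae (Filter.Eventually.of_forall fun ω => ?_)
    simp only [R, ggOv, ggAv, Finset.sum_div, ← mul_div_assoc]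
    refine Finset.sum_congr rfl fun ρ _ => ?_
    simp only [gg_speciesSum_eq, Cfg.sum, ← Finset.sum_div, ← mul_div_assoc, div_sub_div_same]
    refine congrArg (fun r => (∏ a, ggPr (pertHam x ω) (ρ a)) * ((Φ ω.1 fun a => ρ a.castSucc) * r) / sN N) ?_
    rw [Finset.sum_comm, Finset.mul_sum, ← Finset.sum_sub_distrib]
    refine Finset.sum_congr rfl fun k _ => ?_
    generalize ω.1.2 k = c
    match c with
    | Sum.inl _ => simp [ggLift]
    | Sum.inr ⟨i', g⟩ =>
      rcases eq_or_ne i' i with rfl | hne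
      · simp only [ggLift_self, ggPsi]
      · simp [ggLift_ne hne]
  rw [e1, e2, hmain]
  field_simp

end Vale.Agent.P168
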