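import Vale.Agent.P168.Fin.Model
import Vale.Agent.P157.Low.GGFluct

/-!
P168: finite Gibbs averages along a line of exponents, and the concentration of a linear field.
-/

namespace Vale.Agent.P168

open MeasureTheory Finset

variable {S : Type} [Fintype S]

/-- The Gibbs weight of an exponent. -/
noncomputable def ggPr (E : S → ℝ) (s : S) : ℝ := Real.exp (E s) / ∑ u, Real.exp (E u)

/-- The average of replicas at an exponent. -/
noncomputable def ggAv (E : S → ℝ) (n : ℕ) (F : (Fin n → S) → ℝ) : ℝ :=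
  ∑ ρ : Fin n → S, (∏ l, ggPr E (ρ l)) * F ρ

/-- The logarithm of the partition function. -/
noncomputable def ggLogZ (E : S → ℝ) : ℝ := Real.log (∑ u, Real.exp (E u))

variable [Nonempty S] (E : S → ℝ) {n : ℕ}

lemma gg_Z_pos : 0 < ∑ u, Real.exp (E u) :=
  Finset.sum_pos (fun _ _ => Real.exp_pos _) Finset.univ_nonempty

lemma ggPr_pos (s : S) : 0 < ggPr E s := div_pos (Real.exp_pos _) (gg_Z_pos E)

lemma sum_ggPr : ∑ s, ggPr E s = 1 := by
  simp only [ggPr, ← Finset.sum_div]
  exact div_self (gg_Z_pos E).ne'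

lemma ggAv_weight_nonneg (ρ : Fin n → S) : 0 ≤ ∏ l, ggPr E (ρ l) :=
  Finset.prod_nonneg fun _ _ => (ggPr_pos E _).le

lemma ggAv_const (c : ℝ) : ggAv E n (fun _ => c) = c := by
  rw [ggAv, ← Finset.sum_mul, ← Fintype.prod_sum fun (_ : Fin n) s => ggPr E s]
  simp [sum_ggPr]

lemma ggAv_mono {F G : (Fin n → S) → ℝ} (h : ∀ ρ, F ρ ≤ G ρ) : ggAv E n F ≤ ggAv E n G :=
  Finset.sum_le_sum fun ρ _ => mul_le_mul_of_nonneg_left (h ρ) (ggAv_weight_nonneg E ρ)

omit [Nonempty S] in
lemma ggAv_add (F G : (Fin n → S) → ℝ) :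
    ggAv E n (fun ρ => F ρ + G ρ) = ggAv E n F + ggAv E n G := by
  simp only [ggAv, mul_add, Finset.sum_add_distrib]

omit [Nonempty S] in
lemma ggAv_sub (F G : (Fin n → S) → ℝ) :
    ggAv E n (fun ρ => F ρ - G ρ) = ggAv E n F - ggAv E n G := by
  simp only [ggAv, mul_sub, Finset.sum_sub_distrib]

omit [Nonempty S] in
lemma ggAv_const_mul (c : ℝ) (F : (Fin n → S) → ℝ) :
    ggAv E n (fun ρ => c * F ρ) = c * ggAv E n F := by
  simp only [ggAv, mul_left_comm _ c, ← Finset.mul_sum]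

omit [Nonempty S] in
lemma ggAv_sum {ι : Type} (s : Finset ι) (F : ι → (Fin n → S) → ℝ) :
    ggAv E n (fun ρ => ∑ a ∈ s, F a ρ) = ∑ a ∈ s, ggAv E n (F a) := by
  simp only [ggAv, Finset.mul_sum]
  exact Finset.sum_comm

lemma abs_ggAv_le {F : (Fin n → S) → ℝ} : |ggAv E n F| ≤ ggAv E n fun ρ => |F ρ| := by
  refine (Finset.abs_sum_le_sum_abs _ _).trans_eq (Finset.sum_congr rfl fun ρ _ => ?_)
  rw [abs_mul, abs_of_nonneg (ggAv_weight_nonneg E ρ)]

lemma abs_ggAv_le_of {F : (Fin n → S) → ℝ} {C : ℝ} (h : ∀ ρ, |F ρ| ≤ C) : |ggAv E n F| ≤ C :=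
  ((abs_ggAv_le E).trans (ggAv_mono E h)).trans_eq (ggAv_const E C)

lemma ggAv_castSucc (F : (Fin n → S) → ℝ) :
    ggAv E (n + 1) (fun ρ => F fun l => ρ l.castSucc) = ggAv E n F := by
  simp only [ggAv]
  rw [← (Fin.snocEquiv fun _ => S).sum_comp, Fintype.sum_prod_type_right]
  refine Finset.sum_congr rfl fun ρ _ => ?_
  simp only [Fin.snocEquiv, Equiv.coe_fn_mk, Fin.prod_univ_castSucc, Fin.snoc_castSucc, Fin.snoc_last]
  rw [← Finset.sum_mul, ← Finset.mul_sum, sum_ggPr, mul_one]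

lemma ggAv_single (l : Fin n) (F : S → ℝ) :
    ggAv E n (fun ρ => F (ρ l)) = ggAv E 1 fun ρ => F (ρ 0) := by
  have key : ∀ (m : ℕ) (k : Fin m), ggAv E m (fun ρ => F (ρ k)) = ∑ s, ggPr E s * F s := by
    intro m k
    simp only [ggAv]
    have e : ∀ ρ : Fin m → S, (∏ j, ggPr E (ρ j)) * F (ρ k) =
        ∏ j, ggPr E (ρ j) * if j = k then F (ρ j) else 1 := fun ρ => by
      rw [Finset.prod_mul_distrib, Finset.prod_ite_eq' Finset.univ k fun j => F (ρ j)]
      simp
    simp only [e]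
    rw [← Fintype.prod_sum fun (j : Fin m) s => ggPr E s * if j = k then F s else 1,
      Finset.prod_eq_single k (fun j _ hj => by simp [hj, sum_ggPr]) (by simp)]
    simp
  rw [key n l, key 1 0]

lemma ggAv_one (F : S → ℝ) : ggAv E 1 (fun ρ => F (ρ 0)) = ∑ s, ggPr E s * F s := by
  simp only [ggAv]
  exact Fintype.sum_equiv (Equiv.funUnique (Fin 1) S) _ _ fun ρ => by simp

section line

variable (A X : S → ℝ)

lemma hasDerivAt_ggPr (t : ℝ) (s : S) :
    HasDerivAt (fun t => ggPr (fun u => A u + t * X u) s)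
      (ggPr (fun u => A u + t * X u) s *
        (X s - ∑ u, ggPr (fun u => A u + t * X u) u * X u)) t := by
  have h : ∀ u, HasDerivAt (fun t => Real.exp (A u + t * X u)) (Real.exp (A u + t * X u) * X u) t :=
    fun u => (((hasDerivAt_mul_const (X u)).const_add (A u)).exp)
  have hZ := gg_Z_pos fun u => A u + t * X u
  refine ((h s).fun_div (HasDerivAt.fun_sum fun u _ => h u) hZ.ne').congr_deriv ?_
  simp only [ggPr, div_mul_eq_mul_div, ← Finset.sum_div]
  field_simp

/-- The derivative of an average along a line: one more replica. -/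
lemma hasDerivAt_ggAv (F : (Fin n → S) → ℝ) (t : ℝ) :
    HasDerivAt (fun t => ggAv (fun u => A u + t * X u) n F)
      (ggAv (fun u => A u + t * X u) (n + 1) fun ρ =>
        F (fun l => ρ l.castSucc) * (∑ l : Fin n, X (ρ l.castSucc) - n * X (ρ (Fin.last n)))) t := by
  set E := fun u => A u + t * X u
  set m := ∑ u, ggPr E u * X u
  have hd : HasDerivAt (fun t => ggAv (fun u => A u + t * X u) n F)
      (∑ ρ : Fin n → S, (∏ l, ggPr E (ρ l)) * (∑ l, (X (ρ l) - m)) * F ρ) t := by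
    refine HasDerivAt.fun_sum fun ρ _ => ?_
    refine ((HasDerivAt.fun_finsetProd (u := Finset.univ)
      fun l _ => hasDerivAt_ggPr A X t (ρ l)).mul_const (F ρ)).congr_deriv ?_
    congr 1
    simp only [smul_eq_mul, Finset.mul_sum]
    refine Finset.sum_congr rfl fun l _ => ?_
    rw [← mul_assoc, mul_comm (∏ j ∈ Finset.univ.erase l, ggPr E (ρ j)) (ggPr E (ρ l))]
    rw [Finset.mul_prod_erase Finset.univ (fun j => ggPr E (ρ j)) (Finset.mem_univ l)]
  refine hd.congr_deriv ?_
  simp only [ggAv]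
  rw [← (Fin.snocEquiv fun _ => S).sum_comp, Fintype.sum_prod_type_right]
  refine Finset.sum_congr rfl fun ρ _ => ?_
  simp only [Fin.snocEquiv, Equiv.coe_fn_mk, Fin.prod_univ_castSucc, Fin.snoc_castSucc, Fin.snoc_last]
  have e : ∀ u, (∏ l, ggPr E (ρ l)) * ggPr E u * (F ρ * (∑ l, X (ρ l) - n * X u)) =
      (∏ l, ggPr E (ρ l)) * F ρ * (ggPr E u * ∑ l, X (ρ l) - n * (ggPr E u * X u)) :=
    fun u => by ring
  simp only [e, ← Finset.mul_sum, Finset.sum_sub_distrib, ← Finset.sum_mul, sum_ggPr, one_mul,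
    Finset.sum_const, Finset.card_univ, Fintype.card_fin, nsmul_eq_mul]
  simp only [m]
  ring

/-- The supporting lines of the logarithm of the partition function. -/
lemma ggLogZ_support (t t' : ℝ) :
    (t' - t) * ggAv (fun u => A u + t * X u) 1 (fun ρ => X (ρ 0)) ≤
      ggLogZ (fun u => A u + t' * X u) - ggLogZ fun u => A u + t * X u := by
  set E := fun u => A u + t * X u
  have hj := convexOn_exp.map_sum_le (t := Finset.univ) (w := ggPr E) (p := fun u => (t' - t) * X u)
    (fun u _ => (ggPr_pos E u).le) (sum_ggPr E) (fun _ _ => Set.mem_univ _)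
  simp only [smul_eq_mul] at hj
  have e : ∑ u, ggPr E u * Real.exp ((t' - t) * X u) =
      (∑ u, Real.exp (A u + t' * X u)) / ∑ u, Real.exp (E u) := by
    simp only [ggPr, div_mul_eq_mul_div, ← Finset.sum_div, ← Real.exp_add, E]
    congr 1
    exact Finset.sum_congr rfl fun u _ => by ring_nf
  rw [e] at hj
  have h := Real.log_le_log (Real.exp_pos _) hj
  rw [Real.log_exp, Real.log_div (gg_Z_pos _).ne' (gg_Z_pos _).ne'] at h
  refine le_trans (le_of_eq ?_) h
  rw [ggAv_one, Finset.mul_sum]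
  exact Finset.sum_congr rfl fun u _ => by ring

/-- The derivative of a mean along its own line is the variance. -/
lemma hasDerivAt_mean (a : ℝ) (H : S → ℝ) (t : ℝ) :
    HasDerivAt (fun t => ggAv (fun u => A u + t * (a * H u)) 1 fun ρ => H (ρ 0))
      (a * ggAv (fun u => A u + t * (a * H u)) 1 fun ρ =>
        (H (ρ 0) - ggAv (fun u => A u + t * (a * H u)) 1 fun ρ' => H (ρ' 0)) ^ 2) t := by
  have e : ∀ t, ggAv (fun u => A u + t * (a * H u)) 1 (fun ρ => H (ρ 0)) =
      ∑ s, ggPr (fun u => A u + t * (a * H u)) s * H s := fun t => ggAv_one _ H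
  simp only [e]
  refine (HasDerivAt.fun_sum fun s _ =>
    (hasDerivAt_ggPr A (fun u => a * H u) t s).mul_const (H s)).congr_deriv ?_
  set p := ggPr fun u => A u + t * (a * H u)
  set m := ∑ s, p s * H s with hm
  rw [ggAv_one _ fun s => (H s - m) ^ 2]
  have e2 : ∀ s, p s * (a * H s - ∑ u, p u * (a * H u)) * H s =
      a * (p s * H s ^ 2) - a * m * (p s * H s) := fun s => by
    simp only [mul_left_comm _ a, ← Finset.mul_sum, ← hm]
    ring
  have e3 : ∀ s, p s * (H s - m) ^ 2 = p s * H s ^ 2 - 2 * m * (p s * H s) + m ^ 2 * p s :=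
    fun s => by ring
  show ∑ s, p s * (a * H s - ∑ u, p u * (a * H u)) * H s = a * ∑ s, p s * (H s - m) ^ 2
  simp only [e2, e3, Finset.sum_sub_distrib, Finset.sum_add_distrib, ← Finset.mul_sum, ← hm,
    show ∑ s, p s = 1 from sum_ggPr _]
  ring

end line

lemma abs_ggLogZ_sub_le {E E' : S → ℝ} {c : ℝ} (h : ∀ u, |E u - E' u| ≤ c) :
    |ggLogZ E - ggLogZ E'| ≤ c := by
  have key : ∀ E E' : S → ℝ, (∀ u, |E u - E' u| ≤ c) → ggLogZ E - ggLogZ E' ≤ c := fun E E' h => by
    have h1 : ∑ u, Real.exp (E u) ≤ Real.exp c * ∑ u, Real.exp (E' u) := by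
      rw [Finset.mul_sum]
      refine Finset.sum_le_sum fun u _ => ?_
      rw [← Real.exp_add, Real.exp_le_exp]
      linarith [(abs_le.1 (h u)).2]
    have h2 := Real.log_le_log (gg_Z_pos E) h1
    rw [Real.log_mul (Real.exp_pos c).ne' (gg_Z_pos E').ne', Real.log_exp] at h2
    simp only [ggLogZ]
    linarith
  exact abs_le.2 ⟨by linarith [key E' E fun u => by rw [abs_sub_comm]; exact h u], key E E' h⟩

lemma measurable_ggPr {Ω : Type} [MeasurableSpace Ω] {E : Ω → S → ℝ}
    (hE : ∀ u, Measurable fun ω => E ω u) (s : S) : Measurable fun ω => ggPr (E ω) s :=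
  (hE s).exp.div (Finset.measurable_sum _ fun u _ => (hE u).exp)

omit [Nonempty S] in
lemma measurable_ggAv {Ω : Type} [MeasurableSpace Ω] {E : Ω → S → ℝ}
    (hE : ∀ u, Measurable fun ω => E ω u) {F : Ω → (Fin n → S) → ℝ}
    (hF : ∀ ρ, Measurable fun ω => F ω ρ) : Measurable fun ω => ggAv (E ω) n (F ω) :=
  Finset.measurable_sum _ fun ρ _ =>
    (Finset.measurable_prod _ fun l _ => (hE (ρ l)).exp.div
      (Finset.measurable_sum _ fun u _ => (hE u).exp)).mul (hF ρ)

omit [Nonempty S] in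
lemma measurable_ggLogZ {Ω : Type} [MeasurableSpace Ω] {E : Ω → S → ℝ}
    (hE : ∀ u, Measurable fun ω => E ω u) : Measurable fun ω => ggLogZ (E ω) :=
  (Finset.measurable_sum _ fun u _ => (hE u).exp).log

/-- A monotone function bounded on `[0, 3]` gains little over a short shift. -/
lemma gg_shift_le {G : ℝ → ℝ} (hG : Monotone G) {K : ℝ}
    (hb : ∀ t ∈ Set.Icc (0 : ℝ) 3, |G t| ≤ K) {η : ℝ} (hη : 0 < η) (hη1 : η ≤ 1) :
    ∫ t, (G (t + η) - G (t - η)) ∂P157.Low.unitLaw ≤ 4 * K * η := by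
  have hi : ∀ c d, IntervalIntegrable G volume c d := fun c d => hG.intervalIntegrable
  have hp : Monotone fun t => G (t + η) := fun s t h => hG (by linarith)
  have hm : Monotone fun t => G (t - η) := fun s t h => hG (by linarith)
  rw [P157.Low.integral_unitLaw,
    intervalIntegral.integral_sub hp.intervalIntegrable hm.intervalIntegrable,
    intervalIntegral.integral_comp_add_right G η, intervalIntegral.integral_comp_sub_right G η]
  rw [← intervalIntegral.integral_add_adjacent_intervals (hi (1 + η) (2 - η)) (hi (2 - η) (2 + η)),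
    ← intervalIntegral.integral_add_adjacent_intervals (hi (1 - η) (1 + η)) (hi (1 + η) (2 - η))]
  have e1 : ∫ t in (2 - η)..(2 + η), G t ≤ 2 * η * K := by
    refine (intervalIntegral.integral_mono_on (by linarith) (hi _ _) intervalIntegrable_const
      (g := fun _ => K) fun t ht => (abs_le.1 (hb t ⟨by linarith [ht.1], by linarith [ht.2]⟩)).2).trans_eq ?_
    rw [intervalIntegral.integral_const, smul_eq_mul]; ring
  have e2 : 2 * η * (-K) ≤ ∫ t in (1 - η)..(1 + η), G t := by
    refine le_trans (le_of_eq ?_) (intervalIntegral.integral_mono_on (by linarith)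
      intervalIntegrable_const (hi _ _) (f := fun _ => -K) fun t ht =>
        (abs_le.1 (hb t ⟨by linarith [ht.1], by linarith [ht.2]⟩)).1)
    rw [intervalIntegral.integral_const, smul_eq_mul]; ring
  linarith

/-- The average deviation of a field from its Gibbs mean, integrated along its line. -/
lemma gg_gibbs_dev_le (A H : S → ℝ) {a : ℝ} (ha : 0 < a) {r : ℝ} (hr : 0 < r) :
    ∫ t, ggAv (fun u => A u + t * (a * H u)) 1 (fun ρ => |H (ρ 0) -
        ggAv (fun u => A u + t * (a * H u)) 1 (fun ρ' => H (ρ' 0))|) ∂P157.Low.unitLaw ≤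
      r / a * (ggAv (fun u => A u + 2 * (a * H u)) 1 (fun ρ => H (ρ 0)) -
        ggAv (fun u => A u + 1 * (a * H u)) 1 (fun ρ => H (ρ 0))) + 1 / (4 * r) := by
  set M := fun t : ℝ => ggAv (fun u => A u + t * (a * H u)) 1 fun ρ => H (ρ 0)
  set V := fun t : ℝ => ggAv (fun u => A u + t * (a * H u)) 1 fun ρ => (H (ρ 0) - M t) ^ 2
  set G := fun t : ℝ => ggAv (fun u => A u + t * (a * H u)) 1 fun ρ => |H (ρ 0) - M t|
  have hd : ∀ t, HasDerivAt M (a * V t) t := hasDerivAt_mean A a H
  have hp : ∀ s, Continuous fun t : ℝ => ggPr (fun u => A u + t * (a * H u)) s := fun s =>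
    (Real.continuous_exp.comp (by fun_prop)).div
      (continuous_finsetSum _ fun u _ => Real.continuous_exp.comp (by fun_prop)) fun t => (gg_Z_pos _).ne'
  have hMc : Continuous M := continuous_iff_continuousAt.2 fun t => (hd t).continuousAt
  have hVc : Continuous V := continuous_finsetSum _ fun ρ _ =>
    (continuous_finsetProd _ fun l _ => hp _).mul ((continuous_const.sub hMc).pow 2)
  have hGc : Continuous G := continuous_finsetSum _ fun ρ _ =>
    (continuous_finsetProd _ fun l _ => hp _).mul (continuous_const.sub hMc).abs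
  have hint : ∫ t in (1 : ℝ)..2, a * V t = M 2 - M 1 :=
    intervalIntegral.integral_eq_sub_of_hasDerivAt (fun t _ => hd t)
      ((hVc.const_mul a).intervalIntegrable _ _)
  show ∫ t, G t ∂P157.Low.unitLaw ≤ r / a * (M 2 - M 1) + 1 / (4 * r)
  rw [P157.Low.integral_unitLaw, ← hint, ← intervalIntegral.integral_const_mul]
  have hle : ∀ t, G t ≤ r / a * (a * V t) + 1 / (4 * r) := fun t => by
    rw [show r / a * (a * V t) = r * V t by field_simp, ← ggAv_const_mul _ r,
      ← ggAv_const (fun u => A u + t * (a * H u)) (n := 1) (1 / (4 * r)), ← ggAv_add]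
    refine ggAv_mono _ fun ρ => ?_
    rw [← sub_le_iff_le_add', le_div_iff₀ (by positivity), ← sq_abs (H (ρ 0) - M t)]
    nlinarith [sq_nonneg (2 * r * |H (ρ 0) - M t| - 1)]
  refine (intervalIntegral.integral_mono_on one_le_two (hGc.intervalIntegrable _ _)
    (((hVc.const_mul a).const_mul _).add continuous_const |>.intervalIntegrable _ _)
    fun t _ => hle t).trans_eq ?_
  simp only [Pi.add_apply]
  rw [intervalIntegral.integral_add (((hVc.const_mul a).const_mul _).intervalIntegrable _ _)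
    (continuous_const.intervalIntegrable _ _), intervalIntegral.integral_const]
  norm_num

variable {Ω : Type} [MeasurableSpace Ω] (P : Measure Ω) [IsProbabilityMeasure P]

/-- The mean of a linear field against the disorder. -/
lemma gg_mean_dev_le (A H : Ω → S → ℝ) (hA : ∀ u, Measurable fun ω => A ω u)
    (hH : ∀ u, Measurable fun ω => H ω u) {a : ℝ} (ha : 0 < a) {Hb : Ω → ℝ} (hHi : Integrable Hb P)
    (hHb : ∀ ω u, |H ω u| ≤ Hb ω)
    (hψ : ∀ t, Integrable (fun ω => ggLogZ fun u => A ω u + t * (a * H ω u)) P) :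
    Monotone (fun t => ∫ ω, ggAv (fun u => A ω u + t * (a * H ω u)) 1 (fun ρ => H ω (ρ 0)) ∂P) ∧
    ∀ (t η : ℝ), 0 < η →
      |∫ ω, ggAv (fun u => A ω u + t * (a * H ω u)) 1 (fun ρ => H ω (ρ 0)) ∂P| ≤ ∫ ω, Hb ω ∂P ∧
      ∀ ω, |ggAv (fun u => A ω u + t * (a * H ω u)) 1 (fun ρ => H ω (ρ 0)) -
          ∫ ω', ggAv (fun u => A ω' u + t * (a * H ω' u)) 1 (fun ρ => H ω' (ρ 0)) ∂P| ≤
        (∫ ω', ggAv (fun u => A ω' u + (t + η) * (a * H ω' u)) 1 (fun ρ => H ω' (ρ 0)) ∂P) -
        (∫ ω', ggAv (fun u => A ω' u + (t - η) * (a * H ω' u)) 1 (fun ρ => H ω' (ρ 0)) ∂P) +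
        (|ggLogZ (fun u => A ω u + (t + η) * (a * H ω u)) -
            ∫ ω', ggLogZ (fun u => A ω' u + (t + η) * (a * H ω' u)) ∂P| +
          |ggLogZ (fun u => A ω u + t * (a * H ω u)) -
            ∫ ω', ggLogZ (fun u => A ω' u + t * (a * H ω' u)) ∂P| +
          |ggLogZ (fun u => A ω u + (t - η) * (a * H ω u)) -
            ∫ ω', ggLogZ (fun u => A ω' u + (t - η) * (a * H ω' u)) ∂P|) / (η * a) := by
  set M := fun (t : ℝ) (ω : Ω) => ggAv (fun u => A ω u + t * (a * H ω u)) 1 fun ρ => H ω (ρ 0)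
  set L := fun (t : ℝ) (ω : Ω) => ggLogZ fun u => A ω u + t * (a * H ω u)
  have hMm : ∀ t, Measurable (M t) := fun t =>
    measurable_ggAv (fun u => (hA u).add (((hH u).const_mul a).const_mul t)) fun ρ => hH (ρ 0)
  have hMb : ∀ t ω, |M t ω| ≤ Hb ω := fun t ω => abs_ggAv_le_of _ fun ρ => hHb ω _
  have hMi : ∀ t, Integrable (M t) P := fun t =>
    hHi.mono' (hMm t).aestronglyMeasurable (Filter.Eventually.of_forall fun ω => hMb t ω)
  have hsup : ∀ t t' ω, (t' - t) * (a * M t ω) ≤ L t' ω - L t ω := fun t t' ω => by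
    refine le_trans (le_of_eq ?_) (ggLogZ_support (A ω) (fun u => a * H ω u) t t')
    rw [ggAv_const_mul]
  have hMmono : ∀ ω, Monotone fun t => M t ω := fun ω t t' htt => by
    rcases htt.eq_or_lt with rfl | hlt
    · exact le_rfl
    have h1 := hsup t t' ω
    have h2 := hsup t' t ω
    exact le_of_mul_le_mul_left (by linarith) (mul_pos (sub_pos.2 hlt) ha)
  have hgmono : Monotone fun t => ∫ ω, M t ω ∂P := fun t t' htt =>
    integral_mono (hMi t) (hMi t') fun ω => hMmono ω htt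
  refine ⟨hgmono, fun t η hη => ⟨abs_integral_le_integral_abs.trans
    (integral_mono (hMi t).abs hHi fun ω => hMb t ω), fun ω => ?_⟩⟩
  have hgsup : ∀ t t', (t' - t) * (a * ∫ ω, M t ω ∂P) ≤ ∫ ω, L t' ω ∂P - ∫ ω, L t ω ∂P :=
    fun t t' => by
    rw [← integral_sub (hψ t') (hψ t), ← integral_const_mul, ← integral_const_mul]
    exact integral_mono (((hMi t).const_mul a).const_mul _) ((hψ t').sub (hψ t)) fun ω => hsup t t' ω
  have h1 := hsup t (t + η) ω
  have h2 := hsup t (t - η) ω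
  have h3 := hgsup (t + η) t
  have h4 := hgsup (t - η) t
  have hp := hgmono (show t ≤ t + η by linarith)
  have hm := hgmono (show t - η ≤ t by linarith)
  simp only at hp hm
  show |M t ω - ∫ ω', M t ω' ∂P| ≤ (∫ ω', M (t + η) ω' ∂P) - (∫ ω', M (t - η) ω' ∂P) +
    (|L (t + η) ω - ∫ ω', L (t + η) ω' ∂P| + |L t ω - ∫ ω', L t ω' ∂P| +
      |L (t - η) ω - ∫ ω', L (t - η) ω' ∂P|) / (η * a)
  set R := (|L (t + η) ω - ∫ ω', L (t + η) ω' ∂P| + |L t ω - ∫ ω', L t ω' ∂P| +
      |L (t - η) ω - ∫ ω', L (t - η) ω' ∂P|) / (η * a)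
  have hR : R * (η * a) = |L (t + η) ω - ∫ ω', L (t + η) ω' ∂P| + |L t ω - ∫ ω', L t ω' ∂P| +
      |L (t - η) ω - ∫ ω', L (t - η) ω' ∂P| := div_mul_cancel₀ _ (mul_pos hη ha).ne'
  have u1 := le_abs_self (L (t + η) ω - ∫ ω', L (t + η) ω' ∂P)
  have u2 := neg_abs_le (L (t + η) ω - ∫ ω', L (t + η) ω' ∂P)
  have u3 := le_abs_self (L t ω - ∫ ω', L t ω' ∂P)
  have u4 := neg_abs_le (L t ω - ∫ ω', L t ω' ∂P)
  have u5 := le_abs_self (L (t - η) ω - ∫ ω', L (t - η) ω' ∂P)
  have u6 := neg_abs_le (L (t - η) ω - ∫ ω', L (t - η) ω' ∂P)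
  have b1 : M t ω - ∫ ω', M (t + η) ω' ∂P ≤ R :=
    le_of_mul_le_mul_left (by linarith) (mul_pos hη ha)
  have b2 : (∫ ω', M (t - η) ω' ∂P) - M t ω ≤ R :=
    le_of_mul_le_mul_left (by linarith) (mul_pos hη ha)
  exact abs_le.2 ⟨by linarith, by linarith⟩

/-- A linear field with bounded mean fluctuates little, averaged over its coefficient. -/
theorem gg_fluct_core (A H : Ω → S → ℝ) (hA : ∀ u, Measurable fun ω => A ω u)
    (hH : ∀ u, Measurable fun ω => H ω u) {a : ℝ} (ha : 0 < a) {Hb : Ω → ℝ} (hHi : Integrable Hb P)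
    (hHb : ∀ ω u, |H ω u| ≤ Hb ω)
    (hψ : ∀ t, Integrable (fun ω => ggLogZ fun u => A ω u + t * (a * H ω u)) P) {K v : ℝ}
    (hK : ∀ t ∈ Set.Icc (0 : ℝ) 3,
      |∫ ω, ggAv (fun u => A ω u + t * (a * H ω u)) 1 (fun ρ => H ω (ρ 0)) ∂P| ≤ K)
    (hv : ∀ t ∈ Set.Icc (0 : ℝ) 3, ∫ ω, |ggLogZ (fun u => A ω u + t * (a * H ω u)) -
      ∫ ω', ggLogZ (fun u => A ω' u + t * (a * H ω' u)) ∂P| ∂P ≤ v)
    {η : ℝ} (hη : 0 < η) (hη1 : η ≤ 1) :
    ∫ t, (∫ ω, ggAv (fun u => A ω u + t * (a * H ω u)) 1 (fun ρ => |H ω (ρ 0) -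
        ∫ ω', ggAv (fun u => A ω' u + t * (a * H ω' u)) 1 (fun ρ' => H ω' (ρ' 0)) ∂P|) ∂P)
        ∂P157.Low.unitLaw ≤
      (2 * K + 1) / Real.sqrt a + 4 * K * η + 3 * v / (η * a) := by
  set E := fun (t : ℝ) (ω : Ω) (u : S) => A ω u + t * (a * H ω u) with hE
  set M := fun (t : ℝ) (ω : Ω) => ggAv (E t ω) 1 (fun ρ => H ω (ρ 0)) with hMdef
  set g := fun t : ℝ => ∫ ω, M t ω ∂P with hg
  set d := fun (t : ℝ) (ω : Ω) => |ggLogZ (E t ω) - ∫ ω', ggLogZ (E t ω') ∂P| with hd
  set U := P157.Low.unitLaw with hU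
  obtain ⟨hgmono, hdev⟩ := gg_mean_dev_le P A H hA hH ha hHi hHb hψ
  have hK0 : 0 ≤ K := (abs_nonneg _).trans (hK 1 ⟨by norm_num, by norm_num⟩)
  have hEm : ∀ u, Measurable fun q : ℝ × Ω => E q.1 q.2 u := fun u =>
    ((hA u).comp measurable_snd).add (measurable_fst.mul (((hH u).const_mul a).comp measurable_snd))
  have hMm : Measurable fun q : ℝ × Ω => M q.1 q.2 :=
    measurable_ggAv hEm fun ρ => (hH (ρ 0)).comp measurable_snd
  have hMb : ∀ t ω, |M t ω| ≤ Hb ω := fun t ω => abs_ggAv_le_of _ fun ρ => hHb ω _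
  have hMi : ∀ t, Integrable (M t) P := fun t =>
    hHi.mono' (hMm.comp (measurable_const.prodMk measurable_id)).aestronglyMeasurable
      (Filter.Eventually.of_forall fun ω => hMb t ω)
  have hgm : Measurable g := hgmono.measurable
  have hgb : ∀ t, |g t| ≤ ∫ ω, Hb ω ∂P := fun t => (hdev t 1 one_pos).1
  set G1 := fun (t : ℝ) (ω : Ω) => ggAv (E t ω) 1 fun ρ => |H ω (ρ 0) - M t ω| with hG1def
  set G2 := fun (t : ℝ) (ω : Ω) => |M t ω - g t| with hG2def
  have hG1m : Measurable fun q : ℝ × Ω => G1 q.1 q.2 :=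
    measurable_ggAv hEm fun ρ => (((hH (ρ 0)).comp measurable_snd).sub hMm).abs
  have hG2m : Measurable fun q : ℝ × Ω => G2 q.1 q.2 := (hMm.sub (hgm.comp measurable_fst)).abs
  have hG1b : ∀ t ω, 0 ≤ G1 t ω ∧ G1 t ω ≤ 2 * Hb ω := fun t ω => by
    refine ⟨le_trans (le_of_eq (ggAv_const _ 0).symm) (ggAv_mono _ fun ρ => abs_nonneg _),
      (ggAv_mono _ fun ρ => ?_).trans_eq (ggAv_const _ _)⟩
    linarith [abs_sub (H ω (ρ 0)) (M t ω), hHb ω (ρ 0), hMb t ω]
  have hG1i : Integrable (fun q : ℝ × Ω => G1 q.1 q.2) (U.prod P) :=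
    ((hHi.const_mul 2).comp_snd U).mono' hG1m.aestronglyMeasurable
      (Filter.Eventually.of_forall fun q => by
        rw [Real.norm_eq_abs, abs_of_nonneg (hG1b _ _).1]; exact (hG1b _ _).2)
  have hG2i : Integrable (fun q : ℝ × Ω => G2 q.1 q.2) (U.prod P) :=
    ((hHi.add (integrable_const (∫ ω, Hb ω ∂P))).comp_snd U).mono' hG2m.aestronglyMeasurable
      (Filter.Eventually.of_forall fun q => by
        rw [Real.norm_eq_abs, hG2def, abs_abs]
        exact (abs_sub _ _).trans (add_le_add (hMb _ _) (hgb _)))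
  have hsplit : ∀ t, ∫ ω, ggAv (E t ω) 1 (fun ρ => |H ω (ρ 0) - g t|) ∂P ≤
      ∫ ω, G1 t ω ∂P + ∫ ω, G2 t ω ∂P := fun t => by
    have i1 : Integrable (G1 t) P := (hHi.const_mul 2).mono'
      (hG1m.comp (measurable_const.prodMk measurable_id)).aestronglyMeasurable
      (Filter.Eventually.of_forall fun ω => by
        rw [Real.norm_eq_abs, abs_of_nonneg (hG1b _ _).1]; exact (hG1b _ _).2)
    have i2 : Integrable (G2 t) P := ((hMi t).sub (integrable_const _)).abs
    rw [← integral_add i1 i2]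
    refine integral_mono_of_nonneg (Filter.Eventually.of_forall fun ω =>
      le_trans (le_of_eq (ggAv_const _ 0).symm) (ggAv_mono _ fun ρ => abs_nonneg _)) (i1.add i2)
      (Filter.Eventually.of_forall fun ω => ?_)
    refine (ggAv_mono _ fun ρ => abs_sub_le (H ω (ρ 0)) (M t ω) (g t)).trans_eq ?_
    rw [ggAv_add, ggAv_const]
  have hleft : Integrable (fun t => ∫ ω, G1 t ω ∂P + ∫ ω, G2 t ω ∂P) U :=
    hG1i.integral_prod_left.add hG2i.integral_prod_left
  refine (integral_mono_of_nonneg (Filter.Eventually.of_forall fun t => integral_nonneg fun ω =>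
    le_trans (le_of_eq (ggAv_const _ 0).symm) (ggAv_mono _ fun ρ => abs_nonneg _)) hleft
    (Filter.Eventually.of_forall hsplit)).trans ?_
  rw [integral_add hG1i.integral_prod_left hG2i.integral_prod_left, add_assoc]
  refine add_le_add ?_ ?_
  · set r := Real.sqrt a
    have hr : 0 < r := Real.sqrt_pos.2 ha
    have hr2 : r ^ 2 = a := Real.sq_sqrt ha.le
    rw [integral_integral_swap (f := G1) hG1i]
    refine (integral_mono hG1i.integral_prod_right
      ((((hMi 2).sub (hMi 1)).const_mul (r / a)).add (integrable_const (1 / (4 * r))))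
      fun ω => gg_gibbs_dev_le (A ω) (H ω) ha hr).trans ?_
    simp only [Pi.add_apply, Pi.sub_apply]
    rw [integral_add (((hMi 2).sub' (hMi 1)).const_mul _) (integrable_const _), integral_const_mul,
      integral_sub (hMi 2) (hMi 1), integral_const, probReal_univ, one_smul]
    have h2 : |g 2| ≤ K := hK 2 ⟨by norm_num, by norm_num⟩
    have h1 : |g 1| ≤ K := hK 1 ⟨by norm_num, by norm_num⟩
    have h3 : r / a * (g 2 - g 1) ≤ r / a * (2 * K) :=
      mul_le_mul_of_nonneg_left (by linarith [(abs_le.1 h2).2, (abs_le.1 h1).1]) (by positivity)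
    have h4 : r / a * (2 * K) + 1 / (4 * r) ≤ (2 * K + 1) / r := by
      rw [← hr2, show r / r ^ 2 * (2 * K) = 2 * K / r by field_simp, add_div]
      exact add_le_add le_rfl (div_le_div_of_nonneg_left zero_le_one hr (by linarith))
    exact le_trans (add_le_add h3 le_rfl) h4
  · have hb : ∀ᵐ t ∂U, ∫ ω, G2 t ω ∂P ≤ g (t + η) - g (t - η) + 3 * v / (η * a) := by
      filter_upwards [P157.Low.ae_unitLaw] with t ht
      have hdi : ∀ s, Integrable (d s) P := fun s => ((hψ s).sub (integrable_const _)).abs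
      have hs : Integrable (fun ω => d (t + η) ω + d t ω + d (t - η) ω) P :=
        ((hdi _).add (hdi _)).add (hdi _)
      refine (integral_mono_of_nonneg (Filter.Eventually.of_forall fun ω => abs_nonneg _)
        ((integrable_const _).add (hs.div_const (η * a)))
        (Filter.Eventually.of_forall (hdev t η hη).2)).trans ?_
      simp only [Pi.add_apply]
      rw [integral_add (integrable_const _) (hs.div_const _), integral_div,
        integral_add (show Integrable (fun ω => d (t + η) ω + d t ω) P from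
          (hdi (t + η)).add (hdi t)) (hdi (t - η)), integral_add (hdi (t + η)) (hdi t)]
      simp only [integral_const, probReal_univ, one_smul]
      have v1 := hv (t + η) ⟨by linarith [ht.1], by linarith [ht.2]⟩
      have v2 := hv t ⟨by linarith [ht.1], by linarith [ht.2]⟩
      have v3 := hv (t - η) ⟨by linarith [ht.1], by linarith [ht.2]⟩
      exact add_le_add le_rfl (div_le_div_of_nonneg_right (by linarith) (by positivity))
    have hshift : Integrable (fun t => g (t + η) - g (t - η)) U := by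
      refine Integrable.of_bound ((hgm.comp (measurable_id.add_const η)).sub
        (hgm.comp (measurable_id.sub_const η))).aestronglyMeasurable (2 * ∫ ω, Hb ω ∂P)
        (Filter.Eventually.of_forall fun t => ?_)
      rw [Real.norm_eq_abs]
      linarith [abs_sub (g (t + η)) (g (t - η)), hgb (t + η), hgb (t - η)]
    refine (integral_mono_ae hG2i.integral_prod_left (hshift.add (integrable_const _)) hb).trans ?_
    simp only [Pi.add_apply]
    rw [integral_add hshift (integrable_const _), integral_const, probReal_univ, one_smul]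
    exact add_le_add (gg_shift_le hgmono hK hη hη1) le_rfl

end Vale.Agent.P168
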