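import Vale.Agent.P168.Fin.Step

/-!
P168: the identities of the overlaps in a sequence of stages.
-/

namespace Vale.Agent.P168.Exi

open MeasureTheory ProbabilityTheory Finset Filter
open scoped Topology symmDiff

variable {K : ℕ}

/-- A sequence of stages. -/
structure Stages where
  N : ℕ → ℕ
  x : ∀ t, Par t
  mem : ∀ t b, x t b ∈ Set.Icc (1 : ℝ) 2
  ge : ∀ t, t + 1 ≤ N t

instance (S : Stages) (t : ℕ) : NeZero (S.N t) :=
  ⟨Nat.pos_iff_ne_zero.1 ((Nat.succ_pos t).trans_le (S.ge t))⟩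

lemma Stages.tendsto_N (S : Stages) : Tendsto S.N atTop atTop :=
  tendsto_atTop_mono (fun t => (Nat.le_succ t).trans (S.ge t)) tendsto_id

lemma Stages.tendsto_inv_sN (S : Stages) :
    Tendsto (fun t => (sN (S.N t))⁻¹) atTop (𝓝 0) :=
  tendsto_inv_atTop_zero.comp ((tendsto_rpow_atTop (by norm_num)).comp
    (tendsto_natCast_atTop_atTop.comp S.tendsto_N))

lemma Stages.tendsto_sqrt (S : Stages) :
    Tendsto (fun t => (Real.sqrt (sN (S.N t)))⁻¹) atTop (𝓝 0) :=
  tendsto_inv_atTop_zero.comp (Real.tendsto_sqrt_atTop.comp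
    ((tendsto_rpow_atTop (by norm_num)).comp (tendsto_natCast_atTop_atTop.comp S.tendsto_N)))

lemma Stages.tendsto_stepErr (S : Stages) (k n : ℕ) :
    Tendsto (fun t => stepErr k n (S.N t)) atTop (𝓝 0) := by
  have hb : Tendsto (fun t => betaN (S.N t)) atTop (𝓝 0) :=
    (tendsto_rpow_neg_atTop (by norm_num : (0 : ℝ) < 1 / 10)).comp
      (tendsto_natCast_atTop_atTop.comp S.tendsto_N)
  simpa [stepErr] using S.tendsto_sqrt.add (hb.const_mul (2 * n * tiltC k))

lemma eventually_species (j : Spc) : ∀ᶠ t : ℕ in atTop, ∃ i : Fin t, spcOf i = j := by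
  obtain ⟨i, hi⟩ := spcOf_surjective j
  exact (eventually_gt_atTop i).mono fun t ht => ⟨⟨i, ht⟩, hi⟩

/-- Uniform continuity on the space of overlaps. -/
lemma exists_modulus {f : Cube → ℝ} (hf : Continuous f) {ε : ℝ} (hε : 0 < ε) :
    ∃ δ > 0, ∀ ω ω' : Cube, (∀ a, |(ω a : ℝ) - ω' a| ≤ δ) → |f ω - f ω'| ≤ ε := by
  by_contra! h
  choose u u' hu hfu using fun k : ℕ => h (((k : ℝ) + 1)⁻¹) (by positivity)
  obtain ⟨ω, -, φ, hφ, hlim⟩ :=
    (isCompact_univ (X := Cube)).tendsto_subseq (x := u) fun _ => Set.mem_univ _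
  have hlim' : Tendsto (u' ∘ φ) atTop (𝓝 ω) := by
    refine tendsto_pi_nhds.2 fun a => tendsto_subtype_rng.2 ?_
    have h1 := tendsto_subtype_rng.1 (tendsto_pi_nhds.1 hlim a)
    have h0 : Tendsto (fun k => ((u' (φ k) a : ℝ)) - u (φ k) a) atTop (𝓝 0) :=
      squeeze_zero_norm (fun k => by rw [Real.norm_eq_abs, abs_sub_comm]; exact hu _ a)
        (((tendsto_natCast_atTop_atTop (R := ℝ)).atTop_add tendsto_const_nhds).inv_tendsto_atTop.comp
          hφ.tendsto_atTop)
    simpa using h1.add h0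
  have := (((hf.tendsto ω).comp hlim).sub ((hf.tendsto ω).comp hlim')).abs
  rw [sub_self, abs_zero] at this
  exact absurd (ge_of_tendsto' this fun k => (hfu (φ k)).le) (not_le.2 hε)

variable {lam : ℝ} {μ : Measure (Table K)} {η : Measure ℝ} [IsProbabilityMeasure μ]
  [IsProbabilityMeasure η]

omit [IsProbabilityMeasure μ] [IsProbabilityMeasure η] in
lemma measurable_coord (j : Spc) (A : Pat j.1) : Measurable (R j A) :=
  measurable_subtype_coe.comp (measurable_pi_apply _)

omit [IsProbabilityMeasure μ] [IsProbabilityMeasure η] in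
lemma continuous_coord (j : Spc) (A : Pat j.1) : Continuous (R j A) :=
  continuous_subtype_val.comp (continuous_apply _)

omit [IsProbabilityMeasure μ] [IsProbabilityMeasure η] in
lemma abs_coord_le (j : Spc) (A : Pat j.1) (ω : Cube) : |R j A ω| ≤ 1 := abs_le.2 (ω ⟨j, A⟩).2

/-- Pulling out one clause. -/
lemma eventually_step (S : Stages) {n : ℕ} {F : Cube → ℝ} (hF : Continuous F) {D : ℝ}
    (hD : ∀ ω, |F ω| ≤ D) (j : Spc) {A : Pat j.1} (hA : Below n A) {ε : ℝ} (hε : 0 < ε) :
    ∀ᶠ t in atTop, ∀ (u : Conf (S.N t) → ℝ) (w : (Fin n → Conf (S.N t)) → ℝ), (∀ ρ, |w ρ| ≤ 1) →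
      |tiltAvg lam μ η (S.x t) u n
          (fun ω ρ => F (stageCube ω ρ) * w ρ * R j A (stageCube ω ρ)) -
        siteAvg j.1 (S.N t) fun I => tiltAvg lam μ η (S.x t) (fun σ => u σ + tab j I σ) n
          fun ω ρ => F (stageCube ω ρ) * w ρ * chiPat A I ρ| ≤ ε := by
  obtain ⟨δ, hδ, hmod⟩ := exists_modulus hF (half_pos hε)
  have h2 : Tendsto (fun t => D * stepErr j.1 n (S.N t)) atTop (𝓝 0) := by
    simpa using (S.tendsto_stepErr j.1 n).const_mul D
  filter_upwards [eventually_species j, S.tendsto_inv_sN.eventually (eventually_le_nhds hδ),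
    h2.eventually (eventually_le_nhds (half_pos hε))] with t hj hs he u w hw
  obtain ⟨i, rfl, hi⟩ := exists_index (K := K) (N := S.N t) hj
  have key := step_index (η := η) (μ := μ) lam (S.mem t) u hF.measurable hD (ε := ε / 2)
    (fun c ω h ρ => hmod _ _ fun a => ?_) hw i A
  · simp only [hi n _ _ A hA, image_cast_self]
    exact key.trans (by linarith)
  · simp only [stageCube]
    split
    · exact (abs_stageR_cons_le _ _ c ω h ρ).trans hs
    · simpa using hδ.le

omit [IsProbabilityMeasure μ] [IsProbabilityMeasure η] in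
lemma siteAvg_sub (k N : ℕ) (φ ψ : (Fin k → Fin N) → ℝ) :
    siteAvg k N φ - siteAvg k N ψ = siteAvg k N fun I => φ I - ψ I := by
  simp [siteAvg, sum_sub_distrib, sub_div]

omit [IsProbabilityMeasure μ] [IsProbabilityMeasure η] in
lemma abs_siteAvg_le {k N : ℕ} [NeZero N] {φ : (Fin k → Fin N) → ℝ} {C : ℝ}
    (h : ∀ I, |φ I| ≤ C) : |siteAvg k N φ| ≤ C := by
  rw [siteAvg, abs_div, abs_of_nonneg (by positivity : (0 : ℝ) ≤ (N : ℝ) ^ k),
    div_le_iff₀ (pow_pos (by exact_mod_cast NeZero.pos N) k)]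
  refine (abs_sum_le_sum_abs _ _).trans ((sum_le_card_nsmul _ _ _ fun I _ => h I).trans_eq ?_)
  simp [mul_comm]

omit [IsProbabilityMeasure μ] [IsProbabilityMeasure η] in
lemma siteAvg_app (k k' N : ℕ) (φ : (Fin (k + k') → Fin N) → ℝ) :
    siteAvg (k + k') N φ = siteAvg k N fun I => siteAvg k' N fun I' => φ (Fin.append I I') := by
  simp only [siteAvg, ← sum_div, div_div, pow_add, mul_comm ((N : ℝ) ^ k)]
  rw [← (Fin.appendEquiv k k').sum_comp, Fintype.sum_prod_type]
  rfl

omit [IsProbabilityMeasure μ] [IsProbabilityMeasure η] in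
lemma chiPat_cat {k k' n N : ℕ} (A : Pat k) (A' : Pat k') (I : Fin k → Fin N) (I' : Fin k' → Fin N)
    (ρ : Fin n → Conf N) :
    chiPat (cat A A') (Fin.append I I') ρ = chiPat A I ρ * chiPat A' I' ρ := by
  rw [cat, chiPat, prod_union, prod_image, prod_image]
  · simp [chiPat, Fin.append_left, Fin.append_right]
  · exact fun p _ q _ h => by simpa [Prod.ext_iff] using h
  · exact fun p _ q _ h => by simpa [Prod.ext_iff, Fin.castAdd_inj] using h
  · simp only [disjoint_left, mem_image]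
    rintro a ⟨p, -, rfl⟩ ⟨q, -, h⟩
    have h1 := congrArg Fin.val (congrArg Prod.snd h)
    simp at h1
    omega

omit [IsProbabilityMeasure μ] [IsProbabilityMeasure η] in
lemma below_cat {k k' n : ℕ} {A : Pat k} {A' : Pat k'} (hA : Below n A) (hA' : Below n A') :
    Below n (cat A A') := fun p hp => by
  rcases mem_union.1 hp with h | h <;> obtain ⟨q, hq, rfl⟩ := mem_image.1 h
  exacts [hA q hq, hA' q hq]

omit [IsProbabilityMeasure μ] [IsProbabilityMeasure η] in
lemma tab_app (j j' : Spc) {N : ℕ} (I : Fin j.1 → Fin N) (I' : Fin j'.1 → Fin N) (σ : Conf N) :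
    tab (j.app j') (Fin.append I I') σ = tab j I σ + tab j' I' σ := by
  simp [tab]

/-- The overlaps of a sum of two species. -/
lemma tendsto_mult (S : Stages) {n : ℕ} {f : Cube → ℝ} (hf : Continuous f) {D : ℝ}
    (hD : ∀ ω, |f ω| ≤ D) (j j' : Spc) {A : Pat j.1} {A' : Pat j'.1} (hA : Below n A)
    (hA' : Below n A') :
    Tendsto (fun t => stageExp lam μ η (S.N t) (S.x t) n
          (fun ω => f ω * R (j.app j') (cat A A') ω) -
        stageExp lam μ η (S.N t) (S.x t) n fun ω => f ω * (R j A ω * R j' A' ω))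
      atTop (𝓝 0) := by
  rw [Metric.tendsto_nhds]
  intro ε hε
  have hD' : ∀ ω, |f ω * R j' A' ω| ≤ D := fun ω => by
    rw [abs_mul]
    exact (mul_le_of_le_one_right (abs_nonneg _) (abs_coord_le j' A' ω)).trans (hD ω)
  filter_upwards [eventually_step (η := η) (μ := μ) (lam := lam) S hf hD (j.app j')
      (below_cat hA hA') (ε := ε / 4) (by positivity),
    eventually_step (η := η) (μ := μ) (lam := lam) S (F := fun ω => f ω * R j' A' ω) (hf.mul (continuous_coord j' A')) hD' j hA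
      (ε := ε / 4) (by positivity),
    eventually_step (η := η) (μ := μ) (lam := lam) S hf hD j' hA' (ε := ε / 4) (by positivity)]
    with t h1 h2 h3
  rw [Real.dist_eq, sub_zero, stageExp_eq_tiltAvg, stageExp_eq_tiltAvg]
  have a1 := h1 (fun _ => 0) (fun _ => 1) (fun _ => by simp)
  have a2 := h2 (fun _ => 0) (fun _ => 1) (fun _ => by simp)
  simp only [mul_one, zero_add] at a1 a2
  rw [siteAvg_app] at a1
  have a3 : |siteAvg j.1 (S.N t) (fun I => tiltAvg lam μ η (S.x t) (fun σ => tab j I σ) n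
        fun ω ρ => f (stageCube ω ρ) * R j' A' (stageCube ω ρ) * chiPat A I ρ) -
      siteAvg j.1 (S.N t) fun I => siteAvg j'.1 (S.N t) fun I' =>
        tiltAvg lam μ η (S.x t) (fun σ => tab (j.app j') (Fin.append I I') σ) n
          fun ω ρ => f (stageCube ω ρ) * chiPat (cat A A') (Fin.append I I') ρ| ≤ ε / 4 := by
    rw [siteAvg_sub]
    refine abs_siteAvg_le fun I => ?_
    have := h3 (fun σ => tab j I σ) (fun ρ => chiPat A I ρ) (fun ρ => (abs_chiPat A I ρ).le)
    simpa only [tab_app, chiPat_cat, mul_assoc, mul_comm (chiPat A I _)] using this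
  simp only [mul_assoc, mul_comm (R j A _)] at a2 a3 ⊢
  have e2 := abs_le.1 a2
  have e1 := abs_le.1 a1
  have e3 := abs_le.1 a3
  rw [abs_lt]
  constructor <;> linarith

omit [IsProbabilityMeasure μ] [IsProbabilityMeasure η] in
lemma abs_lin_le {α : Type} [MeasurableSpace α] (P : Measure α) [IsProbabilityMeasure P]
    {a b d : α → ℝ} {U : ℕ → α → ℝ} {c C : ℝ} (ha : Integrable a P) (hb : Integrable b P) (n : ℕ)
    (hU : ∀ l, Integrable (U l) P) (hd : Integrable d P)
    (h : ∀ ω, |a ω - b ω - c * (∑ l ∈ range n, U l ω - n * d ω)| ≤ C) :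
    |∫ ω, a ω ∂P - ∫ ω, b ω ∂P - c * (∑ l ∈ range n, ∫ ω, U l ω ∂P - n * ∫ ω, d ω ∂P)| ≤ C := by
  have hUs : Integrable (fun ω => ∑ l ∈ range n, U l ω) P :=
    integrable_finsetSum _ fun l _ => hU l
  have hd' : Integrable (fun ω => (n : ℝ) * d ω) P := hd.const_mul _
  have hab : Integrable (fun ω => a ω - b ω) P := ha.sub hb
  have hr : Integrable (fun ω => c * (∑ l ∈ range n, U l ω - n * d ω)) P :=
    (hUs.sub hd').const_mul c
  rw [← integral_finsetSum _ fun l _ => hU l, ← integral_const_mul, ← integral_sub hUs hd',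
    ← integral_const_mul, ← integral_sub ha hb, ← integral_sub hab hr]
  exact (norm_integral_le_of_norm_le_const (μ := P)
    (Eventually.of_forall fun ω => (Real.norm_eq_abs _).le.trans (h ω))).trans_eq (by simp)

omit [IsProbabilityMeasure μ] [IsProbabilityMeasure η] in
lemma tab_shift (j : Spc) (c : ℚ) (B : Finset (Fin j.1)) {N : ℕ} (I : Fin j.1 → Fin N)
    (σ : Conf N) : tab (j.shift c B) I σ = tab j I σ + (c : ℝ) * chi B fun p => σ (I p) := by
  simp [tab, chiQ_cast]

omit [IsProbabilityMeasure μ] [IsProbabilityMeasure η] in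
lemma below_flip {k n m : ℕ} {A : Pat k} (hA : Below n A) (h : n ≤ m) {l : ℕ} (hl : l < m)
    (B : Finset (Fin k)) : Below m (flipPat A l B) :=
  below_symmDiff (below_mono hA h) (below_single hl B)

/-- The derivative in a clause table, for fixed sites. -/
lemma abs_deriv_site {M N n : ℕ} [NeZero N] (x : Par M) {f : Cube → ℝ} (hf : Measurable f)
    (hd : DepBelow n f) {D : ℝ} (hD : ∀ ω, |f ω| ≤ D) (j : Spc) (c : ℚ) (B : Finset (Fin j.1))
    {A : Pat j.1} (hA : Below n A) (I : Fin j.1 → Fin N) :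
    |tiltAvg (K := K) lam μ η x (fun σ => tab (j.shift c B) I σ) n
          (fun ω ρ => f (stageCube ω ρ) * chiPat A I ρ) -
        tiltAvg lam μ η x (fun σ => tab j I σ) n (fun ω ρ => f (stageCube ω ρ) * chiPat A I ρ) -
        (c : ℝ) * (∑ l ∈ range n, tiltAvg lam μ η x (fun σ => tab j I σ) n
            (fun ω ρ => f (stageCube ω ρ) * chiPat (flipPat A l B) I ρ) -
          (n : ℝ) * tiltAvg lam μ η x (fun σ => tab j I σ) (n + 1)
            fun ω ρ => f (stageCube ω ρ) * chiPat (flipPat A n B) I ρ)| ≤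
      4 * ((n : ℝ) + 1) ^ 2 * D * (c : ℝ) ^ 2 := by
  set P := disLaw (K := K) M N lam μ η
  have hH : ∀ (J : Spc) (I : Fin J.1 → Fin N) (σ : Conf N),
      Measurable fun ω : Dis K M N => pertHam x ω σ + tab J I σ := fun J I σ =>
    (measurable_pertHam x σ).add_const _
  have hi : ∀ (J : Spc) (I : Fin J.1 → Fin N) (m : ℕ) (A : Pat j.1) (I' : Fin j.1 → Fin N),
      Integrable (fun ω : Dis K M N => gav (fun σ => pertHam x ω σ + tab J I σ) m
        fun ρ => f (stageCube ω ρ) * chiPat A I' ρ) P := fun J I m A I' =>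
    integrable_gav (hH J I) (fun ρ => (hf.comp (measurable_stageCube ρ)).mul_const _)
      fun ω ρ => by rw [abs_mul, abs_chiPat, mul_one]; exact hD _
  unfold tiltAvg
  refine abs_lin_le P (hi (j.shift c B) I n A I) (hi j I n A I) n (fun l => hi j I n _ I)
    (hi j I (n + 1) _ I) fun ω => ?_
  set H₀ := fun σ => pertHam x ω σ + tab j I σ
  set v : Conf N → ℝ := fun σ => (c : ℝ) * chi B fun p => σ (I p) with hv
  set G : (Fin n → Conf N) → ℝ := fun ρ => f (stageCube ω ρ) * chiPat A I ρ with hG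
  have key := abs_gav_expand_le H₀ (v := v) (U := |(c : ℝ)|) (D := D) (abs_nonneg _)
    (fun σ => by rw [hv, abs_mul, abs_chi, mul_one]) (F := G)
    fun ρ => by rw [hG, abs_mul, abs_chiPat, mul_one]; exact hD _
  have e1 : (fun σ => pertHam x ω σ + tab (j.shift c B) I σ) = fun σ => H₀ σ + v σ := by
    funext σ; simp only [H₀, hv, tab_shift]; ring
  have e2 : gav H₀ n (fun ρ => score H₀ v ρ * G ρ) = (c : ℝ) * ((∑ l ∈ range n, gav H₀ n
      fun ρ => f (stageCube ω ρ) * chiPat (flipPat A l B) I ρ) - (n : ℝ) * gav H₀ (n + 1)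
        fun ρ => f (stageCube ω ρ) * chiPat (flipPat A n B) I ρ) := by
    have hl : gav H₀ (n + 1) (fun ρ => f (stageCube ω ρ) * chiPat (flipPat A n B) I ρ) =
        gav H₀ n G * gav H₀ 1 (fun τ => chi B fun p => τ 0 (I p)) := by
      rw [← gav_prod_last H₀ G fun σ => chi B fun p => σ (I p)]
      refine congrArg (gav H₀ (n + 1)) (funext fun ρ => ?_)
      rw [flipPat, chiPat_symmDiff, chiPat_single (Nat.lt_succ_self n), chiPat_init hA,
        depBelow_stage (Nat.le_succ n) hd, hG, ← mul_assoc]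
      rfl
    have hm : gav H₀ 1 (fun τ => v (τ 0)) = (c : ℝ) * gav H₀ 1 fun τ => chi B fun p => τ 0 (I p) :=
      gav_mul H₀ _ _
    simp only [score, sub_mul, gav_sub]
    rw [gav_mul, hm, hl, sum_range, mul_sub]
    refine congrArg₂ (· - ·) ?_ (by ring)
    rw [← gav_sum, ← gav_mul]
    refine congrArg (gav H₀ n) (funext fun ρ => ?_)
    simp only [sum_mul, mul_sum, hv, hG, flipPat, chiPat_symmDiff, chiPat_single (Fin.is_lt _),
      Fin.eta]
    exact sum_congr rfl fun l _ => by ring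
  rw [e1, ← e2]
  refine key.trans_eq ?_
  rw [sq_abs]
  ring

/-- The derivative in a clause table. -/
lemma eventually_deriv (S : Stages) {n : ℕ} {f : Cube → ℝ} (hf : Continuous f)
    (hd : DepBelow n f) {D : ℝ} (hD : ∀ ω, |f ω| ≤ D) (j : Spc) (c : ℚ) (B : Finset (Fin j.1))
    {A : Pat j.1} (hA : Below n A) {ε : ℝ} (hε : 0 < ε) :
    ∀ᶠ t in atTop,
      |stageExp lam μ η (S.N t) (S.x t) n (fun ω => f ω * R (j.shift c B) A ω) -
          stageExp lam μ η (S.N t) (S.x t) n (fun ω => f ω * R j A ω) -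
          (c : ℝ) * (∑ l ∈ range n,
              stageExp lam μ η (S.N t) (S.x t) n (fun ω => f ω * R j (flipPat A l B) ω) -
            (n : ℝ) *
              stageExp lam μ η (S.N t) (S.x t) (n + 1) fun ω => f ω * R j (flipPat A n B) ω)| ≤
        4 * ((n : ℝ) + 1) ^ 2 * D * (c : ℝ) ^ 2 + ε := by
  set ε' := ε / (2 + |(c : ℝ)| * (2 * n + 1)) with hε'
  have hε0 : 0 < ε' := by positivity
  filter_upwards [eventually_step (η := η) (μ := μ) (lam := lam) S hf hD (j.shift c B) hA hε0,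
    eventually_step (η := η) (μ := μ) (lam := lam) S hf hD j hA hε0,
    (eventually_all_finset (range n)).2 fun l hl => eventually_step (η := η) (μ := μ) (lam := lam)
      S hf hD j (below_flip hA le_rfl (mem_range.1 hl) B) hε0,
    eventually_step (η := η) (μ := μ) (lam := lam) S hf hD j
      (below_flip (m := n + 1) hA (Nat.le_add_right n 1) (Nat.lt_add_one n) B) hε0] with t h1 h2 h3 h4
  simp only [stageExp_eq_tiltAvg]
  have a1 := h1 (fun _ => 0) (fun _ => 1) (fun _ => by simp)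
  have a2 := h2 (fun _ => 0) (fun _ => 1) (fun _ => by simp)
  have a3 := fun l hl => h3 l hl (fun _ => 0) (fun _ => 1) (fun _ => by simp)
  have a4 := h4 (fun _ => 0) (fun _ => 1) (fun _ => by simp)
  simp only [mul_one, zero_add] at a1 a2 a3 a4
  have key := abs_siteAvg_le (k := j.1) (N := S.N t) fun I => abs_deriv_site (η := η) (μ := μ) (lam := lam)
    (S.x t) hf.measurable hd hD j c B hA I
  have e : ∀ (P Q T : (Fin j.1 → Fin (S.N t)) → ℝ) (U : ℕ → (Fin j.1 → Fin (S.N t)) → ℝ),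
      siteAvg j.1 (S.N t) (fun I => P I - Q I - (c : ℝ) * (∑ l ∈ range n, U l I - n * T I)) =
        siteAvg j.1 (S.N t) P - siteAvg j.1 (S.N t) Q -
          c * (∑ l ∈ range n, siteAvg j.1 (S.N t) (U l) - n * siteAvg j.1 (S.N t) T) := by
    intro P Q T U
    simp only [siteAvg, sum_sub_distrib, ← mul_sum, sub_div, mul_div_assoc, ← sum_div]
    rw [sum_comm]
  rw [e] at key
  have a5 := (abs_sum_le_sum_abs _ (range n)).trans (sum_le_card_nsmul _ _ _ a3)
  rw [sum_sub_distrib, card_range, nsmul_eq_mul] at a5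
  have hεe : ε' * (2 + |(c : ℝ)| * (2 * n + 1)) = ε := div_mul_cancel₀ _ (by positivity)
  have fin : ∀ X1 X2 X3 X4 Y1 Y2 Y3 Y4 W : ℝ, |X1 - Y1| ≤ ε' → |X2 - Y2| ≤ ε' →
      |X3 - Y3| ≤ n * ε' → |X4 - Y4| ≤ ε' → |Y1 - Y2 - (c : ℝ) * (Y3 - n * Y4)| ≤ W →
      |X1 - X2 - (c : ℝ) * (X3 - n * X4)| ≤ W + ε := by
    intro X1 X2 X3 X4 Y1 Y2 Y3 Y4 W b1 b2 b3 b4 bk
    have b4' : |(n : ℝ) * (X4 - Y4)| ≤ n * ε' := by
      rw [abs_mul, Nat.abs_cast]
      exact mul_le_mul_of_nonneg_left b4 (Nat.cast_nonneg n)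
    have b6 : |(c : ℝ) * (X3 - Y3 - n * (X4 - Y4))| ≤ |(c : ℝ)| * (n * ε' + n * ε') := by
      rw [abs_mul]
      exact mul_le_mul_of_nonneg_left ((abs_sub _ _).trans (add_le_add b3 b4')) (abs_nonneg _)
    obtain ⟨u1, v1⟩ := abs_le.1 b1
    obtain ⟨u2, v2⟩ := abs_le.1 b2
    obtain ⟨u6, v6⟩ := abs_le.1 b6
    obtain ⟨uk, vk⟩ := abs_le.1 bk
    have : 0 ≤ |(c : ℝ)| * ε' := by positivity
    rw [abs_le]
    constructor <;> nlinarith
  exact fin _ _ _ _ _ _ _ _ _ a1 a2 a5 a4 key

/-- A nonnegative observable dominated by the count of clauses tends to zero. -/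
lemma tendsto_of_density (S : Stages) {n : ℕ} {f : Cube → ℝ} (hf : Measurable f) {D : ℝ}
    (hD : ∀ ω, |f ω| ≤ D) (hf0 : ∀ ω, 0 ≤ f ω) (j : Spc) {C : ℝ} (hC : 0 ≤ C)
    (h : ∀ {M N : ℕ} (i : Fin M) (e : spcOf i = j),
      (∀ (m : ℕ) (ω : Dis K M N) (ρ : Fin m → Conf N) (A : Pat j.1), Below m A →
        R j A (stageCube ω ρ) =
          stageR i (A.image fun p => (p.1, Fin.cast (congrArg Sigma.fst e.symm) p.2)) ω ρ) →
      ∀ (ω : Dis K M N) (ρ : Fin n → Conf N), f (stageCube ω ρ) ≤ C * |density i ω.1 - 1|) :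
    Tendsto (fun t => stageExp lam μ η (S.N t) (S.x t) n f) atTop (𝓝 0) := by
  refine squeeze_zero' (Eventually.of_forall fun t => integral_nonneg fun ω =>
    sum_nonneg fun ρ _ => mul_nonneg (gw_nonneg _ ρ) (hf0 _)) ?_ (by simpa using S.tendsto_sqrt.const_mul C)
  filter_upwards [eventually_species j] with t hj
  obtain ⟨i, e, hi⟩ := exists_index (K := K) (N := S.N t) hj
  obtain ⟨hdi, hdb⟩ := integral_abs_density_sub_one (K := K) (lam := lam) (μ := μ) (N := S.N t) i
  have := isProbabilityMeasure_pp (markLaw (K := K) t (S.N t) lam μ)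
  have hdi' : Integrable (fun ω : Dis K t (S.N t) => C * |density i ω.1 - 1|)
      (disLaw t (S.N t) lam μ η) := (hdi.const_mul C).comp_fst _
  refine (integral_mono (integrable_gav (measurable_pertHam (S.x t))
    (fun ρ => hf.comp (measurable_stageCube ρ)) fun ω ρ => hD _) hdi' fun ω => ?_).trans ?_
  · exact (gav_mono _ fun ρ => h i e hi ω ρ).trans_eq (gav_const _ _)
  · rw [integral_const_mul, disLaw, integral_fun_fst (fun ω => |density i ω - 1|)]
    simp only [probReal_univ, one_smul]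
    exact mul_le_mul_of_nonneg_left hdb hC

/-- The overlap of no spins is one. -/
lemma tendsto_one (S : Stages) (j : Spc) :
    Tendsto (fun t => stageExp lam μ η (S.N t) (S.x t) 0 fun ω => |R j ∅ ω - 1|) atTop (𝓝 0) := by
  refine tendsto_of_density S ((measurable_coord j ∅).sub_const 1).abs (D := 2) (fun ω => ?_)
    (fun ω => abs_nonneg _) j zero_le_one fun {M N} i e hi ω ρ => ?_
  · rw [abs_abs]
    refine (abs_sub _ _).trans ?_
    have := abs_coord_le j ∅ ω
    rw [abs_one]; linarith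
  · rw [hi 0 ω ρ ∅ (by simp [Below]), image_empty, stageR_eq, one_mul]
    have hraw : rawR i ∅ ω.1 ρ = density i ω.1 := by simp [rawR, density, chiPat]
    rw [hraw]
    simpa using abs_clip_sub_le (density i ω.1) 1

/-- The quadratic form of the overlaps. -/
noncomputable def quad (j : Spc) (s : Finset (Pat j.1)) (c : Pat j.1 → ℝ) (ω : Cube) : ℝ :=
  ∑ A ∈ s, ∑ A' ∈ s, c A * c A' * R j (A ∆ A') ω

omit [IsProbabilityMeasure μ] [IsProbabilityMeasure η] in
lemma continuous_quad (j : Spc) (s : Finset (Pat j.1)) (c : Pat j.1 → ℝ) :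
    Continuous (quad j s c) :=
  continuous_finsetSum _ fun _ _ => continuous_finsetSum _ fun _ _ =>
    continuous_const.mul (continuous_coord _ _)

/-- The quadratic forms of the overlaps are nearly nonnegative. -/
lemma tendsto_psd (S : Stages) {n : ℕ} (j : Spc) (s : Finset (Pat j.1)) (c : Pat j.1 → ℝ)
    (hs : ∀ A ∈ s, Below n A) :
    Tendsto (fun t => stageExp lam μ η (S.N t) (S.x t) n fun ω => max 0 (-quad j s c ω))
      atTop (𝓝 0) := by
  set C := ∑ A ∈ s, ∑ A' ∈ s, |c A * c A'| with hC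
  have hQ : ∀ ω, |quad j s c ω| ≤ C := fun ω =>
    (abs_sum_le_sum_abs _ _).trans (sum_le_sum fun A _ => (abs_sum_le_sum_abs _ _).trans
      (sum_le_sum fun A' _ => by
        rw [abs_mul]; exact mul_le_of_le_one_right (abs_nonneg _) (abs_coord_le _ _ _)))
  refine tendsto_of_density S (measurable_const.max (continuous_quad j s c).measurable.neg)
    (D := C) (fun ω => ?_) (fun ω => le_max_left _ _) j
    (C := C) (by positivity) fun {M N} i e hi ω ρ => ?_
  · rw [abs_of_nonneg (le_max_left _ _)]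
    exact max_le ((abs_nonneg _).trans (hQ ω)) ((neg_le_abs _).trans (hQ ω))
  · subst e
    simp only [image_cast_self] at hi
    refine max_le (by positivity) ?_
    have hpos : 0 ≤ ∑ A ∈ s, ∑ A' ∈ s, c A * c A' * rawR i (A ∆ A') ω.1 ρ := by
      have : ∀ A A' : Pat (ar i), c A * c A' * rawR i (A ∆ A') ω.1 ρ =
          Cfg.sum (pick i fun g => (c A * chiPat A g.1 ρ) * (c A' * chiPat A' g.1 ρ)) ω.1 /
            sN N := fun A A' => by
        rw [rawR, ← mul_div_assoc, Cfg.sum, Cfg.sum, mul_sum]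
        refine congrArg (· / _) (sum_congr rfl fun a _ => ?_)
        rcases ω.1.2 a with cl | ⟨i', g⟩
        · simp
        · rcases eq_or_ne i' i with rfl | hne
          · simp [chiPat_symmDiff]; ring
          · simp [pick_of_ne hne]
      simp only [this, ← sum_div]
      refine div_nonneg ?_ (sN_nonneg N)
      simp only [Cfg.sum]
      rw [sum_congr rfl fun A _ => sum_comm, sum_comm]
      refine sum_nonneg fun a _ => ?_
      rcases ω.1.2 a with cl | ⟨i', g⟩
      · simp
      · rcases eq_or_ne i' i with rfl | hne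
        · simp only [pick_self, ← sum_mul_sum]; exact mul_self_nonneg _
        · simp [pick_of_ne hne]
    have hdiff : |quad (spcOf i) s c (stageCube ω ρ) -
        ∑ A ∈ s, ∑ A' ∈ s, c A * c A' * rawR i (A ∆ A') ω.1 ρ| ≤
          C * |density i ω.1 - 1| := by
      simp only [quad, ← sum_sub_distrib, hC, sum_mul]
      refine (abs_sum_le_sum_abs _ _).trans (sum_le_sum fun A hA => (abs_sum_le_sum_abs _ _).trans
        (sum_le_sum fun A' hA' => ?_))
      rw [← mul_sub, abs_mul, hi n ω ρ _ (below_symmDiff (hs A hA) (hs A' hA'))]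
      exact mul_le_mul_of_nonneg_left (abs_stageR_sub_rawR_le i _ ω ρ) (abs_nonneg _)
    linarith [(abs_le.1 hdiff).1]

omit [IsProbabilityMeasure μ] [IsProbabilityMeasure η] in
lemma indicator_expand {m n N : ℕ} (F : Fin m → Fin N) (ρ : Fin n → Conf N)
    (σ : Fin n → Fin m → Bool) :
    (if ∀ l i, ρ l (F i) = σ l i then (1 : ℝ) else 0) =
      ((2 : ℝ) ^ (n * m))⁻¹ * ∑ A : Finset (Fin n × Fin m), (∏ p ∈ A, spin (σ p.1 p.2)) *
        chiPat (A.image fun p => ((p.1 : ℕ), p.2)) F ρ := by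
  have e : ∀ A : Finset (Fin n × Fin m), (∏ p ∈ A, spin (σ p.1 p.2)) *
      chiPat (A.image fun p => ((p.1 : ℕ), p.2)) F ρ =
      ∏ p ∈ A, spin (σ p.1 p.2) * spin (ρ p.1 (F p.2)) := fun A => by
    rw [chiPat, prod_image fun a _ b _ h => by simpa [Prod.ext_iff, Fin.val_inj] using h,
      ← prod_mul_distrib]
    simp
  simp only [e, ← Finset.powerset_univ, ← prod_one_add]
  by_cases h : ∀ l i, ρ l (F i) = σ l i
  · rw [if_pos h]
    simp [h, spin_sq, one_add_one_eq_two]
  · rw [if_neg h]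
    push Not at h
    obtain ⟨l, i, hli⟩ := h
    rw [prod_eq_zero (mem_univ (l, i)), mul_zero]
    revert hli
    cases ρ l (F i) <;> cases σ l i <;> simp [spin]

/-- The law of free sites of a stage in terms of overlaps. -/
lemma tendsto_stageCol (S : Stages) (m n : ℕ) (σ : Fin n → Fin m → Bool) :
    Tendsto (fun t => stageCol lam μ η (S.N t) (S.x t) m n σ -
      ((2 : ℝ) ^ (n * m))⁻¹ * ∑ A : Finset (Fin n × Fin m), (∏ p ∈ A, spin (σ p.1 p.2)) *
        stageExp lam μ η (S.N t) (S.x t) n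
          (R (Spc.free m) (A.image fun p => ((p.1 : ℕ), p.2)))) atTop (𝓝 0) := by
  have e : ∀ t, stageCol lam μ η (S.N t) (S.x t) m n σ =
      ((2 : ℝ) ^ (n * m))⁻¹ * ∑ A : Finset (Fin n × Fin m), (∏ p ∈ A, spin (σ p.1 p.2)) *
        siteAvg m (S.N t) fun F => tiltAvg lam μ η (S.x t) (fun _ => 0) n
          fun _ ρ => chiPat (A.image fun p => ((p.1 : ℕ), p.2)) F ρ := fun t => by
    simp only [stageCol, avgN, gibbs_eq_gav, tiltAvg, add_zero, integral_pi_unif, indicator_expand,
      siteAvg, ← mul_sum, mul_div_assoc, gav_mul]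
    rw [integral_const_mul]
    refine congrArg _ ?_
    simp only [sum_div, mul_div_assoc, gav_sum]
    have hint : ∀ (A : Finset (Fin n × Fin m)) (F : Fin m → Fin (S.N t)) (c : ℝ),
        Integrable (fun ω : Dis K t (S.N t) => gav (pertHam (S.x t) ω) n fun ρ =>
          c * (chiPat (A.image fun p => ((p.1 : ℕ), p.2)) F ρ / (S.N t : ℝ) ^ m))
          (disLaw t (S.N t) lam μ η) := fun A F c =>
      integrable_gav (measurable_pertHam (S.x t)) (fun ρ => measurable_const)
        (D := |c| * (1 / (S.N t : ℝ) ^ m)) fun ω ρ => by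
          rw [abs_mul, abs_div, abs_chiPat, abs_of_nonneg (by positivity : (0:ℝ) ≤ (S.N t : ℝ) ^ m)]
    rw [integral_finsetSum _ fun F _ => integrable_finsetSum _ fun A _ => hint A F _]
    simp only [integral_finsetSum _ fun A _ => hint A _ _]
    rw [sum_comm]
    refine sum_congr rfl fun A _ => ?_
    rw [mul_sum]
    refine sum_congr rfl fun F _ => ?_
    simp only [gav_mul, div_eq_inv_mul, integral_const_mul]
  have hlim : ∀ A : Finset (Fin n × Fin m), Tendsto (fun t =>
      siteAvg m (S.N t) (fun F => tiltAvg lam μ η (S.x t) (fun _ => 0) n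
          fun _ ρ => chiPat (A.image fun p => ((p.1 : ℕ), p.2)) F ρ) -
        stageExp lam μ η (S.N t) (S.x t) n
          (R (Spc.free m) (A.image fun p => ((p.1 : ℕ), p.2)))) atTop (𝓝 0) := by
    intro A
    rw [Metric.tendsto_nhds]
    intro ε hε
    filter_upwards [eventually_step (η := η) (μ := μ) (lam := lam) S
      (continuous_const (y := (1 : ℝ))) (D := 1) (fun _ => by simp) (Spc.free m)
      (n := n) (A := A.image fun p => ((p.1 : ℕ), p.2)) (fun q hq => by
        obtain ⟨p, -, rfl⟩ := mem_image.1 hq; exact p.1.2) (ε := ε / 2) (half_pos hε)] with t ht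
    have := ht (fun _ => 0) (fun _ => 1) (fun _ => by simp)
    simp only [one_mul, tab, Rat.cast_zero, add_zero] at this
    rw [Real.dist_eq, sub_zero, stageExp_eq_tiltAvg, abs_sub_comm]
    exact this.trans_lt (half_lt_self hε)
  simp only [e, ← mul_sub, ← sum_sub_distrib]
  simpa using (tendsto_finsetSum univ fun A _ => (hlim A).const_mul
    (∏ p ∈ A, spin (σ p.1 p.2))).const_mul ((2 : ℝ) ^ (n * m))⁻¹

end Vale.Agent.P168.Exi
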