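import Vale.Agent.P168.Lim
import Vale.Agent.P168.Pois
import Mathlib.Probability.Distributions.Gaussian.Real

/-!
P168: the perturbed models: clauses of finitely many species with Gaussian and deterministic marks,
on the system common to `N` and `N + 1` sites.
-/

namespace Vale.Agent.P168

open MeasureTheory ProbabilityTheory Finset

/-- An enumeration of the species. -/
noncomputable def spcOf : ℕ → Spc :=
  haveI : Nonempty Spc := ⟨Spc.free 0⟩
  Classical.choose (exists_surjective_nat Spc)

lemma spcOf_surjective : Function.Surjective spcOf :=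
  haveI : Nonempty Spc := ⟨Spc.free 0⟩
  Classical.choose_spec (exists_surjective_nat Spc)

/-- The arity of a species. -/
noncomputable abbrev ar (i : ℕ) : ℕ := (spcOf i).1

/-- The mean number of perturbing clauses of a species. -/
noncomputable def sN (N : ℕ) : ℝ := (N : ℝ) ^ (4 / 5 : ℝ)

/-- The strength of the perturbing marks. -/
noncomputable def betaN (N : ℕ) : ℝ := (N : ℝ) ^ (-(1 / 10) : ℝ)

/-- The mean number of clauses common to `N` and `N + 1` sites. -/
noncomputable def mainMean (lam : ℝ) (K N : ℕ) : ℝ :=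
  lam * ((N : ℝ) + 1) * ((N : ℝ) / (N + 1)) ^ K

/-- A perturbing clause of the species `i`: sites and Gaussian marks. -/
abbrev PertMark (N i : ℕ) := (Fin (ar i) → Fin N) × (Finset (Fin (ar i)) → ℝ)

/-- A clause. -/
abbrev Mark (K M N : ℕ) := (Table K × (Fin K → Fin N)) ⊕ (Σ i : Fin M, PertMark N i)

/-- The intensity of clauses. -/
noncomputable def markLaw {K : ℕ} (M N : ℕ) (lam : ℝ) (μ : Measure (Table K)) :
    Measure (Mark K M N) :=
  ENNReal.ofReal (mainMean lam K N) •
      (μ.prod (Measure.pi fun _ : Fin K => unif N)).map Sum.inl +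
    ∑ i : Fin M, ENNReal.ofReal (sN N) •
      (((Measure.pi fun _ : Fin (ar i) => unif N).prod
        (Measure.pi fun _ : Finset (Fin (ar i)) => gaussianReal 0 1)).map
          fun g => (Sum.inr ⟨i, g⟩ : Mark K M N))

/-- Indices of the strengths: a character of a species, Gaussian or deterministic. -/
abbrev ParIdx (M : ℕ) := (Σ i : Fin M, Finset (Fin (ar i))) × Bool

/-- The strengths. -/
abbrev Par (M : ℕ) := ParIdx M → ℝ

/-- The law of the strengths. -/
noncomputable def boxLaw (M : ℕ) : Measure (Par M) :=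
  Measure.pi fun _ => (volume : Measure ℝ).restrict (Set.Icc 1 2)

/-- Configurations of spins. -/
abbrev Conf (N : ℕ) := Fin N → Bool

variable {K M N : ℕ}

/-- The potential of one clause. -/
noncomputable def markPot (x : Par M) : Mark K M N → Conf N → ℝ
  | Sum.inl cl, σ => cl.1 fun j => σ (cl.2 j)
  | Sum.inr ⟨i, I, g⟩, σ => ((spcOf i).2 (fun p => σ (I p)) : ℝ) +
      ∑ B, (x (⟨i, B⟩, false) * betaN N * g B + x (⟨i, B⟩, true) * betaN N ^ 2) *
        chi B fun p => σ (I p)

/-- The disorder: clauses and fields. -/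
abbrev Dis (K M N : ℕ) := Cfg (Mark K M N) × (Fin N → ℝ)

/-- The law of the disorder. -/
noncomputable def disLaw (M N : ℕ) (lam : ℝ) (μ : Measure (Table K)) (η : Measure ℝ) :
    Measure (Dis K M N) :=
  (pp (markLaw M N lam μ)).prod (Measure.pi fun _ : Fin N => η)

/-- The Hamiltonian. -/
noncomputable def pertHam (x : Par M) (ω : Dis K M N) (σ : Conf N) : ℝ :=
  Cfg.sum (fun c => markPot x c σ) ω.1 + ∑ i, ω.2 i * spin (σ i)

/-- The partition function. -/
noncomputable def pertZ (x : Par M) (ω : Dis K M N) : ℝ := ∑ σ, Real.exp (pertHam x ω σ)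

/-- A Gibbs average over `n` replicas. -/
noncomputable def gibbs (x : Par M) (ω : Dis K M N) (n : ℕ) (F : (Fin n → Conf N) → ℝ) : ℝ :=
  ∑ ρ : Fin n → Conf N, (∏ l, Real.exp (pertHam x ω (ρ l)) / pertZ x ω) * F ρ

/-- The disorder average of a Gibbs average. -/
noncomputable def avgN (lam : ℝ) (μ : Measure (Table K)) (η : Measure ℝ) (x : Par M) (n : ℕ)
    (F : Dis K M N → (Fin n → Conf N) → ℝ) : ℝ :=
  ∫ ω, gibbs x ω n (F ω) ∂disLaw M N lam μ η

/-- The product of the spins of a pattern. -/
def chiPat {k n : ℕ} (A : Pat k) (I : Fin k → Fin N) (ρ : Fin n → Conf N) : ℝ :=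
  ∏ p ∈ A, if h : p.1 < n then spin (ρ ⟨p.1, h⟩ (I p.2)) else 1

/-- A sum over the clauses of the species `i`. -/
noncomputable def speciesSum (i : Fin M) (φ : PertMark N i → ℝ) (ω : Dis K M N) : ℝ :=
  Cfg.sum (fun c => match c with
    | Sum.inl _ => 0
    | Sum.inr ⟨i', g⟩ => if h : i' = i then φ (h ▸ g) else 0) ω.1

/-- The overlap of a pattern in a species, clipped. -/
noncomputable def stageR {n : ℕ} (i : Fin M) (A : Pat (ar i)) (ω : Dis K M N)
    (ρ : Fin n → Conf N) : ℝ :=
  max (-1) (min 1 (speciesSum i (fun g => chiPat A g.1 ρ) ω / sN N))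

open Classical in
/-- The coordinates seen by `n` replicas in a stage; absent species read zero. -/
noncomputable def stageCube {n : ℕ} (ω : Dis K M N) (ρ : Fin n → Conf N) : Cube := fun a =>
  if h : (∃ i : Fin M, spcOf i = a.1) ∧ Below n a.2 then
    ⟨stageR h.1.choose (a.2.image fun p => (p.1, Fin.cast (congrArg Sigma.fst h.1.choose_spec.symm) p.2)) ω ρ,
      le_max_left _ _, max_le (by norm_num) (min_le_left _ _)⟩
  else ⟨0, by norm_num⟩

/-- Expectation of a function of the coordinates of `n` replicas. -/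
noncomputable def stageExp (lam : ℝ) (μ : Measure (Table K)) (η : Measure ℝ) (N : ℕ) (x : Par M)
    (n : ℕ) (f : Cube → ℝ) : ℝ :=
  avgN (N := N) lam μ η x n fun ω ρ => f (stageCube ω ρ)

/-- The law of the spins of `m` uniform sites under `n` replicas. -/
noncomputable def stageCol (lam : ℝ) (μ : Measure (Table K)) (η : Measure ℝ) (N : ℕ) (x : Par M) :
    ColLaw := fun m n σ =>
  avgN (N := N) lam μ η x n fun _ ρ =>
    ∫ F, (if (∀ l i, ρ l (F i) = σ l i) then (1 : ℝ) else 0) ∂Measure.pi fun _ : Fin m => unif N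

/-- The Gaussian field of a character, in units of its strength. -/
noncomputable def fieldH (i : Fin M) (B : Finset (Fin (ar i))) (ω : Dis K M N) (σ : Conf N) : ℝ :=
  speciesSum i (fun g => g.2 B * chi B fun p => σ (g.1 p)) ω / (betaN N * sN N)

/-- The deterministic field of a character, normalised. -/
noncomputable def fieldD (i : Fin M) (B : Finset (Fin (ar i))) (ω : Dis K M N) (σ : Conf N) : ℝ :=
  speciesSum i (fun g => chi B fun p => σ (g.1 p)) ω / sN N

/-- The fluctuation of a field. -/
noncomputable def fluct (lam : ℝ) (μ : Measure (Table K)) (η : Measure ℝ) (x : Par M)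
    (H : Dis K M N → Conf N → ℝ) : ℝ :=
  avgN lam μ η x 1 fun ω ρ => |H ω (ρ 0) - avgN lam μ η x 1 fun ω' ρ' => H ω' (ρ' 0)|

/-- The total fluctuation of the fields of all characters. -/
noncomputable def fieldErr (lam : ℝ) (μ : Measure (Table K)) (η : Measure ℝ) (N : ℕ) (x : Par M) :
    ℝ :=
  ∑ b : Σ i : Fin M, Finset (Fin (ar i)), (fluct (N := N) lam μ η x (fieldH b.1 b.2) +
    fluct (N := N) lam μ η x (fieldD b.1 b.2))

end Vale.Agent.P168
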