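import Vale.Agent.P168.Fin.Tilt

/-!
P168: measurability and symmetry of the perturbed models, and Mecke's equation for one species.
-/

namespace Vale.Agent.P168.Exi

open MeasureTheory ProbabilityTheory Finset

variable {K M N : ℕ}

instance instIsProbabilityMeasureUnif [NeZero N] : IsProbabilityMeasure (unif N) :=
  ⟨by
    simp [unif, Measure.smul_apply]
    exact ENNReal.inv_mul_cancel (by simp [NeZero.ne N]) (by simp)⟩

/-- The law of one perturbing clause of a species. -/
noncomputable abbrev pertLaw (N i : ℕ) : Measure (PertMark N i) :=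
  (Measure.pi fun _ : Fin (ar i) => unif N).prod
    (Measure.pi fun _ : Finset (Fin (ar i)) => gaussianReal 0 1)

lemma measurable_mark {β : Type} [MeasurableSpace β] {f : Mark K M N → β}
    (hl : Measurable fun c => f (Sum.inl c))
    (hr : ∀ i, Measurable fun g => f (Sum.inr ⟨i, g⟩)) : Measurable f :=
  measurable_fun_sum hl fun _ hs => MeasurableSpace.measurableSet_iInf.2 fun i => hr i hs

lemma measurable_inr (i : Fin M) :
    Measurable fun g : PertMark N i => (Sum.inr ⟨i, g⟩ : Mark K M N) :=
  _root_.measurable_inr.comp fun _ hs => MeasurableSpace.measurableSet_iInf.1 hs i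

lemma measurable_markPot (x : Par M) (σ : Conf N) :
    Measurable fun c : Mark K M N => markPot x c σ := by
  refine measurable_mark ?_ fun i => ?_
  · change Measurable fun c : Table K × (Fin K → Fin N) => c.1 fun j => σ (c.2 j)
    exact measurable_from_prod_countable_left fun I => measurable_pi_apply (fun j => σ (I j))
  · change Measurable fun g : PertMark N i => ((spcOf i).2 (fun p => σ (g.1 p)) : ℝ) +
      ∑ B, (x (⟨i, B⟩, false) * betaN N * g.2 B + x (⟨i, B⟩, true) * betaN N ^ 2) *
        chi B fun p => σ (g.1 p)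
    exact measurable_from_prod_countable_right fun I => by fun_prop

lemma measurable_pertHam (x : Par M) (σ : Conf N) :
    Measurable fun ω : Dis K M N => pertHam x ω σ :=
  ((measurable_cfgSum (measurable_markPot x σ)).comp measurable_fst).add
    (Finset.measurable_sum _ fun i _ => by fun_prop)

lemma measurable_gw {α : Type} [MeasurableSpace α] {H : α → Conf N → ℝ}
    (hH : ∀ σ, Measurable fun a => H a σ) {n : ℕ} (ρ : Fin n → Conf N) :
    Measurable fun a => gw (H a) ρ := by
  unfold gw; fun_prop

/-- The function of a mark that sees only one species. -/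
noncomputable def pick (i : Fin M) (φ : PertMark N i → ℝ) : Mark K M N → ℝ
  | Sum.inl _ => 0
  | Sum.inr ⟨i', g⟩ => if h : i' = i then φ (h ▸ g) else 0

lemma speciesSum_eq (i : Fin M) (φ : PertMark N i → ℝ) (ω : Dis K M N) :
    speciesSum i φ ω = Cfg.sum (pick i φ) ω.1 :=
  congrArg (fun f => Cfg.sum f ω.1) (funext fun c => by rcases c with c | ⟨i', g⟩ <;> rfl)

@[simp] lemma pick_inl (i : Fin M) (φ : PertMark N i → ℝ) (c : Table K × (Fin K → Fin N)) :
    pick i φ (Sum.inl c : Mark K M N) = 0 := rfl

@[simp] lemma pick_self (i : Fin M) (φ : PertMark N i → ℝ) (g : PertMark N i) :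
    pick (K := K) i φ (Sum.inr ⟨i, g⟩) = φ g := by
  simp [pick]

lemma pick_of_ne {i i' : Fin M} (h : i' ≠ i) (φ : PertMark N i → ℝ) (g : PertMark N i') :
    pick (K := K) i φ (Sum.inr ⟨i', g⟩) = 0 := by
  simp [pick, h]

lemma abs_pick_le {i : Fin M} {φ : PertMark N i → ℝ} {D : ℝ} (hD : 0 ≤ D) (h : ∀ g, |φ g| ≤ D)
    (c : Mark K M N) : |pick i φ c| ≤ D := by
  rcases c with c | ⟨i', g⟩
  · simpa
  · rcases eq_or_ne i' i with rfl | hne
    · simpa using h g
    · simpa [pick_of_ne hne] using hD

lemma measurable_pick_fun (i : Fin M) {φ : PertMark N i → ℝ} (hφ : Measurable φ) :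
    Measurable (pick (K := K) i φ) := by
  refine measurable_mark measurable_const fun i' => ?_
  rcases eq_or_ne i' i with rfl | hne
  · simpa using hφ
  · simp only [pick_of_ne hne]
    exact measurable_const

variable {lam : ℝ} {μ : Measure (Table K)} [IsProbabilityMeasure μ]

instance instIsFiniteMeasureMarkLaw [NeZero N] : IsFiniteMeasure (markLaw M N lam μ) := by
  unfold markLaw
  have h1 : IsFiniteMeasure (ENNReal.ofReal (mainMean lam K N) •
      (μ.prod (Measure.pi fun _ : Fin K => unif N)).map (Sum.inl (β := Σ i : Fin M, PertMark N i))) :=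
    Measure.smul_finite _ ENNReal.ofReal_ne_top
  have h2 : ∀ i : Fin M, IsFiniteMeasure (ENNReal.ofReal (sN N) • (pertLaw N i).map
      fun g => (Sum.inr ⟨i, g⟩ : Mark K M N)) := fun i => Measure.smul_finite _ ENNReal.ofReal_ne_top
  exact inferInstance

instance instIsProbabilityMeasureDisLaw [NeZero N] {η : Measure ℝ} [IsProbabilityMeasure η] :
    IsProbabilityMeasure (disLaw M N lam μ η) := by
  have := isProbabilityMeasure_pp (markLaw M N lam μ)
  unfold disLaw
  infer_instance

lemma sN_nonneg (N : ℕ) : 0 ≤ sN N := Real.rpow_nonneg (Nat.cast_nonneg _) _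

lemma integral_markLaw [NeZero N] {Φ : Mark K M N → ℝ} (hm : Measurable Φ) {D : ℝ}
    (hb : ∀ c, |Φ c| ≤ D) :
    ∫ c, Φ c ∂markLaw M N lam μ =
      (ENNReal.ofReal (mainMean lam K N)).toReal *
          ∫ cl, Φ (Sum.inl cl) ∂μ.prod (Measure.pi fun _ : Fin K => unif N) +
        ∑ i : Fin M, sN N * ∫ g, Φ (Sum.inr ⟨i, g⟩) ∂pertLaw N i := by
  unfold markLaw
  have hi : ∀ ν : Measure (Mark K M N), IsFiniteMeasure ν → Integrable Φ ν := fun ν _ =>
    Integrable.of_bound hm.aestronglyMeasurable D
      (Filter.Eventually.of_forall fun c => (Real.norm_eq_abs _).le.trans (hb c))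
  have h2 : ∀ i : Fin M, Integrable Φ (ENNReal.ofReal (sN N) • (pertLaw N i).map
      fun g => (Sum.inr ⟨i, g⟩ : Mark K M N)) := fun i =>
    hi _ (Measure.smul_finite _ ENNReal.ofReal_ne_top)
  rw [integral_add_measure (hi _ (Measure.smul_finite _ ENNReal.ofReal_ne_top))
      (integrable_finsetSum_measure.2 fun i _ => h2 i),
    integral_finsetSum_measure fun i _ => h2 i, integral_smul_measure,
    integral_map measurable_inl.aemeasurable hm.aestronglyMeasurable]
  refine congrArg₂ (· + ·) rfl (sum_congr rfl fun i _ => ?_)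
  rw [integral_smul_measure, integral_map (measurable_inr i).aemeasurable hm.aestronglyMeasurable,
    ENNReal.toReal_ofReal (sN_nonneg N)]
  rfl

/-- Mecke's equation for the clauses of one species. -/
lemma palm [NeZero N] (i : Fin M) {a : PertMark N i → ℝ} (ha : Measurable a)
    (hab : ∀ g, |a g| ≤ 1) {b : Cfg (Mark K M N) → ℝ} (hb : Measurable b) (hs : CfgSymm b) {D : ℝ}
    (hbb : ∀ ω, |b ω| ≤ D) :
    ∫ ω, Cfg.sum (pick i a) ω * b ω ∂pp (markLaw M N lam μ) =
      sN N * ∫ g, a g * ∫ ω, b (Cfg.cons (Sum.inr ⟨i, g⟩) ω) ∂pp (markLaw M N lam μ)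
        ∂pertLaw N i := by
  set ν := markLaw (K := K) M N lam μ
  have hD : 0 ≤ D := (abs_nonneg _).trans (hbb Cfg.empty)
  have := isProbabilityMeasure_pp ν
  have h := mecke ν (G := fun c ω => pick i a c * b ω) (φ := fun _ => D)
    (((measurable_pick_fun i ha).comp measurable_fst).mul (hb.comp measurable_snd))
    (fun c n e v => by simp only [hs n e v]) (integrable_const D) fun c ω => by
      rw [abs_mul]
      exact (mul_le_mul (abs_pick_le zero_le_one hab c) (hbb ω) (abs_nonneg _) zero_le_one).trans
        (one_mul D).le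
  have e : (fun ω : Cfg (Mark K M N) => Cfg.sum (pick i a) ω * b ω) =
      fun ω => ∑ k, pick i a (ω.2 k) * b ω := funext fun ω => by simp only [Cfg.sum, sum_mul]
  rw [e, h]
  simp only [integral_const_mul]
  have hm : Measurable fun c => ∫ ω, b (Cfg.cons c ω) ∂pp ν :=
    ((hb.comp measurable_cons).stronglyMeasurable.integral_prod_right').measurable
  rw [integral_markLaw (Φ := fun c => pick i a c * ∫ ω, b (Cfg.cons c ω) ∂pp ν)
    ((measurable_pick_fun i ha).mul hm) (D := D) fun c => ?_]
  · simp only [pick_inl, zero_mul, integral_zero, mul_zero, zero_add]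
    rw [sum_eq_single i (fun i' _ hne => by simp [pick_of_ne hne]) (by simp)]
    simp only [pick_self]
  · rw [abs_mul]
    refine (mul_le_mul (abs_pick_le zero_le_one hab c) ?_ (abs_nonneg _) zero_le_one).trans
      (one_mul D).le
    simpa using norm_integral_le_of_norm_le_const (μ := pp ν) (C := D)
      (f := fun ω => b (Cfg.cons c ω))
      (Filter.Eventually.of_forall fun ω => (Real.norm_eq_abs _).le.trans (hbb _))

lemma pertHam_symm (x : Par M) (h : Fin N → ℝ) (n : ℕ) (e : Equiv.Perm (Fin n))
    (v : Fin n → Mark K M N) : pertHam x (⟨n, v ∘ e⟩, h) = pertHam x (⟨n, v⟩, h) := by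
  funext σ
  simp only [pertHam, cfgSymm_sum (fun c => markPot x c σ) n e v]

lemma pertHam_cons (x : Par M) (c : Mark K M N) (ω : Cfg (Mark K M N)) (h : Fin N → ℝ) :
    pertHam x (Cfg.cons c ω, h) = fun σ => pertHam x (ω, h) σ + markPot x c σ := by
  funext σ
  simp only [pertHam, Cfg.sum_cons]
  ring

end Vale.Agent.P168.Exi
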