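import Vale.Agent.P168.Fin.Palm

/-!
P168: the coordinates of a stage: patterns, symmetry, measurability and dependence on replicas.
-/

namespace Vale.Agent.P168.Exi

open MeasureTheory Finset
open scoped symmDiff

variable {K M N : ℕ}

/-! ### Patterns -/

lemma spin_sq (s : Bool) : spin s * spin s = 1 := by cases s <;> simp [spin]

lemma abs_spin (s : Bool) : |spin s| = 1 := by cases s <;> simp [spin]

lemma prod_symmDiff {α : Type} [DecidableEq α] (A B : Finset α) {f : α → ℝ}
    (hf : ∀ a, f a * f a = 1) : ∏ a ∈ A ∆ B, f a = (∏ a ∈ A, f a) * ∏ a ∈ B, f a := by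
  rw [symmDiff_def, Finset.sup_eq_union,
    prod_union (disjoint_sdiff_sdiff : Disjoint (A \ B) (B \ A))]
  have hA := prod_sdiff (inter_subset_left : A ∩ B ⊆ A) (f := f)
  have hB := prod_sdiff (inter_subset_right : A ∩ B ⊆ B) (f := f)
  rw [sdiff_inter_self_left] at hA
  rw [show B \ (A ∩ B) = B \ A by ext; simp +contextual] at hB
  rw [← hA, ← hB]
  have : (∏ a ∈ A ∩ B, f a) * ∏ a ∈ A ∩ B, f a = 1 := by
    rw [← prod_mul_distrib]; simp [hf]
  linear_combination (norm := ring_nf) -(∏ a ∈ A \ B, f a) * (∏ a ∈ B \ A, f a) * this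

lemma abs_chiPat {k n : ℕ} (A : Pat k) (I : Fin k → Fin N) (ρ : Fin n → Conf N) :
    |chiPat A I ρ| = 1 := by
  rw [chiPat, abs_prod, prod_eq_one]
  intro p _
  split <;> simp [abs_spin]

lemma chiPat_symmDiff {k n : ℕ} (A B : Pat k) (I : Fin k → Fin N) (ρ : Fin n → Conf N) :
    chiPat (A ∆ B) I ρ = chiPat A I ρ * chiPat B I ρ :=
  prod_symmDiff A B fun p => by split <;> simp [spin_sq]

lemma chiPat_single {k n : ℕ} {l : ℕ} (hl : l < n) (B : Finset (Fin k)) (I : Fin k → Fin N)
    (ρ : Fin n → Conf N) : chiPat (single l B) I ρ = chi B fun p => ρ ⟨l, hl⟩ (I p) := by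
  simp [chiPat, single, chi, hl]

lemma abs_chi {k : ℕ} (B : Finset (Fin k)) (σ : Fin k → Bool) : |chi B σ| = 1 := by
  simp [chi, abs_prod, abs_spin]

lemma chiQ_cast {k : ℕ} (B : Finset (Fin k)) (σ : Fin k → Bool) :
    (chiQ B σ : ℝ) = chi B σ := by
  rw [chiQ, chi, Rat.cast_prod]
  exact prod_congr rfl fun i _ => by cases σ i <;> simp [spin]

lemma chiPat_comp {k n m : ℕ} {A : Pat k} {e : ℕ → ℕ} (he : Set.InjOn (fun p : ℕ × Fin k => (e p.1, p.2)) ↑A)
    (g : Fin n → Fin m) (hA : Below n A) (heg : ∀ l : Fin n, e l = g l) (I : Fin k → Fin N)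
    (ρ : Fin m → Conf N) :
    chiPat (A.image fun p => (e p.1, p.2)) I ρ = chiPat A I (ρ ∘ g) := by
  rw [chiPat, prod_image he]
  refine prod_congr rfl fun p hp => ?_
  have := heg ⟨p.1, hA p hp⟩
  simp only at this
  simp only [this, dif_pos (hA p hp), dif_pos (g ⟨p.1, hA p hp⟩).2]
  rfl

lemma below_symmDiff {k n : ℕ} {A B : Pat k} (hA : Below n A) (hB : Below n B) :
    Below n (A ∆ B) := fun p hp => by
  rcases mem_symmDiff.1 hp with h | h
  exacts [hA p h.1, hB p h.1]

lemma below_single {k n l : ℕ} (hl : l < n) (B : Finset (Fin k)) : Below n (single l B) :=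
  fun p hp => by simp only [single, mem_product, mem_singleton] at hp; omega

lemma below_mono {k n m : ℕ} {A : Pat k} (hA : Below n A) (h : n ≤ m) : Below m A :=
  fun p hp => (hA p hp).trans_le h

lemma below_sup {k : ℕ} (A : Pat k) : Below (A.sup Prod.fst + 1) A :=
  fun p hp => Nat.lt_succ_of_le (le_sup (f := Prod.fst) hp)

/-! ### Overlaps of a stage -/

/-- The number of clauses of a species, as a fraction of its mean. -/
noncomputable def density (i : Fin M) (ω : Cfg (Mark K M N)) : ℝ :=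
  Cfg.sum (pick i fun _ => 1) ω / sN N

/-- The overlap of a pattern in a species, not clipped. -/
noncomputable def rawR {n : ℕ} (i : Fin M) (A : Pat (ar i)) (ω : Cfg (Mark K M N))
    (ρ : Fin n → Conf N) : ℝ :=
  Cfg.sum (pick i fun g => chiPat A g.1 ρ) ω / sN N

lemma stageR_eq {n : ℕ} (i : Fin M) (A : Pat (ar i)) (ω : Dis K M N) (ρ : Fin n → Conf N) :
    stageR i A ω ρ = max (-1) (min 1 (rawR i A ω.1 ρ)) := by
  rw [stageR, rawR, speciesSum_eq]

lemma abs_stageR_le {n : ℕ} (i : Fin M) (A : Pat (ar i)) (ω : Dis K M N) (ρ : Fin n → Conf N) :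
    |stageR i A ω ρ| ≤ 1 :=
  abs_le.2 ⟨le_max_left _ _, max_le (by norm_num) (min_le_left _ _)⟩

lemma abs_clip_sub_le (a b : ℝ) :
    |max (-1) (min 1 a) - max (-1) (min 1 b)| ≤ |a - b| :=
  (abs_max_sub_max_le_max (-1) (min 1 a) (-1) (min 1 b)).trans (max_le (by simp)
    ((abs_min_sub_min_le_max 1 a 1 b).trans (max_le (by simp) le_rfl)))

lemma abs_clip_sub_self_le {a c : ℝ} (h : |a| ≤ c) : |max (-1) (min 1 a) - a| ≤ |c - 1| := by
  obtain ⟨h1, h2⟩ := abs_le.1 h
  rcases le_total a (-1) with h3 | h3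
  · rw [min_eq_right (by linarith), max_eq_left h3, abs_of_nonneg (by linarith)]
    exact le_trans (by linarith) (le_abs_self _)
  rcases le_total a 1 with h4 | h4
  · rw [min_eq_right h4, max_eq_right h3, sub_self, abs_zero]; exact abs_nonneg _
  · rw [min_eq_left h4, max_eq_right (by norm_num), abs_of_nonpos (by linarith)]
    exact le_trans (by linarith) (le_abs_self _)

lemma abs_rawR_le {n : ℕ} (i : Fin M) (A : Pat (ar i)) (ω : Cfg (Mark K M N))
    (ρ : Fin n → Conf N) : |rawR i A ω ρ| ≤ density i ω := by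
  rw [rawR, density, abs_div, abs_of_nonneg (sN_nonneg N)]
  refine div_le_div_of_nonneg_right ((abs_sum_le_sum_abs _ _).trans ?_) (sN_nonneg N)
  refine sum_le_sum fun a _ => ?_
  rcases ω.2 a with c | ⟨i', g⟩
  · simp
  · rcases eq_or_ne i' i with rfl | hne
    · simp [abs_chiPat]
    · simp [pick_of_ne hne]

lemma abs_stageR_sub_rawR_le {n : ℕ} (i : Fin M) (A : Pat (ar i)) (ω : Dis K M N)
    (ρ : Fin n → Conf N) : |stageR i A ω ρ - rawR i A ω.1 ρ| ≤ |density i ω.1 - 1| := by
  rw [stageR_eq]; exact abs_clip_sub_self_le (abs_rawR_le i A ω.1 ρ)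

lemma abs_stageR_cons_le {n : ℕ} (i : Fin M) (A : Pat (ar i)) (c : Mark K M N)
    (ω : Cfg (Mark K M N)) (h : Fin N → ℝ) (ρ : Fin n → Conf N) :
    |stageR i A (Cfg.cons c ω, h) ρ - stageR i A (ω, h) ρ| ≤ (sN N)⁻¹ := by
  rw [stageR_eq, stageR_eq]
  refine (abs_clip_sub_le _ _).trans ?_
  simp only [rawR, Cfg.sum_cons, add_div, add_sub_cancel_right, abs_div,
    abs_of_nonneg (sN_nonneg N)]
  rw [div_eq_mul_inv]
  exact mul_le_of_le_one_left (inv_nonneg.2 (sN_nonneg N))
    (abs_pick_le zero_le_one (fun g => (abs_chiPat A g.1 ρ).le) c)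

open Classical in
/-- A coordinate of a stage is the overlap in one fixed species. -/
lemma exists_index {j : Spc} (hj : ∃ i : Fin M, spcOf i = j) :
    ∃ (i : Fin M) (e : spcOf i = j), ∀ (n : ℕ) (ω : Dis K M N) (ρ : Fin n → Conf N) (A : Pat j.1),
      Below n A → R j A (stageCube ω ρ) =
        stageR i (A.image fun p => (p.1, Fin.cast (congrArg Sigma.fst e.symm) p.2)) ω ρ :=
  ⟨hj.choose, hj.choose_spec, fun n ω ρ A hA => by simp [R, stageCube, hj, hA]⟩

lemma image_cast_self {k : ℕ} (A : Pat k) (h : k = k) :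
    (A.image fun p => (p.1, Fin.cast h p.2)) = A := by simp

lemma stageCube_symm {n : ℕ} (h : Fin N → ℝ) (m : ℕ) (e : Equiv.Perm (Fin m))
    (v : Fin m → Mark K M N) (ρ : Fin n → Conf N) :
    stageCube (⟨m, v ∘ e⟩, h) ρ = stageCube (⟨m, v⟩, h) ρ := by
  funext a
  apply Subtype.ext
  unfold stageCube
  split
  · next h' =>
    simp only [stageR_eq, rawR, cfgSymm_sum _ m e v]
  · rfl

lemma stageCube_comp {n m : ℕ} (g : Fin n → Fin m) {e : ℕ → ℕ}
    (he : Function.Injective e) (heg : ∀ l : Fin n, e l = g l) (ω : Dis K M N)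
    (ρ : Fin m → Conf N) (j : Spc) (A : Pat j.1) (hA : Below n A) :
    R j (A.image fun p => (e p.1, p.2)) (stageCube ω ρ) = R j A (stageCube ω (ρ ∘ g)) := by
  have hA' : Below m (A.image fun p => (e p.1, p.2)) := fun q hq => by
    obtain ⟨p, hp, rfl⟩ := mem_image.1 hq
    have := heg ⟨p.1, hA p hp⟩
    simp only at this
    simp only [this]; exact (g _).2
  by_cases hj : ∃ i : Fin M, spcOf i = j
  · obtain ⟨i, rfl, hi⟩ := exists_index (K := K) (N := N) hj
    rw [hi m ω ρ _ hA', hi n ω _ _ hA, image_cast_self, image_cast_self, stageR_eq, stageR_eq]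
    congr 2
    simp only [rawR]
    congr 2
    congr 1
    funext q
    exact chiPat_comp (fun p _ q' _ h => by
      simp only [Prod.mk.injEq] at h; exact Prod.ext (he h.1) h.2) g hA heg q.1 ρ
  · simp [R, stageCube, hj]

lemma measurable_stageR {n : ℕ} (i : Fin M) (A : Pat (ar i)) (ρ : Fin n → Conf N) :
    Measurable fun ω : Dis K M N => stageR i A ω ρ := by
  simp only [stageR_eq, rawR]
  have : Measurable fun g : PertMark N i => chiPat A g.1 ρ :=
    (measurable_of_finite fun I => chiPat A I ρ).comp measurable_fst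
  exact measurable_const.max (measurable_const.min
    (((measurable_cfgSum (measurable_pick_fun i this)).comp measurable_fst).div_const _))

lemma measurable_stageCube {n : ℕ} (ρ : Fin n → Conf N) :
    Measurable fun ω : Dis K M N => stageCube ω ρ := by
  refine measurable_pi_lambda _ fun a => ?_
  unfold stageCube
  split
  · exact (measurable_stageR _ _ ρ).subtype_mk
  · exact measurable_const

/-- A function of the first `n` replicas reads only their spins. -/
lemma depBelow_stage {n m : ℕ} (hnm : n ≤ m) {f : Cube → ℝ} (hf : DepBelow n f) (ω : Dis K M N)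
    (ρ : Fin m → Conf N) :
    f (stageCube ω ρ) = f (stageCube ω (ρ ∘ Fin.castLE hnm)) :=
  hf _ _ fun j A hA => by
    simpa using stageCube_comp (Fin.castLE hnm) Function.injective_id (fun l => rfl) ω ρ j A hA

lemma chiPat_init {k n : ℕ} {A : Pat k} (hA : Below n A) (I : Fin k → Fin N)
    (ρ : Fin (n + 1) → Conf N) : chiPat A I ρ = chiPat A I (Fin.init ρ) := by
  rw [show Fin.init ρ = ρ ∘ Fin.castSucc from rfl]
  simpa using chiPat_comp (e := id) (Set.injOn_of_injective fun a b h => by simpa using h)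
    Fin.castSucc hA (fun l => rfl) I ρ

end Vale.Agent.P168.Exi
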