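import Vale.Agent.P168.Fin.Stage
import Mathlib.Analysis.SpecialFunctions.Pow.Asymptotics

/-!
P168: one clause of a species pulled out of its overlap.
-/

namespace Vale.Agent.P168.Exi

open MeasureTheory ProbabilityTheory Finset

variable {K M N : ℕ} {lam : ℝ} {μ : Measure (Table K)} {η : Measure ℝ}
  [IsProbabilityMeasure μ] [IsProbabilityMeasure η]

/-- The potential of a clause of a species without its marks. -/
noncomputable def tab (j : Spc) (I : Fin j.1 → Fin N) (σ : Conf N) : ℝ :=
  (j.2 fun p => σ (I p) : ℝ)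

/-- The average over the sites of a clause. -/
noncomputable def siteAvg (k N : ℕ) (φ : (Fin k → Fin N) → ℝ) : ℝ := (∑ I, φ I) / (N : ℝ) ^ k

/-- The average of a function of replicas in a model with one more fixed potential. -/
noncomputable def tiltAvg (lam : ℝ) (μ : Measure (Table K)) (η : Measure ℝ) (x : Par M)
    (u : Conf N → ℝ) (n : ℕ) (F : Dis K M N → (Fin n → Conf N) → ℝ) : ℝ :=
  ∫ ω, gav (fun σ => pertHam x ω σ + u σ) n (F ω) ∂disLaw M N lam μ η

omit [IsProbabilityMeasure μ] [IsProbabilityMeasure η] in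
lemma stageExp_eq_tiltAvg (x : Par M) (n : ℕ) (f : Cube → ℝ) :
    stageExp lam μ η N x n f =
      tiltAvg (N := N) lam μ η x (fun _ => 0) n fun ω ρ => f (stageCube ω ρ) := by
  simp [stageExp, avgN, tiltAvg, gibbs_eq_gav]

/-- The mean absolute value of a standard Gaussian. -/
noncomputable def gaussAbs : ℝ := ∫ t, |t| ∂gaussianReal 0 1

lemma integrable_abs_gauss : Integrable (fun t : ℝ => |t|) (gaussianReal 0 1) :=
  ((memLp_id_gaussianReal 1).integrable (by norm_num)).abs

/-- The cost of the marks of one clause. -/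
noncomputable def tiltC (k : ℕ) : ℝ := 2 * 2 ^ k * (gaussAbs + 1)

lemma gaussAbs_nonneg : 0 ≤ gaussAbs := integral_nonneg fun _ => abs_nonneg _

lemma tiltC_nonneg (k : ℕ) : 0 ≤ tiltC k := by
  have := gaussAbs_nonneg; unfold tiltC; positivity

lemma betaN_nonneg (N : ℕ) : 0 ≤ betaN N := Real.rpow_nonneg (Nat.cast_nonneg _) _

lemma betaN_le_one [NeZero N] : betaN N ≤ 1 :=
  Real.rpow_le_one_of_one_le_of_nonpos (by exact_mod_cast NeZero.one_le) (by norm_num)

lemma sN_pos [NeZero N] : 0 < sN N :=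
  Real.rpow_pos_of_pos (by exact_mod_cast NeZero.pos N) _

/-- The size of the marks of a clause. -/
noncomputable def markSize (i : ℕ) (g : PertMark N i) : ℝ :=
  ∑ B, 2 * (betaN N * |g.2 B| + betaN N ^ 2)

lemma integral_pi_unif [NeZero N] {k : ℕ} (φ : (Fin k → Fin N) → ℝ) :
    ∫ I, φ I ∂Measure.pi (fun _ : Fin k => unif N) = siteAvg k N φ := by
  rw [integral_fintype (Integrable.of_finite)]
  have e : ∀ I : Fin k → Fin N,
      (Measure.pi fun _ : Fin k => unif N).real {I} = ((N : ℝ)⁻¹) ^ k := fun I => by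
    rw [Measure.real, ← Set.univ_pi_singleton, Measure.pi_pi]
    simp [unif, ENNReal.toReal_inv]
  simp only [e, smul_eq_mul, ← mul_sum, siteAvg, inv_pow, div_eq_inv_mul]

lemma integral_pertLaw_fst [NeZero N] {i : ℕ} (φ : (Fin (ar i) → Fin N) → ℝ) :
    ∫ g, φ g.1 ∂pertLaw N i = siteAvg (ar i) N φ := by
  rw [integral_fun_fst, probReal_univ, one_smul, integral_pi_unif]

lemma integral_markSize_le [NeZero N] (i : ℕ) :
    Integrable (markSize (N := N) i) (pertLaw N i) ∧
      ∫ g, markSize i g ∂pertLaw N i ≤ tiltC (ar i) * betaN N := by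
  have h1 : ∀ B : Finset (Fin (ar i)),
      Integrable (fun g : PertMark N i => |g.2 B|) (pertLaw N i) := fun B =>
    (((measurePreserving_eval (fun _ : Finset (Fin (ar i)) => gaussianReal 0 1) B).comp
      measurePreserving_snd).integrable_comp measurable_abs.aestronglyMeasurable).2
      integrable_abs_gauss
  have h2 : ∀ B : Finset (Fin (ar i)), ∫ g, |g.2 B| ∂pertLaw N i = gaussAbs := fun B => by
    rw [integral_fun_snd (fun v : Finset (Fin (ar i)) → ℝ => |v B|)]
    simp only [probReal_univ, one_smul]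
    exact integral_comp_eval (μ := fun _ : Finset (Fin (ar i)) => gaussianReal 0 1)
      (f := fun t : ℝ => |t|) (i := B) measurable_abs.aestronglyMeasurable
  have h3 : ∀ B : Finset (Fin (ar i)),
      Integrable (fun g : PertMark N i => 2 * (betaN N * |g.2 B| + betaN N ^ 2)) (pertLaw N i) :=
    fun B => (((h1 B).const_mul _).add (integrable_const _)).const_mul 2
  refine ⟨integrable_finsetSum _ fun B _ => h3 B, ?_⟩
  unfold markSize
  rw [integral_finsetSum _ fun B _ => h3 B]
  simp only [integral_const_mul, integral_add ((h1 _).const_mul _) (integrable_const _), h2,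
    integral_const, probReal_univ, one_smul, sum_const, card_univ, Fintype.card_finset,
    Fintype.card_fin, nsmul_eq_mul]
  have hb := betaN_le_one (N := N)
  have h0 := betaN_nonneg N
  have hb2 : betaN N ^ 2 ≤ betaN N := by nlinarith
  have : (0 : ℝ) ≤ 2 ^ (ar i) := by positivity
  push_cast
  unfold tiltC
  nlinarith

lemma abs_markPot_sub_tab_le {x : Par M} (hx : ∀ b, x b ∈ Set.Icc (1 : ℝ) 2) (i : Fin M)
    (g : PertMark N i) (σ : Conf N) :
    |markPot (K := K) x (Sum.inr ⟨i, g⟩) σ - tab (spcOf i) g.1 σ| ≤ markSize i g := by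
  obtain ⟨I, v⟩ := g
  simp only [markPot, tab, markSize, add_sub_cancel_left]
  refine (abs_sum_le_sum_abs _ _).trans (sum_le_sum fun B _ => ?_)
  rw [abs_mul, abs_chi, mul_one]
  refine (abs_add_le _ _).trans ?_
  have h0 := betaN_nonneg N
  rw [abs_mul, abs_mul, abs_mul, abs_pow, abs_of_nonneg h0,
    abs_of_nonneg (by linarith [(hx (⟨i, B⟩, false)).1] : 0 ≤ x (⟨i, B⟩, false)),
    abs_of_nonneg (by linarith [(hx (⟨i, B⟩, true)).1] : 0 ≤ x (⟨i, B⟩, true))]
  have := mul_le_mul_of_nonneg_right (hx (⟨i, B⟩, false)).2 (mul_nonneg h0 (abs_nonneg (v B)))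
  have := mul_le_mul_of_nonneg_right (hx (⟨i, B⟩, true)).2 (sq_nonneg (betaN N))
  nlinarith

lemma measurable_density (i : Fin M) : Measurable (density (K := K) (N := N) i) :=
  (measurable_cfgSum (measurable_pick_fun i measurable_const)).div_const _

lemma integral_abs_density_sub_one [NeZero N] (i : Fin M) :
    Integrable (fun ω : Cfg (Mark K M N) => |density i ω - 1|) (pp (markLaw M N lam μ)) ∧
      ∫ ω, |density i ω - 1| ∂pp (markLaw M N lam μ) ≤ (Real.sqrt (sN N))⁻¹ := by
  set ν := markLaw (K := K) M N lam μ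
  have := isProbabilityMeasure_pp ν
  have hm : Measurable (pick (K := K) (N := N) i fun _ => (1 : ℝ)) :=
    measurable_pick_fun i measurable_const
  have hint : ∀ p : ℕ, Integrable (fun c => pick (K := K) (N := N) i (fun _ => (1 : ℝ)) c ^ p) ν :=
    fun p => Integrable.of_bound (hm.pow_const p).aestronglyMeasurable 1
      (Filter.Eventually.of_forall fun c => by
        rw [Real.norm_eq_abs, abs_pow]
        exact pow_le_one₀ (abs_nonneg _) (abs_pick_le zero_le_one (fun _ => by simp) c))
  have hval : ∀ p : ℕ, p ≠ 0 →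
      ∫ c, pick (K := K) (N := N) i (fun _ => (1 : ℝ)) c ^ p ∂ν = sN N := by
    intro p hp
    rw [integral_markLaw (Φ := fun c => pick (K := K) (N := N) i (fun _ => (1 : ℝ)) c ^ p)
      (hm.pow_const p) (D := 1) fun c => by
      rw [abs_pow]; exact pow_le_one₀ (abs_nonneg _) (abs_pick_le zero_le_one (fun _ => by simp) c)]
    simp only [pick_inl, zero_pow hp, integral_zero, mul_zero, zero_add]
    rw [sum_eq_single i (fun i' _ hne => by simp [pick_of_ne hne, zero_pow hp]) (by simp)]
    simp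
  have hint1 : Integrable (pick (K := K) (N := N) i fun _ => (1 : ℝ)) ν := by simpa using hint 1
  have hincr : CfgIncr (Cfg.sum (pick (K := K) (N := N) i fun _ => (1 : ℝ)))
      (pick i fun _ => 1) := fun c ω => by
    rw [Cfg.sum_cons, add_sub_cancel_right, abs_of_nonneg]
    rcases c with c | ⟨i', g⟩
    · simp
    · rcases eq_or_ne i' i with rfl | hne <;> simp [*, pick_of_ne]
  have h := fluct_pp ν (measurable_cfgSum hm) (cfgSymm_sum _) hint1 (hint 2) hincr
  have hv1 := hval 1 one_ne_zero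
  simp only [pow_one] at hv1
  rw [(integral_sum ν hint1).2, hv1, hval 2 two_ne_zero] at h
  have hs := sN_pos (N := N)
  have e : ∀ ω : Cfg (Mark K M N), |density i ω - 1| =
      |Cfg.sum (pick i fun _ => (1 : ℝ)) ω - sN N| / sN N := fun ω => by
    rw [density, div_sub_one hs.ne', abs_div, abs_of_pos hs]
  simp only [e, integral_div]
  refine ⟨((((integral_sum ν hint1).1.sub (integrable_const (sN N))).abs).div_const _), ?_⟩
  refine (div_le_div_of_nonneg_right h hs.le).trans_eq ?_
  rw [Real.sqrt_div_self]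

/-- The error of pulling out one clause. -/
noncomputable def stepErr (k n N : ℕ) : ℝ :=
  (Real.sqrt (sN N))⁻¹ + 2 * n * tiltC k * betaN N

lemma measurable_gav {α : Type} [MeasurableSpace α] {H : α → Conf N → ℝ}
    (hH : ∀ σ, Measurable fun a => H a σ) {n : ℕ} {F : α → (Fin n → Conf N) → ℝ}
    (hF : ∀ ρ, Measurable fun a => F a ρ) : Measurable fun a => gav (H a) n (F a) :=
  Finset.measurable_sum _ fun ρ _ => (measurable_gw hH ρ).mul (hF ρ)

lemma integrable_gav {α : Type} [MeasurableSpace α] {P : Measure α} [IsFiniteMeasure P]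
    {H : α → Conf N → ℝ} (hH : ∀ σ, Measurable fun a => H a σ) {n : ℕ}
    {F : α → (Fin n → Conf N) → ℝ} (hF : ∀ ρ, Measurable fun a => F a ρ) {D : ℝ}
    (hb : ∀ a ρ, |F a ρ| ≤ D) : Integrable (fun a => gav (H a) n (F a)) P :=
  Integrable.of_bound (measurable_gav hH hF).aestronglyMeasurable D
    (Filter.Eventually.of_forall fun a => (Real.norm_eq_abs _).le.trans (abs_gav_le _ (hb a)))

lemma abs_gav_sub_gav_le (H : Conf N → ℝ) {n : ℕ} {F G : (Fin n → Conf N) → ℝ} {D : ℝ}
    (h : ∀ ρ, |F ρ - G ρ| ≤ D) : |gav H n F - gav H n G| ≤ D := by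
  rw [← gav_sub]; exact abs_gav_le _ h

/-- Pulling out one clause, in a fixed species. -/
lemma step_index [NeZero N] (lam : ℝ) {x : Par M} (hx : ∀ b, x b ∈ Set.Icc (1 : ℝ) 2)
    (u : Conf N → ℝ) {n : ℕ} {F : Cube → ℝ} (hFm : Measurable F) {D : ℝ} (hD : ∀ ω, |F ω| ≤ D)
    {ε : ℝ} (hε : ∀ (c : Mark K M N) ω h (ρ : Fin n → Conf N),
      |F (stageCube (Cfg.cons c ω, h) ρ) - F (stageCube (ω, h) ρ)| ≤ ε)
    {w : (Fin n → Conf N) → ℝ} (hw : ∀ ρ, |w ρ| ≤ 1) (i : Fin M) (A : Pat (ar i)) :
    |tiltAvg lam μ η x u n (fun ω ρ => F (stageCube ω ρ) * w ρ * stageR i A ω ρ) -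
        siteAvg (ar i) N fun I => tiltAvg lam μ η x (fun σ => u σ + tab (spcOf i) I σ) n
          fun ω ρ => F (stageCube ω ρ) * w ρ * chiPat A I ρ| ≤
      ε + D * stepErr (ar i) n N := by
  have hD0 : 0 ≤ D := (abs_nonneg _).trans (hD fun _ => ⟨0, by norm_num⟩)
  set ν := markLaw (K := K) M N lam μ
  have := isProbabilityMeasure_pp ν
  have hs := sN_pos (N := N)
  set P := Measure.pi fun _ : Fin N => η
  have hH : ∀ σ, Measurable fun ω : Dis K M N => pertHam x ω σ + u σ := fun σ =>
    (measurable_pertHam x σ).add_const _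
  have hFρ : ∀ (ρ : Fin n → Conf N) (c : ℝ),
      Measurable fun ω : Dis K M N => F (stageCube ω ρ) * w ρ * c := fun ρ c =>
    ((hFm.comp (measurable_stageCube ρ)).mul_const _).mul_const _
  have hbnd : ∀ (ω : Dis K M N) (ρ : Fin n → Conf N) (c : ℝ), |c| ≤ 1 →
      |F (stageCube ω ρ) * w ρ * c| ≤ D := fun ω ρ c hc => by
    rw [abs_mul, abs_mul]
    calc |F (stageCube ω ρ)| * |w ρ| * |c| ≤ D * 1 * 1 := by
          exact mul_le_mul (mul_le_mul (hD _) (hw ρ) (abs_nonneg _) hD0) hc (abs_nonneg _)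
            (by simpa using hD0)
      _ = D := by ring
  set Φ : Dis K M N → ℝ := fun ω => gav (fun σ => pertHam x ω σ + u σ) n
    fun ρ => F (stageCube ω ρ) * w ρ * stageR i A ω ρ with hΦ
  set Ψ : Dis K M N → ℝ := fun ω => gav (fun σ => pertHam x ω σ + u σ) n
    fun ρ => F (stageCube ω ρ) * w ρ * rawR i A ω.1 ρ with hΨ
  set T : (Fin (ar i) → Fin N) → Dis K M N → ℝ := fun I ω =>
    gav (fun σ => pertHam x ω σ + (u σ + tab (spcOf i) I σ)) n
      fun ρ => F (stageCube ω ρ) * w ρ * chiPat A I ρ with hT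
  have hrawm : ∀ ρ : Fin n → Conf N, Measurable fun ω : Dis K M N => rawR i A ω.1 ρ := fun ρ =>
    (((measurable_cfgSum (measurable_pick_fun i ((measurable_of_finite fun I =>
      chiPat A I ρ).comp measurable_fst))).comp measurable_fst).div_const _)
  have hΦm : Measurable Φ := measurable_gav hH fun ρ =>
    ((hFm.comp (measurable_stageCube ρ)).mul_const _).mul (measurable_stageR i A ρ)
  have hΨm : Measurable Ψ := measurable_gav hH fun ρ =>
    ((hFm.comp (measurable_stageCube ρ)).mul_const _).mul (hrawm ρ)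
  have hpt : ∀ ω : Dis K M N, |Φ ω - Ψ ω| ≤ D * |density i ω.1 - 1| := fun ω =>
    abs_gav_sub_gav_le _ fun ρ => by
      rw [← mul_sub, abs_mul]
      exact mul_le_mul (by simpa using hbnd ω ρ 1 (by simp)) (abs_stageR_sub_rawR_le i A ω ρ)
        (abs_nonneg _) hD0
  obtain ⟨hdi, hdb⟩ := integral_abs_density_sub_one (K := K) (lam := lam) (μ := μ) (N := N) i
  have hdi' : Integrable (fun ω : Dis K M N => D * |density i ω.1 - 1|)
      (disLaw M N lam μ η) := (hdi.const_mul D).comp_fst P
  have hΦi : Integrable Φ (disLaw M N lam μ η) :=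
    Integrable.of_bound hΦm.aestronglyMeasurable D (Filter.Eventually.of_forall fun ω =>
      (Real.norm_eq_abs _).le.trans (abs_gav_le _ fun ρ => hbnd ω ρ _ (abs_stageR_le i A ω ρ)))
  have hsub : Integrable (fun ω => Φ ω - Ψ ω) (disLaw M N lam μ η) :=
    hdi'.mono' (hΦm.sub hΨm).aestronglyMeasurable
      (Filter.Eventually.of_forall fun ω => (Real.norm_eq_abs _).le.trans (hpt ω))
  have hΨi : Integrable Ψ (disLaw M N lam μ η) := by
    refine (hΦi.sub hsub).congr (Filter.Eventually.of_forall fun ω => ?_)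
    simp
  -- clipping
  have h1 : |∫ ω, Φ ω ∂disLaw M N lam μ η - ∫ ω, Ψ ω ∂disLaw M N lam μ η| ≤
      D * (Real.sqrt (sN N))⁻¹ := by
    rw [← integral_sub hΦi hΨi]
    refine abs_integral_le_integral_abs.trans ((integral_mono hsub.abs hdi' hpt).trans ?_)
    rw [integral_const_mul, disLaw, integral_fun_fst (fun ω => |density i ω - 1|)]
    simp only [probReal_univ, one_smul]
    exact mul_le_mul_of_nonneg_left hdb hD0
  -- one clause
  have hTm : ∀ I, Measurable (T I) := fun I =>
    measurable_gav (fun σ => (measurable_pertHam x σ).add_const _) fun ρ => hFρ ρ _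
  have hTb : ∀ I ω, |T I ω| ≤ D := fun I ω =>
    abs_gav_le _ fun ρ => hbnd ω ρ _ (abs_chiPat A I ρ).le
  have hTi : ∀ I h, Integrable (fun ω => T I (ω, h)) (pp ν) := fun I h =>
    Integrable.of_bound ((hTm I).comp measurable_prodMk_right).aestronglyMeasurable D
      (Filter.Eventually.of_forall fun ω => (Real.norm_eq_abs _).le.trans (hTb I _))
  have hTint : ∀ I, Integrable (T I) (disLaw M N lam μ η) := fun I =>
    Integrable.of_bound (hTm I).aestronglyMeasurable D
      (Filter.Eventually.of_forall fun ω => (Real.norm_eq_abs _).le.trans (hTb I _))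
  have h2 : ∀ h, |∫ ω, Ψ (ω, h) ∂pp ν - siteAvg (ar i) N fun I => ∫ ω, T I (ω, h) ∂pp ν| ≤
      ε + 2 * n * D * (tiltC (ar i) * betaN N) := by
    intro h
    set b : (Fin n → Conf N) → Cfg (Mark K M N) → ℝ := fun ρ ω =>
      gw (fun σ => pertHam x (ω, h) σ + u σ) ρ * (F (stageCube (ω, h) ρ) * w ρ) with hb
    have hbm : ∀ ρ, Measurable (b ρ) := fun ρ =>
      ((measurable_gw hH ρ).comp measurable_prodMk_right).mul
        (((hFm.comp (measurable_stageCube ρ)).comp measurable_prodMk_right).mul_const _)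
    have hbb : ∀ ρ ω, |b ρ ω| ≤ D := fun ρ ω => by
      rw [hb, abs_mul, abs_of_nonneg (gw_nonneg _ _)]
      exact (mul_le_mul (gw_le_one _ _) (by simpa using hbnd (ω, h) ρ 1 (by simp)) (abs_nonneg _)
        zero_le_one).trans (one_mul D).le
    have hbs : ∀ ρ, CfgSymm (b ρ) := fun ρ m e v => by
      simp only [hb, pertHam_symm x h m e v, stageCube_symm h m e v ρ]
    have ham : ∀ ρ : Fin n → Conf N, Measurable fun g : PertMark N i => chiPat A g.1 ρ := fun ρ =>
      (measurable_of_finite fun I => chiPat A I ρ).comp measurable_fst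
    have hab : ∀ (ρ : Fin n → Conf N) (g : PertMark N i), |chiPat A g.1 ρ| ≤ 1 := fun ρ g =>
      (abs_chiPat A g.1 ρ).le
    set G : PertMark N i → Cfg (Mark K M N) → ℝ := fun g ω => ∑ ρ,
      chiPat A g.1 ρ * b ρ (Cfg.cons (Sum.inr ⟨i, g⟩) ω) with hG
    have hbc : ∀ ρ, Measurable fun p : PertMark N i × Cfg (Mark K M N) =>
        b ρ (Cfg.cons (Sum.inr ⟨i, p.1⟩) p.2) := fun ρ =>
      (hbm ρ).comp (measurable_cons.comp
        (((measurable_inr i).comp measurable_fst).prodMk measurable_snd))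
    have hbci : ∀ ρ g, Integrable (fun ω => b ρ (Cfg.cons (Sum.inr ⟨i, g⟩) ω)) (pp ν) :=
      fun ρ g => Integrable.of_bound ((hbc ρ).comp measurable_prodMk_left).aestronglyMeasurable D
        (Filter.Eventually.of_forall fun ω => (Real.norm_eq_abs _).le.trans (hbb _ _))
    have hbco : ∀ ρ, Integrable (fun g : PertMark N i => chiPat A g.1 ρ *
        ∫ ω, b ρ (Cfg.cons (Sum.inr ⟨i, g⟩) ω) ∂pp ν) (pertLaw N i) := fun ρ =>
      Integrable.of_bound ((ham ρ).mul
        (hbc ρ).stronglyMeasurable.integral_prod_right'.measurable).aestronglyMeasurable D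
        (Filter.Eventually.of_forall fun g => by
          rw [Real.norm_eq_abs, abs_mul, abs_chiPat, one_mul]
          simpa using norm_integral_le_of_norm_le_const (μ := pp ν) (C := D)
            (f := fun ω => b ρ (Cfg.cons (Sum.inr ⟨i, g⟩) ω))
            (Filter.Eventually.of_forall fun ω => (Real.norm_eq_abs _).le.trans (hbb _ _)))
    have hsum : ∀ ρ, Integrable (fun ω => Cfg.sum (pick i fun g => chiPat A g.1 ρ) ω * b ρ ω)
        (pp ν) := fun ρ =>
      ((integral_sum ν (Integrable.of_bound (measurable_pick_fun i (ham ρ)).aestronglyMeasurable 1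
        (Filter.Eventually.of_forall fun c =>
          (Real.norm_eq_abs _).le.trans (abs_pick_le zero_le_one (hab ρ) c)))).1.mul_bdd
        (hbm ρ).aestronglyMeasurable
        (Filter.Eventually.of_forall fun ω => (Real.norm_eq_abs _).le.trans (hbb ρ ω)))
    have e1 : ∫ ω, Ψ (ω, h) ∂pp ν = ∫ g, ∫ ω, G g ω ∂pp ν ∂pertLaw N i := by
      have : ∀ ω, Ψ (ω, h) = ∑ ρ, Cfg.sum (pick i fun g => chiPat A g.1 ρ) ω * b ρ ω / sN N :=
        fun ω => sum_congr rfl fun ρ _ => by simp only [hb, rawR]; ring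
      simp only [this, hG]
      rw [integral_finsetSum _ fun ρ _ => (hsum ρ).div_const _]
      simp only [integral_finsetSum _ fun ρ _ => (hbci ρ _).const_mul _, integral_const_mul]
      rw [integral_finsetSum _ fun ρ _ => hbco ρ]
      refine sum_congr rfl fun ρ _ => ?_
      rw [integral_div, palm i (ham ρ) (hab ρ) (hbm ρ) (hbs ρ) (hbb ρ), mul_div_assoc,
        mul_comm, div_mul_cancel₀ _ hs.ne']
    have hpt2 : ∀ g ω, |G g ω - T g.1 (ω, h)| ≤ ε + 2 * n * D * markSize i g := by
      intro g ω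
      set c : Mark K M N := Sum.inr ⟨i, g⟩
      set H₀ := fun σ => pertHam x (ω, h) σ + (u σ + tab (spcOf i) g.1 σ)
      have hv := abs_markPot_sub_tab_le (K := K) hx i g
      have eG : G g ω = gav (fun σ => H₀ σ + (markPot x c σ - tab (spcOf i) g.1 σ)) n
          fun ρ => F (stageCube (Cfg.cons c ω, h) ρ) * w ρ * chiPat A g.1 ρ := by
        simp only [hG, hb, gav]
        refine sum_congr rfl fun ρ _ => ?_
        rw [pertHam_cons, show (fun σ => pertHam x (ω, h) σ + markPot x c σ + u σ) =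
          fun σ => H₀ σ + (markPot x c σ - tab (spcOf i) g.1 σ) from funext fun σ => by
            simp only [H₀]; ring]
        ring
      rw [eG]
      refine (abs_sub_le _ (gav H₀ n fun ρ => F (stageCube (Cfg.cons c ω, h) ρ) * w ρ *
        chiPat A g.1 ρ) _).trans ?_
      have a1 := abs_gav_tilt_le (n := n) (D := D) H₀ hv
        (fun ρ => hbnd (Cfg.cons c ω, h) ρ _ (abs_chiPat A g.1 ρ).le)
      have a2 : |gav H₀ n (fun ρ => F (stageCube (Cfg.cons c ω, h) ρ) * w ρ * chiPat A g.1 ρ) -
          T g.1 (ω, h)| ≤ ε := abs_gav_sub_gav_le _ fun ρ => by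
        rw [← sub_mul, ← sub_mul, abs_mul, abs_mul, abs_chiPat, mul_one]
        exact (mul_le_of_le_one_right (abs_nonneg _) (hw ρ)).trans (hε c ω h ρ)
      linarith
    obtain ⟨hmi, hmb⟩ := integral_markSize_le (N := N) (i : ℕ)
    have hGi : ∀ g, Integrable (fun ω => G g ω) (pp ν) := fun g =>
      integrable_finsetSum _ fun ρ _ => (hbci ρ g).const_mul _
    have hG1 : Integrable (fun g => ∫ ω, G g ω ∂pp ν) (pertLaw N i) := by
      simp only [hG, integral_finsetSum _ fun ρ _ => (hbci ρ _).const_mul _, integral_const_mul]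
      exact integrable_finsetSum _ fun ρ _ => hbco ρ
    have hT1 : Integrable (fun g : PertMark N i => ∫ ω, T g.1 (ω, h) ∂pp ν) (pertLaw N i) :=
      (Integrable.of_finite (μ := Measure.pi fun _ : Fin (ar i) => unif N)
        (f := fun I => ∫ ω, T I (ω, h) ∂pp ν)).comp_fst _
    rw [e1, ← integral_pertLaw_fst, ← integral_sub hG1 hT1]
    have hbd : Integrable (fun g => ε + 2 * n * D * markSize i g) (pertLaw N i) :=
      (integrable_const ε).add (hmi.const_mul _)
    refine abs_integral_le_integral_abs.trans ((integral_mono (hG1.sub hT1).abs hbd fun g => ?_).trans ?_)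
    · simp only [Pi.sub_apply]
      rw [← integral_sub (hGi g) (hTi g.1 h)]
      exact (norm_integral_le_of_norm_le_const (μ := pp ν) (Filter.Eventually.of_forall fun ω =>
        (Real.norm_eq_abs _).le.trans (hpt2 g ω))).trans_eq (by simp)
    · rw [integral_add (integrable_const ε) (hmi.const_mul _), integral_const_mul]
      simp only [integral_const, probReal_univ, one_smul]
      have := mul_le_mul_of_nonneg_left hmb (by positivity : (0:ℝ) ≤ 2 * n * D)
      linarith
  have e3 : siteAvg (ar i) N (fun I => tiltAvg lam μ η x (fun σ => u σ + tab (spcOf i) I σ) n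
      fun ω ρ => F (stageCube ω ρ) * w ρ * chiPat A I ρ) =
      ∫ h, siteAvg (ar i) N (fun I => ∫ ω, T I (ω, h) ∂pp ν) ∂P := by
    simp only [siteAvg, integral_div, tiltAvg]
    rw [integral_finsetSum _ fun I _ => (hTint I).integral_prod_right]
    refine congrArg (· / _) (sum_congr rfl fun I _ => ?_)
    exact integral_prod_symm _ (hTint I)
  have hB : Integrable (fun h => siteAvg (ar i) N fun I => ∫ ω, T I (ω, h) ∂pp ν) P :=
    (integrable_finsetSum _ fun I _ => (hTint I).integral_prod_right).div_const _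
  have h3 : |∫ ω, Ψ ω ∂disLaw M N lam μ η - siteAvg (ar i) N (fun I =>
      tiltAvg lam μ η x (fun σ => u σ + tab (spcOf i) I σ) n
        fun ω ρ => F (stageCube ω ρ) * w ρ * chiPat A I ρ)| ≤
      ε + 2 * n * D * (tiltC (ar i) * betaN N) := by
    rw [e3, disLaw, integral_prod_symm _ hΨi, ← integral_sub hΨi.integral_prod_right hB]
    exact (norm_integral_le_of_norm_le_const (μ := P) (Filter.Eventually.of_forall fun h =>
      (Real.norm_eq_abs _).le.trans (h2 h))).trans_eq (by simp)
  have := abs_sub_le (∫ ω, Φ ω ∂disLaw M N lam μ η) (∫ ω, Ψ ω ∂disLaw M N lam μ η)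
    (siteAvg (ar i) N fun I => tiltAvg lam μ η x (fun σ => u σ + tab (spcOf i) I σ) n
      fun ω ρ => F (stageCube ω ρ) * w ρ * chiPat A I ρ)
  rw [show tiltAvg lam μ η x u n (fun ω ρ => F (stageCube ω ρ) * w ρ * stageR i A ω ρ) =
    ∫ ω, Φ ω ∂disLaw M N lam μ η from rfl]
  unfold stepErr
  linarith

end Vale.Agent.P168.Exi
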