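import Vale.Agent.P168.Fin.Model

/-!
P168: tilts of Gibbs averages of replicas of a finite system.
-/

namespace Vale.Agent.P168.Exi

open Finset

variable {N n m : ℕ}

/-- The weight of replicas under a potential. -/
noncomputable def gw (H : Conf N → ℝ) (ρ : Fin n → Conf N) : ℝ :=
  ∏ l, Real.exp (H (ρ l)) / ∑ σ, Real.exp (H σ)

/-- The average of replicas under a potential. -/
noncomputable def gav (H : Conf N → ℝ) (n : ℕ) (F : (Fin n → Conf N) → ℝ) : ℝ :=
  ∑ ρ, gw H ρ * F ρ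

lemma gibbs_eq_gav {K M : ℕ} (x : Par M) (ω : Dis K M N) (F : (Fin n → Conf N) → ℝ) :
    gibbs x ω n F = gav (pertHam x ω) n F := rfl

lemma gw_nonneg (H : Conf N → ℝ) (ρ : Fin n → Conf N) : 0 ≤ gw H ρ :=
  prod_nonneg fun _ _ => div_nonneg (Real.exp_pos _).le (sum_nonneg fun _ _ => (Real.exp_pos _).le)

lemma sum_exp_pos (H : Conf N → ℝ) : 0 < ∑ σ, Real.exp (H σ) :=
  sum_pos (fun _ _ => Real.exp_pos _) univ_nonempty

lemma sum_gw_one (H : Conf N → ℝ) : ∑ σ, Real.exp (H σ) / ∑ σ', Real.exp (H σ') = 1 := by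
  rw [← sum_div, div_self (sum_exp_pos H).ne']

lemma sum_gw (H : Conf N → ℝ) : ∑ ρ : Fin n → Conf N, gw H ρ = 1 := by
  unfold gw
  rw [← Fintype.prod_sum fun (_ : Fin n) σ => Real.exp (H σ) / ∑ σ', Real.exp (H σ')]
  simp [sum_gw_one]

lemma gw_le_one (H : Conf N → ℝ) (ρ : Fin n → Conf N) : gw H ρ ≤ 1 :=
  (sum_gw (n := n) H).symm ▸ single_le_sum (fun ρ _ => gw_nonneg H ρ) (mem_univ ρ)

lemma gav_const (H : Conf N → ℝ) (c : ℝ) : gav H n (fun _ => c) = c := by
  rw [gav, ← sum_mul, sum_gw, one_mul]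

lemma gav_add (H : Conf N → ℝ) (F G : (Fin n → Conf N) → ℝ) :
    gav H n (fun ρ => F ρ + G ρ) = gav H n F + gav H n G := by
  simp only [gav, mul_add, sum_add_distrib]

lemma gav_sub (H : Conf N → ℝ) (F G : (Fin n → Conf N) → ℝ) :
    gav H n (fun ρ => F ρ - G ρ) = gav H n F - gav H n G := by
  simp only [gav, mul_sub, sum_sub_distrib]

lemma gav_mul (H : Conf N → ℝ) (c : ℝ) (F : (Fin n → Conf N) → ℝ) :
    gav H n (fun ρ => c * F ρ) = c * gav H n F := by
  simp only [gav, mul_sum, mul_left_comm]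

lemma gav_sum {ι : Type} (s : Finset ι) (H : Conf N → ℝ) (F : ι → (Fin n → Conf N) → ℝ) :
    gav H n (fun ρ => ∑ a ∈ s, F a ρ) = ∑ a ∈ s, gav H n (F a) := by
  simp only [gav, mul_sum]
  exact sum_comm

lemma gav_mono (H : Conf N → ℝ) {F G : (Fin n → Conf N) → ℝ} (h : ∀ ρ, F ρ ≤ G ρ) :
    gav H n F ≤ gav H n G :=
  sum_le_sum fun ρ _ => mul_le_mul_of_nonneg_left (h ρ) (gw_nonneg H ρ)

lemma abs_gav_le (H : Conf N → ℝ) {F : (Fin n → Conf N) → ℝ} {D : ℝ} (h : ∀ ρ, |F ρ| ≤ D) :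
    |gav H n F| ≤ D :=
  abs_le.2 ⟨by
    have := gav_mono H (F := fun _ => -D) (G := F) fun ρ => (abs_le.1 (h ρ)).1
    rwa [gav_const] at this, by
    have := gav_mono H (F := F) (G := fun _ => D) fun ρ => (abs_le.1 (h ρ)).2
    rwa [gav_const] at this⟩

open Classical in
/-- The marginal on some of the replicas. -/
lemma gav_comp (H : Conf N → ℝ) {g : Fin n → Fin m} (hg : Function.Injective g)
    (F : (Fin n → Conf N) → ℝ) : gav H m (fun ρ => F (ρ ∘ g)) = gav H n F := by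
  set p : Conf N → ℝ := fun σ => Real.exp (H σ) / ∑ σ', Real.exp (H σ') with hp
  unfold gav gw
  rw [← sum_fiberwise univ (fun ρ : Fin m → Conf N => ρ ∘ g)]
  refine sum_congr rfl fun τ _ => ?_
  rw [sum_congr rfl (g := fun ρ => (∏ l, p (ρ l)) * F τ) fun ρ hρ => by
    simp only [mem_filter] at hρ; simp [hp, hρ.2], ← sum_mul, sum_filter]
  congr 1
  set q : Fin m → Conf N → ℝ := fun l σ =>
    if ∀ a, g a = l → σ = τ a then p σ else 0 with hq
  have h1 : ∀ ρ : Fin m → Conf N,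
      (if ρ ∘ g = τ then ∏ l, p (ρ l) else 0) = ∏ l, q l (ρ l) := fun ρ => by
    by_cases h : ρ ∘ g = τ
    · rw [if_pos h]
      refine prod_congr rfl fun l _ => (if_pos ?_).symm
      rintro a rfl
      exact congrFun h a
    · rw [if_neg h]
      obtain ⟨a, ha⟩ := Function.ne_iff.1 h
      exact (prod_eq_zero (mem_univ (g a)) (if_neg fun hh => ha (hh a rfl))).symm
  simp only [h1]
  rw [← Fintype.prod_sum]
  have h2 : ∀ a, ∑ σ, q (g a) σ = p (τ a) := fun a => by
    rw [sum_eq_single (τ a) (fun σ _ hσ => if_neg fun hh => hσ (hh a rfl))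
      (fun h => absurd (mem_univ _) h)]
    exact if_pos fun a' ha' => by rw [hg ha']
  have h3 : ∀ l ∉ univ.image g, ∑ σ, q l σ = 1 := fun l hl => by
    rw [sum_congr rfl (g := p) fun σ _ => if_pos fun a ha =>
      absurd (mem_image.2 ⟨a, mem_univ a, ha⟩) hl]
    exact sum_gw_one H
  rw [← prod_subset (subset_univ (univ.image g)) fun l _ hl => h3 l hl,
    prod_image fun a _ b _ h => hg h]
  exact prod_congr rfl fun a _ => h2 a

lemma gav_prod_last (H : Conf N → ℝ) (F : (Fin n → Conf N) → ℝ) (v : Conf N → ℝ) :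
    gav H (n + 1) (fun ρ => F (Fin.init ρ) * v (ρ (Fin.last n))) =
      gav H n F * gav H 1 (fun ρ => v (ρ 0)) := by
  unfold gav
  rw [sum_mul_sum, ← (Fin.snocEquiv fun _ : Fin (n + 1) => Conf N).sum_comp,
    Fintype.sum_prod_type, sum_comm]
  refine sum_congr rfl fun τ _ => ?_
  rw [← (Equiv.funUnique (Fin 1) (Conf N)).sum_comp]
  refine sum_congr rfl fun σ _ => ?_
  simp [gw, Fin.snocEquiv, Fin.prod_univ_castSucc]
  ring

/-- The centred sum of a potential over the replicas. -/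
noncomputable def score (H v : Conf N → ℝ) (ρ : Fin n → Conf N) : ℝ :=
  ∑ l, v (ρ l) - n * gav H 1 fun τ => v (τ 0)

lemma gw_eq_exp (H : Conf N → ℝ) (ρ : Fin n → Conf N) :
    gw H ρ = Real.exp (∑ l, H (ρ l) - n * Real.log (∑ σ, Real.exp (H σ))) := by
  rw [gw, prod_div_distrib, prod_const, card_univ, Fintype.card_fin, Real.exp_sub, Real.exp_sum,
    Real.exp_nat_mul, Real.exp_log (sum_exp_pos H)]

lemma hasDerivAt_gw (H v : Conf N → ℝ) (ρ : Fin n → Conf N) (s : ℝ) :
    HasDerivAt (fun r : ℝ => gw (fun σ => H σ + r * v σ) ρ)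
      (gw (fun σ => H σ + s * v σ) ρ * score (fun σ => H σ + s * v σ) v ρ) s := by
  simp only [gw_eq_exp]
  have hl : ∀ σ, HasDerivAt (fun r : ℝ => H σ + r * v σ) (v σ) s := fun σ => by
    simpa using ((hasDerivAt_id s).mul_const (v σ)).const_add (H σ)
  have hZ : HasDerivAt (fun r : ℝ => ∑ σ, Real.exp (H σ + r * v σ))
      (∑ σ, Real.exp (H σ + s * v σ) * v σ) s := HasDerivAt.fun_sum fun σ _ => (hl σ).exp
  have hS : HasDerivAt (fun r : ℝ => ∑ l, (H (ρ l) + r * v (ρ l))) (∑ l, v (ρ l)) s :=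
    HasDerivAt.fun_sum fun l _ => hl (ρ l)
  refine ((hS.sub ((hZ.log (sum_exp_pos _).ne').const_mul (n : ℝ))).exp).congr_deriv ?_
  congr 2
  congr 1
  rw [gav, sum_div, ← (Equiv.funUnique (Fin 1) (Conf N)).symm.sum_comp]
  refine sum_congr rfl fun σ _ => ?_
  simp [gw, div_mul_eq_mul_div]

/-- The derivative of an average in the strength of a tilt. -/
lemma hasDerivAt_gav (H v : Conf N → ℝ) (F : (Fin n → Conf N) → ℝ) (s : ℝ) :
    HasDerivAt (fun r : ℝ => gav (fun σ => H σ + r * v σ) n F)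
      (gav (fun σ => H σ + s * v σ) n fun ρ => score (fun σ => H σ + s * v σ) v ρ * F ρ) s := by
  unfold gav
  exact HasDerivAt.fun_sum fun ρ _ => ((hasDerivAt_gw H v ρ s).mul_const (F ρ)).congr_deriv
    (mul_assoc _ _ _)

lemma hasDerivAt_gav_score (H v : Conf N → ℝ) (F : (Fin n → Conf N) → ℝ) (s : ℝ) :
    HasDerivAt
      (fun r : ℝ => gav (fun σ => H σ + r * v σ) n fun ρ =>
        score (fun σ => H σ + r * v σ) v ρ * F ρ)
      (gav (fun σ => H σ + s * v σ) n
          (fun ρ => score (fun σ => H σ + s * v σ) v ρ ^ 2 * F ρ) -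
        n * gav (fun σ => H σ + s * v σ) 1
            (fun τ => score (fun σ => H σ + s * v σ) v τ * v (τ 0)) *
          gav (fun σ => H σ + s * v σ) n F) s := by
  have h : (fun r : ℝ => gav (fun σ => H σ + r * v σ) n fun ρ =>
      score (fun σ => H σ + r * v σ) v ρ * F ρ) = fun r => gav (fun σ => H σ + r * v σ) n
        (fun ρ => (∑ l, v (ρ l)) * F ρ) - (n * gav (fun σ => H σ + r * v σ) 1 fun τ => v (τ 0)) *
          gav (fun σ => H σ + r * v σ) n F := by
    funext r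
    simp only [score, sub_mul, gav_sub, gav_mul]
  rw [h]
  refine ((hasDerivAt_gav H v (fun ρ : Fin n → Conf N => (∑ l, v (ρ l)) * F ρ) s).sub
    (((hasDerivAt_gav H v (fun τ : Fin 1 → Conf N => v (τ 0)) s).const_mul (n : ℝ)).mul
      (hasDerivAt_gav H v F s))).congr_deriv ?_
  have e2 : ∀ (G : Conf N → ℝ) (ρ : Fin n → Conf N), score G v ρ ^ 2 * F ρ =
      ((∑ l, v (ρ l)) * ((∑ l, v (ρ l)) * F ρ) -
          2 * (n * gav G 1 fun τ => v (τ 0)) * ((∑ l, v (ρ l)) * F ρ)) +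
        (n * gav G 1 fun τ => v (τ 0)) ^ 2 * F ρ := fun G ρ => by
    simp only [score]
    ring
  simp only [e2, gav_add, gav_sub, gav_mul]
  simp only [score, sub_mul, gav_sub, gav_mul]
  ring

lemma abs_score_le (H : Conf N → ℝ) {v : Conf N → ℝ} {U : ℝ} (hv : ∀ σ, |v σ| ≤ U)
    (ρ : Fin n → Conf N) : |score H v ρ| ≤ 2 * n * U := by
  refine (abs_sub _ _).trans ?_
  have h1 : |∑ l, v (ρ l)| ≤ n * U := (abs_sum_le_sum_abs _ _).trans
    ((sum_le_card_nsmul _ _ _ fun l _ => hv _).trans_eq (by simp))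
  have h2 : |(n : ℝ) * gav H 1 fun τ => v (τ 0)| ≤ n * U := by
    rw [abs_mul, Nat.abs_cast]
    exact mul_le_mul_of_nonneg_left (abs_gav_le H fun τ => hv _) (Nat.cast_nonneg _)
  linarith

/-- A small tilt moves an average little. -/
lemma abs_gav_tilt_le (H : Conf N → ℝ) {v : Conf N → ℝ} {U D : ℝ} (hv : ∀ σ, |v σ| ≤ U)
    {F : (Fin n → Conf N) → ℝ} (hF : ∀ ρ, |F ρ| ≤ D) :
    |gav (fun σ => H σ + v σ) n F - gav H n F| ≤ 2 * n * U * D := by
  have h := norm_image_sub_le_of_norm_deriv_le_segment_01'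
    (f := fun r : ℝ => gav (fun σ => H σ + r * v σ) n F) (C := 2 * n * U * D)
    (fun r _ => (hasDerivAt_gav H v F r).hasDerivWithinAt) fun r _ => by
      rw [Real.norm_eq_abs]
      refine abs_gav_le _ fun ρ => ?_
      rw [abs_mul]
      exact mul_le_mul (abs_score_le _ hv ρ) (hF ρ) (abs_nonneg _)
        ((abs_nonneg _).trans (abs_score_le H hv ρ))
  simpa [Real.norm_eq_abs] using h

/-- The expansion to first order in a tilt. -/
lemma abs_gav_expand_le (H : Conf N → ℝ) {v : Conf N → ℝ} {U D : ℝ} (hU : 0 ≤ U)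
    (hv : ∀ σ, |v σ| ≤ U) {F : (Fin n → Conf N) → ℝ} (hF : ∀ ρ, |F ρ| ≤ D) :
    |gav (fun σ => H σ + v σ) n F - gav H n F - gav H n fun ρ => score H v ρ * F ρ| ≤
      4 * ((n : ℝ) + 1) ^ 2 * U ^ 2 * D := by
  have hD : 0 ≤ D := (abs_nonneg _).trans (hF fun _ _ => false)
  set C := 4 * ((n : ℝ) + 1) ^ 2 * U ^ 2 * D with hC
  have hC0 : 0 ≤ C := by positivity
  set g := fun r : ℝ => gav (fun σ => H σ + r * v σ) n F with hg
  set g' := fun r : ℝ => gav (fun σ => H σ + r * v σ) n fun ρ =>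
    score (fun σ => H σ + r * v σ) v ρ * F ρ with hg'
  have h2 : ∀ r ∈ Set.Icc (0 : ℝ) 1, |g' r - g' 0| ≤ C := by
    intro r hr
    have h := norm_image_sub_le_of_norm_deriv_le_segment' (f := g') (C := C) (a := 0) (b := r)
      (fun s _ => (hasDerivAt_gav_score H v F s).hasDerivWithinAt) (fun s _ => ?_) r
      (Set.right_mem_Icc.2 hr.1)
    · simp only [Real.norm_eq_abs, sub_zero] at h
      exact h.trans (mul_le_of_le_one_right hC0 hr.2)
    · rw [Real.norm_eq_abs]
      set G : Conf N → ℝ := fun σ => H σ + s * v σ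
      have b1 : |gav G n fun ρ => score G v ρ ^ 2 * F ρ| ≤ (2 * n * U) ^ 2 * D :=
        abs_gav_le _ fun ρ => by
          rw [abs_mul, abs_pow]
          exact mul_le_mul (pow_le_pow_left₀ (abs_nonneg _) (abs_score_le _ hv ρ) 2) (hF ρ)
            (abs_nonneg _) (by positivity)
      have b2 : |gav G 1 fun τ => score G v τ * v (τ 0)| ≤ 2 * U * U :=
        abs_gav_le _ fun τ => by
          rw [abs_mul]
          exact mul_le_mul (by simpa using abs_score_le G hv τ) (hv _) (abs_nonneg _)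
            (by positivity)
      refine (abs_sub _ _).trans ?_
      rw [abs_mul, abs_mul, Nat.abs_cast]
      have b3 := mul_le_mul (mul_le_mul_of_nonneg_left b2 (Nat.cast_nonneg n))
        (abs_gav_le G hF) (abs_nonneg _) (by positivity)
      have : 0 ≤ U ^ 2 * D * n := by positivity
      have : 0 ≤ U ^ 2 * D := by positivity
      nlinarith
  have hd : ∀ r : ℝ, HasDerivAt (fun r => g r - r * g' 0) (g' r - g' 0) r := fun r =>
    ((hasDerivAt_gav H v F r).sub ((hasDerivAt_id r).mul_const (g' 0))).congr_deriv (by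
      simp only [hg', one_mul])
  have h := norm_image_sub_le_of_norm_deriv_le_segment_01'
    (f := fun r => g r - r * g' 0) (C := C)
    (fun r _ => (hd r).hasDerivWithinAt) fun r hr => by
      rw [Real.norm_eq_abs]; exact h2 r (Set.Ico_subset_Icc_self hr)
  simp only [hg, hg', one_mul, zero_mul, add_zero, sub_zero, Real.norm_eq_abs] at h
  rwa [sub_right_comm] at h

end Vale.Agent.P168.Exi
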